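import Vale.Agent.P231Z.Alg.DG2

/-!
# P231, Cayley case, algebra (4): the Cartan model with a primitive adjoined
-/

set_option linter.unusedSectionVars false
set_option linter.unusedVariables false

namespace Vale.Agent.P231Z.Alg

open Polynomial

/-- the data of a Cartan model with a closed class `x` of degree eight -/
structure Car (R : Type*) [Ring R] [Algebra ℝ R] where
  s : SD R
  J : R →ₗ[ℝ] R
  hJ : Der s J (-1)
  JJ : ∀ a, J (J a) = 0
  Jd : ∀ a, J (s.d a) = -s.d (J a)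
  JK : ∀ a, J a ∈ s.K
  x : R
  xG : x ∈ s.G 8
  xd : s.d x = 0
  x3 : x ^ 3 ∈ s.K

variable {R S S' : Type*} [Ring R] [Algebra ℝ R] [Ring S] [Algebra ℝ S] [Ring S'] [Algebra ℝ S']

namespace Car

variable (c : Car R)

/-- the transgression of `x` -/
def A : R := c.J c.x

theorem AG : c.A ∈ c.s.G 7 := c.s.cast (c.hJ.G c.xG) (by norm_num)

theorem Ad : c.s.d c.A = 0 := by
  have h := c.Jd c.x
  rw [c.xd, map_zero] at h
  exact neg_eq_zero.1 h.symm

theorem AK : c.A ∈ c.s.K := c.JK _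

theorem JA : c.J c.A = 0 := c.JJ _

theorem xe : c.s.sg c.x = c.x := c.s.G_even (by decide) c.xG

theorem Ao : c.s.sg c.A = -c.A := c.s.G_odd (by decide) c.AG

theorem AA : c.A * c.A = 0 := c.s.sq_odd c.Ao

/-- the Cartan model -/
noncomputable def s1 : SD R[X] := c.s.tw c.hJ c.JJ c.Jd

theorem d1_C (a : R) : c.s1.d (C a) = C (c.s.d a) - X * C (c.J a) := c.s.tw_d_C _ _ _ a

theorem d1_X_mul (p : R[X]) : c.s1.d (X * p) = X * c.s1.d p := c.s.tw_d_X_mul _ _ _ p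

theorem d1_X_pow_mul (n : ℕ) (p : R[X]) : c.s1.d (X ^ n * p) = X ^ n * c.s1.d p := by
  induction n with
  | zero => simp
  | succ n ih => rw [pow_succ', mul_assoc, d1_X_mul, ih, mul_assoc]

theorem d1_coeff (p : R[X]) : (c.s1.d p).coeff 0 = c.s.d (p.coeff 0) := c.s.tw_d_coeff _ _ _ p

theorem G1_C {i : ℤ} {a : R} (h : a ∈ c.s.G i) : C a ∈ c.s1.G i := c.s.tw_C_G _ _ _ h

theorem K1_C {a : R} (h : a ∈ c.s.K) : C a ∈ c.s1.K := c.s.tw_C_K _ _ _ h

theorem G1_X : (X : R[X]) ∈ c.s1.G 2 := c.s.tw_X_G _ _ _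

theorem d1_A : c.s1.d (C c.A) = 0 := by
  rw [d1_C, c.Ad, c.JA, map_zero, mul_zero, sub_zero]

/-- the model with the primitive of `A` adjoined -/
noncomputable def s2 : SD R[X][X] := c.s1.adj (c.G1_C c.AG) c.d1_A (c.K1_C c.AK)

theorem d2_C (p : R[X]) : c.s2.d (C p) = C (c.s1.d p) := c.s1.adj_d_C _ _ _ p

theorem d2_X : c.s2.d X = C (C c.A) := c.s1.adj_d_X _ _ _

theorem d2_der (p : R[X][X]) : c.s2.d (derivative p) = derivative (c.s2.d p) :=
  c.s1.adj_d_der _ _ _ p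

theorem G2_C {i : ℤ} {a : R[X]} (h : a ∈ c.s1.G i) : C a ∈ c.s2.G i := c.s1.adj_C_G _ _ _ h

theorem K2_C {a : R[X]} (h : a ∈ c.s1.K) : C a ∈ c.s2.K := c.s1.adj_C_K _ _ _ h

theorem G2_X : (X : R[X][X]) ∈ c.s2.G 6 := c.s1.adj_X_G _ _ _

theorem K2_der {p : R[X][X]} (h : p ∈ c.s2.K) : derivative p ∈ c.s2.K := c.s1.adj_der_K _ _ _ h

/-- the variable `u` -/
noncomputable def u : c.s2.Ev := ⟨C X, c.s2.G_even even_two (c.G2_C c.G1_X)⟩

/-- the variable `ξ` -/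
noncomputable def ξ : c.s2.Ev := ⟨X, c.s2.G_even (by decide) c.G2_X⟩

/-- the form `x` -/
noncomputable def xx : c.s2.Ev := ⟨C (C c.x), c.s2.G_even (by decide) (c.G2_C (c.G1_C c.xG))⟩

/-- the form `A` -/
noncomputable def aa : R[X][X] := C (C c.A)

theorem uG : c.u.1 ∈ c.s2.G 2 := c.G2_C c.G1_X

theorem ξG : c.ξ.1 ∈ c.s2.G 6 := c.G2_X

theorem xxG : c.xx.1 ∈ c.s2.G 8 := c.G2_C (c.G1_C c.xG)

theorem aaK : c.aa ∈ c.s2.K := c.K2_C (c.K1_C c.AK)

theorem d_u : c.s2.d c.u.1 = 0 := by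
  change c.s2.d (C X) = 0
  rw [d2_C, ← mul_one (X : R[X]), d1_X_mul, c.s1.d_one, mul_zero, map_zero]

theorem d_ξ : c.s2.d c.ξ.1 = c.aa := c.d2_X

theorem d_xx : c.s2.d c.xx.1 = -(c.aa * c.u.1) := by
  change c.s2.d (C (C c.x)) = -(C (C c.A) * C X)
  rw [d2_C, d1_C, c.xd, map_zero, zero_sub, map_neg, ← map_mul, ← (commute_X (C c.A)).eq]
  rfl

theorem xx3 : (c.xx ^ 3).1 ∈ c.s2.K := by
  change C (C c.x) ^ 3 ∈ c.s2.K
  rw [← map_pow, ← map_pow]
  exact c.K2_C (c.K1_C c.x3)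

/-- polynomials in `x, u, ξ` -/
abbrev Pol := MvPolynomial (Fin 3) ℝ

/-- the substitution -/
noncomputable def τ : Pol →ₐ[ℝ] c.s2.Ev := MvPolynomial.aeval ![c.xx, c.u, c.ξ]

theorem τ0 : c.τ (MvPolynomial.X 0) = c.xx := MvPolynomial.aeval_X _ _

theorem τ1 : c.τ (MvPolynomial.X 1) = c.u := MvPolynomial.aeval_X _ _

theorem τ2 : c.τ (MvPolynomial.X 2) = c.ξ := MvPolynomial.aeval_X _ _

/-- the operator `∂_ξ - u ∂_x` -/
noncomputable def δ (g : Pol) : Pol :=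
  MvPolynomial.pderiv 2 g - MvPolynomial.X 1 * MvPolynomial.pderiv 0 g

theorem δ_add (f g : Pol) : δ (f + g) = δ f + δ g := by
  simp only [δ, map_add]
  ring

theorem δ_mul (f g : Pol) : δ (f * g) = δ f * g + f * δ g := by
  simp only [δ, Derivation.leibniz, smul_eq_mul]
  ring

theorem d_τ (g : Pol) : c.s2.d (c.τ g).1 = c.aa * (c.τ (δ g)).1 := by
  induction g using MvPolynomial.induction_on with
  | C r =>
    have h1 : δ (MvPolynomial.C r) = 0 := by simp [δ]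
    have h2 : c.τ (MvPolynomial.C r) = algebraMap ℝ _ r := c.τ.commutes r
    rw [h1, h2, map_zero]
    exact (c.s2.d_alg r).trans (mul_zero _).symm
  | add f g hf hg =>
    rw [map_add, δ_add, map_add]
    change c.s2.d ((c.τ f).1 + (c.τ g).1) = c.aa * ((c.τ (δ f)).1 + (c.τ (δ g)).1)
    rw [map_add, hf, hg, mul_add]
  | mul_X f i hf =>
    have h1 : c.s2.d (c.τ (MvPolynomial.X i)).1 = c.aa * (c.τ (δ (MvPolynomial.X i))).1 := by
      fin_cases i
      · have h2 : δ (MvPolynomial.X 0) = -MvPolynomial.X 1 := by simp [δ]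
        change c.s2.d (c.τ (MvPolynomial.X 0)).1 = c.aa * (c.τ (δ (MvPolynomial.X 0))).1
        rw [h2, map_neg, τ0, τ1, d_xx]
        exact (mul_neg c.aa c.u.1).symm
      · have h2 : δ (MvPolynomial.X 1) = 0 := by simp [δ]
        change c.s2.d (c.τ (MvPolynomial.X 1)).1 = c.aa * (c.τ (δ (MvPolynomial.X 1))).1
        rw [h2, map_zero, τ1, d_u]
        exact (mul_zero _).symm
      · have h2 : δ (MvPolynomial.X 2) = 1 := by simp [δ]
        change c.s2.d (c.τ (MvPolynomial.X 2)).1 = c.aa * (c.τ (δ (MvPolynomial.X 2))).1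
        rw [h2, map_one, τ2, d_ξ]
        exact (mul_one _).symm
    rw [map_mul, δ_mul, map_add, map_mul, map_mul]
    change c.s2.d ((c.τ f).1 * (c.τ (MvPolynomial.X i)).1) =
      c.aa * ((c.τ (δ f)).1 * (c.τ (MvPolynomial.X i)).1 +
        (c.τ f).1 * (c.τ (δ (MvPolynomial.X i))).1)
    rw [c.s2.d_mul_even (c.τ f).2, hf, h1, mul_add, mul_assoc, ← mul_assoc (c.τ f).1,
      c.s2.even _ c.aa (c.τ f).2, mul_assoc]

theorem d_τ_K (g : Pol) : c.s2.d (c.τ g).1 ∈ c.s2.K := by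
  rw [d_τ]
  exact c.s2.K_r _ c.aaK

theorem der_τ (g : Pol) : derivative (c.τ g).1 = (c.τ (MvPolynomial.pderiv 2 g)).1 := by
  induction g using MvPolynomial.induction_on with
  | C r =>
    have h2 : c.τ (MvPolynomial.C r) = algebraMap ℝ _ r := c.τ.commutes r
    rw [h2, MvPolynomial.pderiv_C, map_zero]
    exact derivative_C
  | add f g hf hg =>
    rw [map_add, map_add, map_add]
    change derivative ((c.τ f).1 + (c.τ g).1) = (c.τ _).1 + (c.τ _).1
    rw [map_add, hf, hg]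
  | mul_X f i hf =>
    have h1 : derivative (c.τ (MvPolynomial.X i)).1 =
        (c.τ (MvPolynomial.pderiv 2 (MvPolynomial.X i))).1 := by
      fin_cases i
      · change derivative (c.τ (MvPolynomial.X 0)).1 =
          (c.τ (MvPolynomial.pderiv 2 (MvPolynomial.X 0))).1
        rw [τ0, MvPolynomial.pderiv_X_of_ne (by decide), map_zero]
        exact derivative_C
      · change derivative (c.τ (MvPolynomial.X 1)).1 =
          (c.τ (MvPolynomial.pderiv 2 (MvPolynomial.X 1))).1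
        rw [τ1, MvPolynomial.pderiv_X_of_ne (by decide), map_zero]
        exact derivative_C
      · change derivative (c.τ (MvPolynomial.X 2)).1 =
          (c.τ (MvPolynomial.pderiv 2 (MvPolynomial.X 2))).1
        rw [τ2, MvPolynomial.pderiv_X_self, map_one]
        exact derivative_X
    rw [map_mul, Derivation.leibniz, smul_eq_mul, smul_eq_mul, map_add, map_mul, map_mul,
      mul_comm (c.τ (MvPolynomial.X i)), add_comm]
    change derivative ((c.τ f).1 * (c.τ (MvPolynomial.X i)).1) =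
      (c.τ _).1 * (c.τ (MvPolynomial.X i)).1 + (c.τ f).1 * (c.τ _).1
    rw [derivative_mul, hf, h1]

end Car

/-- the data of an evaluation -/
structure EvD (c : Car R) (t : SD S) where
  φ : R →ₐ[ℝ] S
  e : S
  η : S
  eG : e ∈ t.G 2
  ed : t.d e = 0
  hd : ∀ a, φ (c.s.d a) - e * φ (c.J a) = t.d (φ a)
  hs : ∀ a, φ (c.s.sg a) = t.sg (φ a)
  hG : ∀ {i : ℤ} {a : R}, a ∈ c.s.G i → φ a ∈ t.G i
  ηG : η ∈ t.G 6
  ηd : t.d η = φ c.A

namespace EvD

variable {c : Car R} {t : SD S} (v : EvD c t)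

/-- evaluation, first level -/
noncomputable def ev1 : R[X] →ₐ[ℝ] S := evp t v.φ v.e (t.G_even even_two v.eG)

/-- evaluation -/
noncomputable def ev : R[X][X] →ₐ[ℝ] S := evp t v.ev1 v.η (t.G_even (by decide) v.ηG)

theorem mor1 : Mor c.s1 t v.ev1 := mor_tw c.hJ c.JJ c.Jd _ v.eG v.ed v.hd v.hs v.hG

theorem mor : Mor c.s2 t v.ev :=
  mor_adj _ _ _ v.mor1 _ v.ηG (v.ηd.trans (evp_C t v.φ _ c.A).symm)

theorem ev_CC (a : R) : v.ev (C (C a)) = v.φ a := (evp_C t v.ev1 _ _).trans (evp_C t v.φ _ a)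

theorem ev_u : v.ev c.u.1 = v.e := (evp_C t v.ev1 _ _).trans (evp_X t v.φ _)

theorem ev_ξ : v.ev c.ξ.1 = v.η := evp_X t v.ev1 _

theorem ev_xx : v.ev c.xx.1 = v.φ c.x := v.ev_CC c.x

theorem ev_K (h : ∀ a ∈ c.s.K, v.φ a = 0) {p : R[X][X]} (hp : p ∈ c.s2.K) : v.ev p = 0 :=
  evp_zero t _ _ p fun n => evp_zero t _ _ _ fun m => h _ (hp n m)

theorem ev_nat {t' : SD S'} (v' : EvD c t') (ψ : S →ₐ[ℝ] S') (h1 : ∀ a, ψ (v.φ a) = v'.φ a)
    (h2 : ψ v.e = v'.e) (h3 : ψ v.η = v'.η) (p : R[X][X]) : ψ (v.ev p) = v'.ev p :=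
  evp_nat t _ _ t' ψ _ _ (evp_nat t _ _ t' ψ _ _ h1 h2) h3 p

end EvD

end Vale.Agent.P231Z.Alg
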