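import Mathlib

/-!
# P231, Cayley case, algebra (1): graded differential algebras with an ideal, polynomial
extensions
-/

set_option linter.unusedSectionVars false
set_option linter.unusedVariables false

namespace Vale.Agent.P231Z.Alg

open Polynomial

/-- a graded commutative differential algebra with a differential ideal `K` -/
structure SD (R : Type*) [Ring R] [Algebra ℝ R] where
  d : R →ₗ[ℝ] R
  sg : R →ₐ[ℝ] R
  G : ℤ → Submodule ℝ R
  K : Submodule ℝ R
  d_mul : ∀ a b, d (a * b) = d a * b + sg a * d b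
  d_d : ∀ a, d (d a) = 0
  d_sg : ∀ a, d (sg a) = -sg (d a)
  even : ∀ a b, sg a = a → a * b = b * a
  odd : ∀ a b, sg a = -a → a * b = sg b * a
  G_one : (1 : R) ∈ G 0
  G_mul : ∀ {i j : ℤ} {a b : R}, a ∈ G i → b ∈ G j → a * b ∈ G (i + j)
  G_d : ∀ {i : ℤ} {a : R}, a ∈ G i → d a ∈ G (i + 1)
  G_neg : ∀ {i : ℤ} {a : R}, i < 0 → a ∈ G i → a = 0
  G_even : ∀ {i : ℤ} {a : R}, Even i → a ∈ G i → sg a = a
  G_odd : ∀ {i : ℤ} {a : R}, Odd i → a ∈ G i → sg a = -a
  K_l : ∀ (a : R) {b : R}, b ∈ K → a * b ∈ K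
  K_r : ∀ {a : R} (b : R), a ∈ K → a * b ∈ K
  K_d : ∀ {a : R}, a ∈ K → d a ∈ K

variable {R S : Type*} [Ring R] [Algebra ℝ R] [Ring S] [Algebra ℝ S]

/-- an odd derivation of degree `k` -/
structure Der (s : SD R) (δ : R →ₗ[ℝ] R) (k : ℤ) : Prop where
  mul : ∀ a b, δ (a * b) = δ a * b + s.sg a * δ b
  sg : ∀ a, δ (s.sg a) = -s.sg (δ a)
  G : ∀ {i : ℤ} {a : R}, a ∈ s.G i → δ a ∈ s.G (i + k)
  K : ∀ {a : R}, a ∈ s.K → δ a ∈ s.K

theorem Der.cast {s : SD R} {δ : R →ₗ[ℝ] R} {k j : ℤ} (h : Der s δ k) (e : k = j) :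
    Der s δ j := e ▸ h

namespace SD

variable (s : SD R)

theorem der : Der s s.d 1 := ⟨s.d_mul, s.d_sg, s.G_d, s.K_d⟩

theorem cast {i j : ℤ} {a : R} (h : a ∈ s.G i) (e : i = j) : a ∈ s.G j := e ▸ h

theorem G_pow {i : ℤ} {a : R} (h : a ∈ s.G i) (n : ℕ) : a ^ n ∈ s.G (i * n) := by
  induction n with
  | zero => simpa using s.G_one
  | succ n ih =>
    rw [pow_succ]
    exact s.cast (s.G_mul ih h) (by push_cast; ring)

theorem G_alg (r : ℝ) : algebraMap ℝ R r ∈ s.G 0 := by
  rw [Algebra.algebraMap_eq_smul_one]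
  exact Submodule.smul_mem _ _ s.G_one

theorem d_one : s.d 1 = 0 := by
  have h := s.d_mul 1 1
  simp only [mul_one, one_mul, map_one] at h
  exact left_eq_add.1 h

theorem d_alg (r : ℝ) : s.d (algebraMap ℝ R r) = 0 := by
  rw [Algebra.algebraMap_eq_smul_one, map_smul, d_one, smul_zero]

theorem sq_odd {a : R} (h : s.sg a = -a) : a * a = 0 := by
  have h1 := s.odd a a h
  rw [h, neg_mul] at h1
  have h2 : (2 : ℝ) • (a * a) = 0 := by
    rw [two_smul]
    nth_rewrite 1 [h1]
    exact neg_add_cancel _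
  exact (smul_eq_zero.1 h2).resolve_left two_ne_zero

theorem d_mul_even {a : R} (h : s.sg a = a) (b : R) : s.d (a * b) = s.d a * b + a * s.d b := by
  rw [s.d_mul, h]

theorem d_mul_closed {a : R} (h : s.sg a = a) (hd : s.d a = 0) (b : R) :
    s.d (a * b) = a * s.d b := by
  rw [s.d_mul, h, hd, zero_mul, zero_add]

theorem d_pow_closed {a : R} (h : s.sg a = a) (hd : s.d a = 0) (n : ℕ) : s.d (a ^ n) = 0 := by
  induction n with
  | zero => rw [pow_zero, d_one]
  | succ n ih => rw [pow_succ', s.d_mul_closed h hd, ih, mul_zero]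

theorem d_pow_succ {a : R} (h : s.sg a = a) (n : ℕ) :
    s.d (a ^ (n + 1)) = ((n + 1 : ℕ) : ℝ) • (s.d a * a ^ n) := by
  induction n with
  | zero => simp
  | succ n ih =>
    rw [pow_succ' a (n + 1), s.d_mul_even h, ih, mul_smul_comm, ← mul_assoc, s.even a _ h,
      mul_assoc, ← pow_succ', Nat.cast_succ (n + 1), add_smul, one_smul, add_comm]

/-- perturbation of the differential -/
def pert {δ : R →ₗ[ℝ] R} (h : Der s δ 1)
    (h2 : ∀ a, s.d (δ a) + δ (s.d a) + δ (δ a) = 0) : SD R :=
  { s with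
    d := s.d + δ
    d_mul := fun a b => by
      simp only [LinearMap.add_apply, s.d_mul, h.mul, add_mul, mul_add]
      abel
    d_d := fun a => by
      simp only [LinearMap.add_apply, map_add, s.d_d, zero_add]
      rw [← h2 a]
      abel
    d_sg := fun a => by
      simp only [LinearMap.add_apply, map_add, s.d_sg, h.sg]
      abel
    G_d := fun ha => Submodule.add_mem _ (s.G_d ha) (h.G ha)
    K_d := fun ha => Submodule.add_mem _ (s.K_d ha) (h.K ha) }

end SD

/-- a linear map applied to the coefficients -/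
noncomputable def cm (f : R →ₗ[ℝ] S) : R[X] →ₗ[ℝ] S[X] :=
  lsum (fun n => ((monomial n : S →ₗ[S] S[X]).restrictScalars ℝ).comp f)

theorem coeff_cm (f : R →ₗ[ℝ] S) (p : R[X]) (n : ℕ) : (cm f p).coeff n = f (p.coeff n) := by
  induction p using Polynomial.induction_on' with
  | add p q hp hq => simp only [map_add, coeff_add, hp, hq]
  | monomial m a =>
    have h1 : cm f (monomial m a) = monomial m (f a) := by
      rw [cm, lsum_apply, sum_monomial_index]
      · rfl
      · simp
    rw [h1, coeff_monomial, coeff_monomial]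
    split_ifs <;> simp

theorem cm_monomial (f : R →ₗ[ℝ] S) (m : ℕ) (a : R) : cm f (monomial m a) = monomial m (f a) := by
  ext n
  rw [coeff_cm, coeff_monomial, coeff_monomial]
  split_ifs <;> simp

theorem cm_C (f : R →ₗ[ℝ] S) (a : R) : cm f (C a) = C (f a) := cm_monomial f 0 a

theorem cm_X_mul (f : R →ₗ[ℝ] S) (p : R[X]) : cm f (X * p) = X * cm f p := by
  ext n
  rcases n with _ | n
  · simp [coeff_cm]
  · simp [coeff_cm, coeff_X_mul]

theorem mul_succ_eq (a : R) (n : ℕ) : a * ((n : R) + 1) = ((n : ℝ) + 1) • a := by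
  rw [Algebra.smul_def, map_add, map_natCast, map_one]
  exact ((Nat.cast_commute n a).add_left (Commute.one_left a)).eq.symm

theorem cm_derivative (f : R →ₗ[ℝ] S) (p : R[X]) :
    cm f (derivative p) = derivative (cm f p) := by
  ext n
  rw [coeff_cm, coeff_derivative, coeff_derivative, coeff_cm, mul_succ_eq, mul_succ_eq, map_smul]

theorem coeff_mapA (f : R →ₐ[ℝ] S) (p : R[X]) (n : ℕ) :
    (mapAlgHom f p).coeff n = f (p.coeff n) := by
  rw [coe_mapAlgHom, coeff_map]
  rfl

theorem mapA_C (f : R →ₐ[ℝ] S) (a : R) : mapAlgHom f (C a) = C (f a) := by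
  rw [coe_mapAlgHom, map_C]
  rfl

theorem mapA_X (f : R →ₐ[ℝ] S) : mapAlgHom f (X : R[X]) = X := by
  rw [coe_mapAlgHom, map_X]

theorem mapA_derivative (f : R →ₐ[ℝ] S) (p : R[X]) :
    mapAlgHom f (derivative p) = derivative (mapAlgHom f p) := by
  rw [coe_mapAlgHom, derivative_map]

/-- the polynomials with coefficients in given submodules -/
def PS (N : ℕ → Submodule ℝ R) : Submodule ℝ R[X] where
  carrier := {p | ∀ i, p.coeff i ∈ N i}
  add_mem' := fun {p q} hp hq i => by
    rw [coeff_add]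
    exact Submodule.add_mem _ (hp i) (hq i)
  zero_mem' := fun i => by
    rw [coeff_zero]
    exact Submodule.zero_mem _
  smul_mem' := fun c p hp i => by
    rw [coeff_smul]
    exact Submodule.smul_mem _ _ (hp i)

theorem mem_PS {N : ℕ → Submodule ℝ R} {p : R[X]} : p ∈ PS N ↔ ∀ i, p.coeff i ∈ N i := Iff.rfl

theorem cm_mul {σ : R →ₐ[ℝ] R} {δ : R →ₗ[ℝ] R} (h : ∀ a b, δ (a * b) = δ a * b + σ a * δ b)
    (p q : R[X]) : cm δ (p * q) = cm δ p * q + mapAlgHom σ p * cm δ q := by
  ext n
  simp only [coeff_cm, coeff_mul, coeff_add, map_sum, h, coeff_mapA, Finset.sum_add_distrib]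

namespace SD

variable (s : SD R)

/-- adjoining a closed variable of even degree `m` -/
noncomputable def pol (m : ℕ) (hm : Even m) : SD R[X] where
  d := cm s.d
  sg := mapAlgHom s.sg
  G := fun z => PS (fun i => s.G (z - m * i))
  K := PS (fun _ => s.K)
  d_mul := cm_mul s.d_mul
  d_d := fun p => by
    ext n
    rw [coeff_cm, coeff_cm, s.d_d, coeff_zero]
  d_sg := fun p => by
    ext n
    rw [coeff_cm, coeff_mapA, s.d_sg, coeff_neg, coeff_mapA, coeff_cm]
  even := fun p q h => by
    ext n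
    rw [coeff_mul, coeff_mul, ← Finset.Nat.sum_antidiagonal_swap]
    refine Finset.sum_congr rfl fun x _ => ?_
    exact s.even _ _ (by rw [← coeff_mapA, h])
  odd := fun p q h => by
    ext n
    rw [coeff_mul, coeff_mul, ← Finset.Nat.sum_antidiagonal_swap]
    refine Finset.sum_congr rfl fun x _ => ?_
    rw [coeff_mapA]
    exact s.odd _ _ (by rw [← coeff_mapA, h, coeff_neg])
  G_one := fun i => by
    rw [coeff_one]
    split_ifs with h
    · subst h
      exact s.cast s.G_one (by simp)
    · exact Submodule.zero_mem _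
  G_mul := fun {i j p q} hp hq n => by
    rw [coeff_mul]
    refine Submodule.sum_mem _ fun x hx => ?_
    have h1 : x.1 + x.2 = n := Finset.HasAntidiagonal.mem_antidiagonal.1 hx
    exact s.cast (s.G_mul (hp x.1) (hq x.2)) (by rw [← h1]; push_cast; ring)
  G_d := fun {i p} hp n => by
    rw [coeff_cm]
    exact s.cast (s.G_d (hp n)) (by ring)
  G_neg := fun {i p} hi hp => by
    ext n
    have h1 : (0 : ℤ) ≤ m * n := by positivity
    exact s.G_neg (by omega) (hp n)
  G_even := fun {i p} hi hp => by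
    ext n
    rw [coeff_mapA]
    exact s.G_even (hi.sub ((Int.even_coe_nat m).2 hm |>.mul_right _)) (hp n)
  G_odd := fun {i p} hi hp => by
    ext n
    rw [coeff_mapA, coeff_neg]
    exact s.G_odd (hi.sub_even ((Int.even_coe_nat m).2 hm |>.mul_right _)) (hp n)
  K_l := fun p q hq n => by
    rw [coeff_mul]
    exact Submodule.sum_mem _ fun x hx => s.K_l _ (hq _)
  K_r := fun {p} q hp n => by
    rw [coeff_mul]
    exact Submodule.sum_mem _ fun x hx => s.K_r _ (hp _)
  K_d := fun {p} hp n => by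
    rw [coeff_cm]
    exact s.K_d (hp n)

variable {m : ℕ} {hm : Even m}

theorem pol_d (p : R[X]) : (s.pol m hm).d p = cm s.d p := rfl

theorem pol_sg (p : R[X]) : (s.pol m hm).sg p = mapAlgHom s.sg p := rfl

theorem pol_C_G {i : ℤ} {a : R} (h : a ∈ s.G i) : C a ∈ (s.pol m hm).G i := fun n => by
  rw [coeff_C]
  split_ifs with h0
  · subst h0
    exact s.cast h (by simp)
  · exact Submodule.zero_mem _

theorem pol_C_K {a : R} (h : a ∈ s.K) : C a ∈ (s.pol m hm).K := fun n => by
  rw [coeff_C]
  split_ifs with h0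
  · exact h
  · exact Submodule.zero_mem _

theorem pol_X_G : (X : R[X]) ∈ (s.pol m hm).G m := fun n => by
  rw [coeff_X]
  split_ifs with h0
  · subst h0
    exact s.cast s.G_one (by simp)
  · exact Submodule.zero_mem _

end SD

theorem Der.cm {s : SD R} {δ : R →ₗ[ℝ] R} {k : ℤ} (h : Der s δ k) (m : ℕ) (hm : Even m) :
    Der (s.pol m hm) (cm δ) k where
  mul := cm_mul h.mul
  sg := fun p => by
    ext n
    change (Alg.cm δ (mapAlgHom s.sg p)).coeff n = (-mapAlgHom s.sg (Alg.cm δ p)).coeff n
    rw [coeff_cm, coeff_mapA, h.sg, coeff_neg, coeff_mapA, coeff_cm]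
  G := fun {i p} hp n => by
    rw [coeff_cm]
    exact s.cast (h.G (hp n)) (by ring)
  K := fun {p} hp n => by
    rw [coeff_cm]
    exact h.K (hp n)

theorem Der.lmul {s : SD R} {δ : R →ₗ[ℝ] R} {k j : ℤ} (h : Der s δ k) {c : R} (hc : c ∈ s.G j)
    (hj : Even j) : Der s ((LinearMap.mulLeft ℝ c).comp δ) (k + j) where
  mul := fun a b => by
    have h1 := s.G_even hj hc
    simp only [LinearMap.comp_apply, LinearMap.mulLeft_apply, h.mul, mul_add, mul_assoc]
    rw [← mul_assoc c (s.sg a), s.even c (s.sg a) h1, mul_assoc]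
  sg := fun a => by
    have h1 := s.G_even hj hc
    simp only [LinearMap.comp_apply, LinearMap.mulLeft_apply, h.sg, map_mul, h1, mul_neg]
  G := fun ha => s.cast (s.G_mul hc (h.G ha)) (by ring)
  K := fun ha => s.K_l _ (h.K ha)

namespace SD

variable (s : SD R)

/-- the Cartan differential `d - u J` -/
noncomputable def tw {J : R →ₗ[ℝ] R} (hJ : Der s J (-1)) (hJJ : ∀ a, J (J a) = 0)
    (hdJ : ∀ a, J (s.d a) = -s.d (J a)) : SD R[X] :=
  (s.pol 2 even_two).pert (δ := (LinearMap.mulLeft ℝ (-X : R[X])).comp (cm J))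
    (by
      have h := (hJ.cm 2 even_two).lmul (c := -X) (j := 2)
        (Submodule.neg_mem _ s.pol_X_G) even_two
      exact h.cast (by norm_num))
    (fun p => by
      rw [pol_d, pol_d]
      simp only [LinearMap.comp_apply, LinearMap.mulLeft_apply]
      have h1 : cm J (cm J p) = 0 := by
        ext n
        rw [coeff_cm, coeff_cm, hJJ, coeff_zero]
      have h2 : cm J (cm s.d p) = -cm s.d (cm J p) := by
        ext n
        rw [coeff_cm, coeff_cm, hdJ, coeff_neg, coeff_cm, coeff_cm]
      simp only [neg_mul, map_neg, cm_X_mul, h1, h2, mul_zero, mul_neg, neg_neg, neg_zero,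
        add_zero, neg_add_cancel])

/-- adjoining a variable of degree six with differential `A` -/
noncomputable def adj {A : R} (hA : A ∈ s.G 7) (hd : s.d A = 0) (hK : A ∈ s.K) : SD R[X] :=
  (s.pol 6 (by decide)).pert (δ := (LinearMap.mulLeft ℝ (C A)).comp
      ((derivative : R[X] →ₗ[R] R[X]).restrictScalars ℝ))
    { mul := fun p q => by
        have h1 : (s.pol 6 (by decide)).sg (C A) = -C A :=
          (s.pol 6 (by decide)).G_odd (by decide) (s.pol_C_G hA)
        change C A * derivative (p * q) = C A * derivative p * q +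
          (s.pol 6 (by decide)).sg p * (C A * derivative q)
        rw [derivative_mul, mul_add, mul_assoc, ← mul_assoc (C A) p,
          (s.pol 6 (by decide)).odd _ p h1, mul_assoc]
      sg := fun p => by
        have h1 : s.sg A = -A := s.G_odd (by decide) hA
        change C A * derivative (mapAlgHom s.sg p) = -mapAlgHom s.sg (C A * derivative p)
        rw [map_mul, mapA_C, h1, mapA_derivative, map_neg, neg_mul, neg_neg]
      G := fun {i p} hp n => by
        change (C A * derivative p).coeff n ∈ _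
        rw [coeff_C_mul, coeff_derivative]
        have h1 : ((n : R) + 1) ∈ s.G 0 := by
          have := s.G_alg ((n : ℝ) + 1)
          rwa [map_add, map_natCast, map_one] at this
        exact s.cast (s.G_mul hA (s.G_mul (hp (n + 1)) h1)) (by push_cast; ring)
      K := fun {p} hp => (s.pol 6 (by decide)).K_r _ (s.pol_C_K hK) }
    (fun p => by
      have h1 : s.sg A = -A := s.G_odd (by decide) hA
      change cm s.d (C A * derivative p) + C A * derivative (cm s.d p) +
        C A * derivative (C A * derivative p) = 0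
      rw [cm_mul s.d_mul, cm_C, hd, mapA_C, h1, derivative_mul, derivative_C, zero_mul, zero_add,
        ← mul_assoc, ← C_mul, s.sq_odd h1, cm_derivative]
      simp)

end SD

end Vale.Agent.P231Z.Alg
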