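import Vale.Agent.P231Z.Alg.DG

/-!
# P231, Cayley case, algebra (2): morphisms, evaluation maps, even cohomology rings
-/

set_option linter.unusedSectionVars false
set_option linter.unusedVariables false

namespace Vale.Agent.P231Z.Alg

open Polynomial

variable {R S T : Type*} [Ring R] [Algebra ℝ R] [Ring S] [Algebra ℝ S] [Ring T] [Algebra ℝ T]

namespace SD

section tw

variable (s : SD R) {J : R →ₗ[ℝ] R} (hJ : Der s J (-1)) (hJJ : ∀ a, J (J a) = 0)
  (hdJ : ∀ a, J (s.d a) = -s.d (J a))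

theorem tw_d (p : R[X]) : (s.tw hJ hJJ hdJ).d p = cm s.d p - X * cm J p := by
  have h : (s.tw hJ hJJ hdJ).d p = cm s.d p + -X * cm J p := rfl
  rw [h, neg_mul, sub_eq_add_neg]

theorem tw_d_C (a : R) : (s.tw hJ hJJ hdJ).d (C a) = C (s.d a) - X * C (J a) := by
  rw [tw_d, cm_C, cm_C]

theorem tw_d_X_mul (p : R[X]) : (s.tw hJ hJJ hdJ).d (X * p) = X * (s.tw hJ hJJ hdJ).d p := by
  rw [tw_d, tw_d, cm_X_mul, cm_X_mul, mul_sub]

theorem tw_d_coeff (p : R[X]) : ((s.tw hJ hJJ hdJ).d p).coeff 0 = s.d (p.coeff 0) := by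
  rw [tw_d, coeff_sub, coeff_cm, coeff_X_mul_zero, sub_zero]

theorem tw_G {i : ℤ} {p : R[X]} : p ∈ (s.tw hJ hJJ hdJ).G i ↔
    ∀ n : ℕ, p.coeff n ∈ s.G (i - (2 : ℕ) * n) := Iff.rfl

theorem tw_K {p : R[X]} : p ∈ (s.tw hJ hJJ hdJ).K ↔ ∀ n : ℕ, p.coeff n ∈ s.K := Iff.rfl

theorem tw_C_G {i : ℤ} {a : R} (h : a ∈ s.G i) : C a ∈ (s.tw hJ hJJ hdJ).G i :=
  s.pol_C_G (m := 2) (hm := even_two) h

theorem tw_C_K {a : R} (h : a ∈ s.K) : C a ∈ (s.tw hJ hJJ hdJ).K :=
  s.pol_C_K (m := 2) (hm := even_two) h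

theorem tw_X_G : (X : R[X]) ∈ (s.tw hJ hJJ hdJ).G 2 := s.pol_X_G (m := 2) (hm := even_two)

theorem tw_sg (p : R[X]) : (s.tw hJ hJJ hdJ).sg p = mapAlgHom s.sg p := rfl

end tw

section adj

variable (s : SD R) {A : R} (hA : A ∈ s.G 7) (hd : s.d A = 0) (hK : A ∈ s.K)

theorem adj_d (p : R[X]) : (s.adj hA hd hK).d p = cm s.d p + C A * derivative p := rfl

theorem adj_d_C (a : R) : (s.adj hA hd hK).d (C a) = C (s.d a) := by
  rw [adj_d, cm_C, derivative_C, mul_zero, add_zero]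

theorem adj_d_X : (s.adj hA hd hK).d X = C A := by
  rw [adj_d, derivative_X, mul_one, ← monomial_one_one_eq_X, cm_monomial, s.d_one, map_zero,
    zero_add]

theorem adj_d_der (p : R[X]) :
    (s.adj hA hd hK).d (derivative p) = derivative ((s.adj hA hd hK).d p) := by
  rw [adj_d, adj_d, cm_derivative, map_add, derivative_mul, derivative_C, zero_mul, zero_add]

theorem adj_G {i : ℤ} {p : R[X]} : p ∈ (s.adj hA hd hK).G i ↔
    ∀ n : ℕ, p.coeff n ∈ s.G (i - (6 : ℕ) * n) := Iff.rfl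

theorem adj_K {p : R[X]} : p ∈ (s.adj hA hd hK).K ↔ ∀ n : ℕ, p.coeff n ∈ s.K := Iff.rfl

theorem adj_C_G {i : ℤ} {a : R} (h : a ∈ s.G i) : C a ∈ (s.adj hA hd hK).G i :=
  s.pol_C_G (m := 6) (hm := by decide) h

theorem adj_C_K {a : R} (h : a ∈ s.K) : C a ∈ (s.adj hA hd hK).K :=
  s.pol_C_K (m := 6) (hm := by decide) h

theorem adj_X_G : (X : R[X]) ∈ (s.adj hA hd hK).G 6 := s.pol_X_G (m := 6) (hm := by decide)

theorem adj_sg (p : R[X]) : (s.adj hA hd hK).sg p = mapAlgHom s.sg p := rfl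

theorem adj_der_K {p : R[X]} (hp : p ∈ (s.adj hA hd hK).K) :
    derivative p ∈ (s.adj hA hd hK).K := fun n => by
  rw [coeff_derivative]
  exact s.K_r _ (hp _)

end adj

end SD

/-- a morphism -/
structure Mor (s : SD R) (t : SD S) (φ : R →ₐ[ℝ] S) : Prop where
  d : ∀ a, φ (s.d a) = t.d (φ a)
  sg : ∀ a, φ (s.sg a) = t.sg (φ a)
  G : ∀ {i : ℤ} {a : R}, a ∈ s.G i → φ a ∈ t.G i

/-- evaluation at an even element -/
noncomputable def evp (t : SD S) (φ : R →ₐ[ℝ] S) (e : S) (he : t.sg e = e) : R[X] →ₐ[ℝ] S :=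
  eval₂AlgHom φ e (fun a => (t.even e (φ a) he).symm)

section evp

variable (t : SD S) (φ : R →ₐ[ℝ] S) {e : S} (he : t.sg e = e)

theorem evp_monomial (n : ℕ) (a : R) : evp t φ e he (monomial n a) = φ a * e ^ n :=
  eval₂_monomial _ _

theorem evp_C (a : R) : evp t φ e he (C a) = φ a := eval₂_C _ _

theorem evp_X : evp t φ e he X = e := eval₂_X _ _

theorem evp_mem (N : Submodule ℝ S) (p : R[X]) (h : ∀ n, φ (p.coeff n) * e ^ n ∈ N) :
    evp t φ e he p ∈ N := by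
  rw [p.as_sum_range, map_sum]
  exact Submodule.sum_mem _ fun n _ => by rw [evp_monomial]; exact h n

theorem evp_zero (p : R[X]) (h : ∀ n, φ (p.coeff n) = 0) : evp t φ e he p = 0 :=
  (Submodule.mem_bot ℝ).1 (evp_mem t φ he ⊥ p fun n => by rw [h, zero_mul]; rfl)

theorem evp_nat (t' : SD T) (ψ : S →ₐ[ℝ] T) (φ' : R →ₐ[ℝ] T) {e' : T} (he' : t'.sg e' = e')
    (h1 : ∀ a, ψ (φ a) = φ' a) (h2 : ψ e = e') (p : R[X]) :
    ψ (evp t φ e he p) = evp t' φ' e' he' p := by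
  induction p using Polynomial.induction_on' with
  | add p q hp hq => simp only [map_add, hp, hq]
  | monomial n a => rw [evp_monomial, evp_monomial, map_mul, map_pow, h1, h2]

theorem evp_sg (s : SD R) (h : ∀ a, φ (s.sg a) = t.sg (φ a)) (p : R[X]) :
    evp t φ e he (mapAlgHom s.sg p) = t.sg (evp t φ e he p) := by
  induction p using Polynomial.induction_on' with
  | add p q hp hq => simp only [map_add, hp, hq]
  | monomial n a =>
    have h1 : mapAlgHom s.sg (monomial n a) = monomial n (s.sg a) := by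
      rw [coe_mapAlgHom, Polynomial.map_monomial]
      rfl
    rw [h1, evp_monomial, evp_monomial, map_mul, map_pow, h, he]

theorem evp_G (s : SD R) (h : ∀ {i : ℤ} {a : R}, a ∈ s.G i → φ a ∈ t.G i) {m : ℕ}
    (hm : e ∈ t.G m) {i : ℤ} {p : R[X]} (hp : ∀ n : ℕ, p.coeff n ∈ s.G (i - m * n)) :
    evp t φ e he p ∈ t.G i :=
  evp_mem t φ he _ p fun n => t.cast (t.G_mul (h (hp n)) (t.G_pow hm n)) (by ring)

end evp

theorem mor_tw {s : SD R} {t : SD S} {J : R →ₗ[ℝ] R} (hJ : Der s J (-1))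
    (hJJ : ∀ a, J (J a) = 0) (hdJ : ∀ a, J (s.d a) = -s.d (J a)) {φ : R →ₐ[ℝ] S} {e : S}
    (he : t.sg e = e) (heG : e ∈ t.G 2) (hed : t.d e = 0)
    (hd : ∀ a, φ (s.d a) - e * φ (J a) = t.d (φ a)) (hs : ∀ a, φ (s.sg a) = t.sg (φ a))
    (hG : ∀ {i : ℤ} {a : R}, a ∈ s.G i → φ a ∈ t.G i) :
    Mor (s.tw hJ hJJ hdJ) t (evp t φ e he) where
  d := fun p => by
    induction p using Polynomial.induction_on' with
    | add p q hp hq => simp only [map_add, hp, hq]
    | monomial n a =>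
      rw [SD.tw_d, cm_monomial, cm_monomial, map_sub, map_mul, evp_X, evp_monomial, evp_monomial,
        evp_monomial, t.d_mul, t.d_pow_closed he hed, mul_zero, add_zero, ← hd, sub_mul,
        mul_assoc]
  sg := evp_sg t φ he s hs
  G := fun hp => evp_G t φ he s hG (m := 2) heG hp

theorem mor_adj {s : SD R} {t : SD S} {A : R} (hA : A ∈ s.G 7) (hd : s.d A = 0) (hK : A ∈ s.K)
    {φ : R →ₐ[ℝ] S} (h : Mor s t φ) {η : S} (he : t.sg η = η) (hG : η ∈ t.G 6)
    (hη : t.d η = φ A) : Mor (s.adj hA hd hK) t (evp t φ η he) where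
  d := fun p => by
    induction p using Polynomial.induction_on' with
    | add p q hp hq => simp only [map_add, hp, hq]
    | monomial n a =>
      rw [SD.adj_d, cm_monomial, map_add, map_mul, evp_C, evp_monomial, evp_monomial, t.d_mul,
        h.d]
      congr 1
      rcases n with _ | n
      · rw [monomial_zero_left, derivative_C, map_zero, mul_zero, pow_zero, t.d_one, mul_zero]
      · have h1 : t.sg (φ A) = -φ A := t.G_odd (by decide) (h.G hA)
        rw [derivative_monomial_succ, evp_monomial, mul_succ_eq, t.d_pow_succ he, hη, map_smul,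
          smul_mul_assoc, mul_smul_comm, mul_smul_comm, ← mul_assoc, t.odd _ _ h1, mul_assoc,
          Nat.cast_succ]
  sg := evp_sg t φ he s h.sg
  G := fun hp => evp_G t φ he s h.G (m := 6) hG hp

namespace SD

variable (s : SD R)

/-- a differential subalgebra -/
def sub (B : Subalgebra ℝ R) (hd : ∀ a ∈ B, s.d a ∈ B) (hs : ∀ a ∈ B, s.sg a ∈ B) : SD B where
  d := (s.d.domRestrict B.toSubmodule).codRestrict B.toSubmodule (fun a => hd a.1 a.2)
  sg := (s.sg.comp B.val).codRestrict B (fun a => hs a.1 a.2)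
  G := fun i => (s.G i).comap B.val.toLinearMap
  K := s.K.comap B.val.toLinearMap
  d_mul := fun a b => Subtype.ext (s.d_mul a.1 b.1)
  d_d := fun a => Subtype.ext (s.d_d a.1)
  d_sg := fun a => Subtype.ext (s.d_sg a.1)
  even := fun a b h => Subtype.ext (s.even a.1 b.1 (congrArg Subtype.val h))
  odd := fun a b h => Subtype.ext (s.odd a.1 b.1 (congrArg Subtype.val h))
  G_one := s.G_one
  G_mul := fun ha hb => s.G_mul ha hb
  G_d := fun ha => s.G_d ha
  G_neg := fun hi ha => Subtype.ext (s.G_neg hi ha)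
  G_even := fun hi ha => Subtype.ext (s.G_even hi ha)
  G_odd := fun hi ha => Subtype.ext (s.G_odd hi ha)
  K_l := fun a b hb => s.K_l a.1 hb
  K_r := fun b ha => s.K_r b.1 ha
  K_d := fun ha => s.K_d ha

/-- the even elements -/
def Ev : Subalgebra ℝ R where
  carrier := {a | s.sg a = a}
  mul_mem' := fun {a b} ha hb => by
    change s.sg (a * b) = a * b
    rw [map_mul, ha, hb]
  add_mem' := fun {a b} ha hb => by
    change s.sg (a + b) = a + b
    rw [map_add, ha, hb]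
  algebraMap_mem' := fun r => s.sg.commutes r

instance : CommRing s.Ev :=
  { s.Ev.toRing with mul_comm := fun a b => Subtype.ext (s.even a.1 b.1 a.2) }

/-- the even elements of `K` -/
def KE : Ideal s.Ev where
  carrier := {a | a.1 ∈ s.K}
  add_mem' := fun ha hb => Submodule.add_mem _ ha hb
  zero_mem' := Submodule.zero_mem _
  smul_mem' := fun c a ha => s.K_l c.1 ha

/-- the closed even elements -/
def Z : Subalgebra ℝ R where
  carrier := {a | s.sg a = a ∧ s.d a = 0}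
  mul_mem' := fun {a b} ha hb => ⟨by rw [map_mul, ha.1, hb.1], by
    rw [s.d_mul, ha.2, hb.2, zero_mul, mul_zero, add_zero]⟩
  add_mem' := fun {a b} ha hb => ⟨by rw [map_add, ha.1, hb.1], by
    rw [map_add, ha.2, hb.2, add_zero]⟩
  algebraMap_mem' := fun r => ⟨s.sg.commutes r, s.d_alg r⟩

instance : CommRing s.Z :=
  { s.Z.toRing with mul_comm := fun a b => Subtype.ext (s.even a.1 b.1 a.2.1) }

/-- the exact even elements -/
def Ex : Ideal s.Z where
  carrier := {a | ∃ b, a.1 = s.d b}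
  add_mem' := fun {a b} ⟨u, hu⟩ ⟨v, hv⟩ => ⟨u + v, by rw [map_add, ← hu, ← hv]; rfl⟩
  zero_mem' := ⟨0, by rw [map_zero]; rfl⟩
  smul_mem' := fun c a ⟨u, hu⟩ => ⟨c.1 * u, by
    rw [s.d_mul_closed c.2.1 c.2.2, ← hu]; rfl⟩

/-- the even cohomology ring -/
abbrev H := s.Z ⧸ s.Ex

/-- the class of a closed even element -/
noncomputable def cl : s.Z →ₐ[ℝ] s.H := Ideal.Quotient.mkₐ ℝ s.Ex

theorem cl_eq {a b : s.Z} {u : R} (h : a.1 = b.1 + s.d u) : s.cl a = s.cl b :=
  Ideal.Quotient.eq.2 ⟨u, by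
    change a.1 - b.1 = _
    rw [h, add_sub_cancel_left]⟩

theorem eq_of_cl {a b : s.Z} (h : s.cl a = s.cl b) : ∃ u, a.1 = b.1 + s.d u := by
  obtain ⟨u, hu⟩ := Ideal.Quotient.eq.1 h
  refine ⟨u, ?_⟩
  rw [← hu]
  change a.1 = b.1 + (a.1 - b.1)
  abel

theorem cl_surj (x : s.H) : ∃ a, s.cl a = x := Ideal.Quotient.mk_surjective x

/-- the inclusion of the closed even elements -/
def ZE : s.Z →ₐ[ℝ] s.Ev := s.Z.val.codRestrict s.Ev (fun a => a.2.1)

/-- a functional which kills exact elements -/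
noncomputable def lif (N : R →ₗ[ℝ] ℝ) (h : ∀ u, N (s.d u) = 0) : s.H →ₗ[ℝ] ℝ :=
  ((s.Ex.restrictScalars ℝ).liftQ (N.comp s.Z.val.toLinearMap) (fun a ⟨u, hu⟩ => by
    change N a.1 = 0
    rw [hu, h])).comp (Submodule.Quotient.restrictScalarsEquiv ℝ s.Ex).symm.toLinearMap

theorem lif_cl (N : R →ₗ[ℝ] ℝ) (h : ∀ u, N (s.d u) = 0) (a : s.Z) :
    s.lif N h (s.cl a) = N a.1 := rfl

end SD

namespace Mor

variable {s : SD R} {t : SD S} {φ : R →ₐ[ℝ] S} (h : Mor s t φ)

/-- the map of closed even elements -/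
def Z : s.Z →ₐ[ℝ] t.Z :=
  (φ.comp s.Z.val).codRestrict t.Z (fun a => ⟨by
    change t.sg (φ a.1) = φ a.1
    rw [← h.sg, a.2.1], by
    change t.d (φ a.1) = 0
    rw [← h.d, a.2.2, map_zero]⟩)

theorem Z_val (a : s.Z) : (h.Z a).1 = φ a.1 := rfl

/-- the map in cohomology -/
noncomputable def H : s.H →ₐ[ℝ] t.H :=
  Ideal.Quotient.liftₐ s.Ex (t.cl.comp h.Z) (fun a ⟨u, hu⟩ => by
    change t.cl (h.Z a) = 0
    rw [← map_zero t.cl]
    exact t.cl_eq (u := φ u) (by rw [Z_val, hu, h.d]; exact (zero_add _).symm))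

theorem H_cl (a : s.Z) : h.H (s.cl a) = t.cl (h.Z a) := rfl

end Mor

end Vale.Agent.P231Z.Alg
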