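import Vale.Agent.P231.H584.Sys

/-!
# P231, Cayley case: the data of the algebraic theorem

`S` is the system of data of multiplicity seven. `X` is a space of loops with the rotation flow
`Φ`, which contains the constant loops and the closed geodesics of length `2 D`, and in which the
closed geodesics of length `4 D` can be pushed. `Sg` is the sphere bundle (fibres of dimension 28)
of the negative bundle of the doubled geodesics.
-/

set_option linter.unusedSectionVars false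
set_option linter.unusedVariables false

namespace Vale.Agent.P231Z.Alg

open Vale.Agent.P231 Vale.Agent.P231.Fm Vale.Agent.P231.W Vale.Agent.P231.H584
open Vale.Agent.P231.Fm.Form (IsDeg part)

variable {B U M X Sg : Type*} {dB : Dif B} {dU : Dif U} {dM : Dif M} {D c : ℝ}

/-- the cohomology of the unit tangent bundle -/
structure HU (dU : Dif U) : Prop where
  h0 : ∀ w : Form dU, IsDeg 0 w → w.d = 0 → ∃ r : ℝ, w = r • 1
  ex : ∀ k : ℕ, k ≠ 0 → k ≠ 8 → k ≠ 23 → k ≠ 31 → ∀ w : Form dU, IsDeg k w → w.d = 0 →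
    ∃ κ : Form dU, w = κ.d
  one : ∀ k : ℕ, k = 8 ∨ k = 23 ∨ k = 31 → ∃ G : Form dU, ∀ w : Form dU, IsDeg k w → w.d = 0 →
    ∃ (r : ℝ) (κ : Form dU), w = r • G + κ.d

/-- degrees and the low cohomology of `B` -/
structure HB (S : Sys dB dU dM 1 D c) : Prop where
  Fdeg : IsDeg 8 S.F
  αdeg : IsDeg 1 S.α
  Itop : ∀ w : Form dU, S.I w = S.I (part 31 w)
  Pdeg : ∀ (j : ℕ) (w : Form dB), S.P (part (j + 6) w) = part j (S.P w)
  h0 : ∀ w : Form dB, IsDeg 0 w → w.d = 0 → ∃ r : ℝ, w = r • 1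
  h2 : ∀ w : Form dB, IsDeg 2 w → w.d = 0 → ∃ κ : Form dB, w = κ.d
  h4 : ∀ w : Form dB, IsDeg 4 w → w.d = 0 → ∃ κ : Form dB, w = κ.d
  h6 : ∀ w : Form dB, IsDeg 6 w → w.d = 0 → ∃ (r : ℝ) (κ : Form dB), w = r • S.b0 + κ.d

/-- the space of loops -/
structure Lp (S : Sys dB dU dM 1 D c) (dX : Dif X) where
  Φ : X × ℝ → X
  ev : X → M
  cst : M → X
  γ : U → X
  gX : B × ℝ → X
  Res : Form dX →ₗ[ℝ] Form dU
  hΦ : IsFlow dX (2 * D) Φ
  hev : dX.Map dM ev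
  hcst : dM.Map dX cst
  ev_cst : ∀ m, ev (cst m) = m
  Φ_cst : ∀ m t, Φ (cst m, t) = cst m
  hγ : dU.Map dX γ
  γ_φ : ∀ v t, γ (S.φU (v, t)) = Φ (γ v, t)
  hgX : (dB.prod (Dif.lin ℝ)).Map dX gX
  gX_φ : ∀ b s t, gX (S.φ (b, t), s) = Φ (gX (b, s), t)
  gX0 : ∀ b, gX (b, 0) = γ (S.pi b)
  gX1 : ∀ b, gX (b, 1) = cst (S.g (b, 1))
  Res_d : ∀ w : Form dX, w.d = 0 → (Res w).d = 0
  Res_deg : ∀ (k : ℕ) (w : Form dX), IsDeg (k + 7) w → IsDeg k (Res w)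
  Res_low : ∀ (k : ℕ) (w : Form dX), k < 7 → IsDeg k w → Res w = 0
  Res_ex : ∀ (k : ℕ) (w : Form dX) (κ : Form dU), IsDeg k w → w.d = 0 → Res w = κ.d →
    ∃ (a : Form dM) (η : Form dX), w = Form.pull ev hev a + η.d

/-- the sphere bundle of the second level -/
structure Sig {S : Sys dB dU dM 1 D c} {dX : Dif X} (L : Lp S dX) (dS : Dif Sg) where
  ψ : Sg × ℝ → Sg
  p : Sg → U
  A : Sg → Sg
  j : B → Sg
  fX : Sg → X
  kX : B × ℝ → X
  SI : Form dS →ₗ[ℝ] Form dU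
  hψ : IsFlow dS (2 * D) ψ
  hp : dS.Map dU p
  p_ψ : ∀ s t, p (ψ (s, t)) = S.φU (p s, 2 * t)
  hA : dS.Map dS A
  A_ψ : ∀ s t, A (ψ (s, t)) = ψ (A s, t)
  p_A : ∀ s, p (A s) = p s
  hj : dB.Map dS j
  j_φ : ∀ b t, j (S.φ (b, 2 * t)) = ψ (j b, t)
  p_j : ∀ b, p (j b) = S.pi b
  A_j : ∀ b, A (j b) = j (S.σ (S.φ (b, D)))
  hfX : dS.Map dX fX
  fX_ψ : ∀ s t, fX (ψ (s, t)) = L.Φ (fX s, t)
  hkX : (dB.prod (Dif.lin ℝ)).Map dX kX
  kX_φ : ∀ b s t, kX (S.φ (b, 2 * t), s) = L.Φ (kX (b, s), t)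
  kX0 : ∀ b, kX (b, 0) = fX (j b)
  kX1 : ∀ b, kX (b, 1) = L.cst (S.g (b, 1))
  SI_d : ∀ w : Form dS, SI w.d = (SI w).d
  SI_mul : ∀ (w : Form dS) (v : Form dU), SI (w * Form.pull p hp v) = SI w * v
  SI_deg : ∀ (k : ℕ) (w : Form dS), IsDeg (k + 28) w → IsDeg k (SI w)
  SI_low : ∀ (k : ℕ) (w : Form dS), k < 28 → IsDeg k w → SI w = 0
  SI_A : ∀ w : Form dS, SI (Form.pull A hA w) = -SI w
  gys : ∀ (k : ℕ) (w : Form dS), IsDeg k w → w.d = 0 → SI w = 0 →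
    ∃ (a : Form dU) (κ : Form dS), a.d = 0 ∧ IsDeg k a ∧ w = Form.pull p hp a + κ.d
  dim : ∀ w : Form dS, IsDeg 60 w → w = 0

end Vale.Agent.P231Z.Alg
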