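import Vale.Agent.P231Z.Alg.UE

/-!
# P231, Cayley case, algebra (8): evaluations which kill the ideal, homotopies of evaluations
-/

set_option linter.unusedSectionVars false
set_option linter.unusedVariables false

namespace Vale.Agent.P231Z.Alg

open Polynomial

variable {R S S' : Type*} [Ring R] [Algebra ℝ R] [Ring S] [Algebra ℝ S] [Ring S'] [Algebra ℝ S']

/-- the map of even elements -/
def Mor.E {s : SD R} {t : SD S} {φ : R →ₐ[ℝ] S} (h : Mor s t φ) : s.Ev →ₐ[ℝ] t.Ev :=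
  (φ.comp s.Ev.val).codRestrict t.Ev (fun a => by
    change t.sg (φ a.1) = φ a.1
    rw [← h.sg, a.2])

namespace EvD

variable {c : Car R} {t : SD S} (v : EvD c t)

/-- composition with a morphism -/
def map {t' : SD S'} {ψ : S →ₐ[ℝ] S'} (h : Mor t t' ψ) : EvD c t' where
  φ := ψ.comp v.φ
  e := ψ v.e
  η := ψ v.η
  eG := h.G v.eG
  ed := by rw [← h.d, v.ed, map_zero]
  hd := fun a => by
    change ψ (v.φ _) - ψ v.e * ψ (v.φ _) = t'.d (ψ (v.φ _))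
    rw [← map_mul, ← map_sub, v.hd, h.d]
  hs := fun a => by
    change ψ (v.φ _) = t'.sg (ψ (v.φ _))
    rw [v.hs, h.sg]
  hG := fun ha => h.G (v.hG ha)
  ηG := h.G v.ηG
  ηd := by
    rw [← h.d, v.ηd]
    rfl

theorem map_ev {t' : SD S'} {ψ : S →ₐ[ℝ] S'} (h : Mor t t' ψ) (p : R[X][X]) :
    ψ (v.ev p) = (v.map h).ev p := v.ev_nat (v.map h) ψ (fun _ => rfl) rfl rfl p

theorem ev_congr (v' : EvD c t) (h1 : ∀ a, v.φ a = v'.φ a) (h2 : v.e = v'.e) (h3 : v.η = v'.η)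
    (p : R[X][X]) : v.ev p = v'.ev p := v.ev_nat v' (AlgHom.id ℝ S) h1 h2 h3 p

/-- the evaluation kills the ideal -/
def Kil : Prop := ∀ a ∈ c.s.K, v.φ a = 0

/-- the value of `u` -/
def eZ : t.Z := ⟨v.e, t.G_even even_two v.eG, v.ed⟩

variable {v}

/-- the value of `x` -/
def xZ (h : v.Kil) : t.Z := ⟨v.φ c.x, t.G_even (by decide) (v.hG c.xG), by
  rw [← v.hd, c.xd, map_zero, h _ (c.JK _), mul_zero, sub_zero]⟩

/-- the value of `ξ` -/
def ηZ (h : v.Kil) : t.Z := ⟨v.η, t.G_even (by decide) v.ηG, v.ηd.trans (h _ c.AK)⟩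

theorem ev_τ (h : v.Kil) (g : Car.Pol) :
    v.ev (c.τ g).1 = (MvPolynomial.aeval ![xZ h, v.eZ, ηZ h] g : t.Z).1 := by
  have h1 : v.mor.E.comp c.τ = t.ZE.comp (MvPolynomial.aeval ![xZ h, v.eZ, ηZ h]) := by
    refine MvPolynomial.algHom_ext fun i => Subtype.ext ?_
    fin_cases i
    · change v.ev (c.τ (MvPolynomial.X 0)).1 =
        (MvPolynomial.aeval ![xZ h, v.eZ, ηZ h] (MvPolynomial.X 0 : Car.Pol) : t.Z).1
      rw [c.τ0, v.ev_xx, MvPolynomial.aeval_X]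
      rfl
    · change v.ev (c.τ (MvPolynomial.X 1)).1 =
        (MvPolynomial.aeval ![xZ h, v.eZ, ηZ h] (MvPolynomial.X 1 : Car.Pol) : t.Z).1
      rw [c.τ1, v.ev_u, MvPolynomial.aeval_X]
      rfl
    · change v.ev (c.τ (MvPolynomial.X 2)).1 =
        (MvPolynomial.aeval ![xZ h, v.eZ, ηZ h] (MvPolynomial.X 2 : Car.Pol) : t.Z).1
      rw [c.τ2, v.ev_ξ, MvPolynomial.aeval_X]
      rfl
  exact congrArg Subtype.val (DFunLike.congr_fun h1 g)

theorem cl_aeval (h : v.Kil) (g : Car.Pol) :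
    t.cl (MvPolynomial.aeval ![xZ h, v.eZ, ηZ h] g) =
      MvPolynomial.aeval ![t.cl (xZ h), t.cl v.eZ, t.cl (ηZ h)] g := by
  have h1 : t.cl.comp (MvPolynomial.aeval ![xZ h, v.eZ, ηZ h]) =
      MvPolynomial.aeval ![t.cl (xZ h), t.cl v.eZ, t.cl (ηZ h)] := by
    refine MvPolynomial.algHom_ext fun i => ?_
    rw [AlgHom.comp_apply, MvPolynomial.aeval_X, MvPolynomial.aeval_X]
    fin_cases i <;> rfl
  exact DFunLike.congr_fun h1 g

theorem H_lift (h : v.Kil) {T : c.s2.Z} {g : Car.Pol} (hT : c.s2.ZE T - c.τ g ∈ c.s2.KE) :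
    v.mor.H (c.s2.cl T) = MvPolynomial.aeval ![t.cl (xZ h), t.cl v.eZ, t.cl (ηZ h)] g := by
  rw [Mor.H_cl, ← cl_aeval]
  congr 1
  refine Subtype.ext ?_
  rw [← ev_τ, Mor.Z_val]
  have h1 : v.ev (T.1 - (c.τ g).1) = 0 := v.ev_K h hT
  rwa [map_sub, sub_eq_zero] at h1

theorem H_u (v : EvD c t) : v.mor.H (c.s2.cl c.uZ) = t.cl v.eZ :=
  congrArg t.cl (Subtype.ext v.ev_u)

theorem H_y (h : v.Kil) : v.mor.H (c.s2.cl c.yZ) = t.cl (xZ h) + t.cl v.eZ * t.cl (ηZ h) := by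
  rw [H_lift h (g := Car.X0 + Car.X1 * Car.X2)]
  · rw [map_add, map_mul, MvPolynomial.aeval_X, MvPolynomial.aeval_X, MvPolynomial.aeval_X]
    rfl
  · rw [map_add, map_mul, c.τ0, c.τ1, c.τ2]
    exact (sub_self (c.xx + c.u * c.ξ)).symm ▸ Submodule.zero_mem _

end EvD

/-- a homotopy between two evaluations -/
structure Hty {c : Car R} {t : SD S} (v0 v1 : EvD c t) where
  KK : R[X][X] →ₗ[ℝ] S
  hom : ∀ y, v1.ev y - v0.ev y = KK (c.s2.d y) + t.d (KK y)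
  u : ∀ y, KK (c.u.1 * y) = v1.e * KK y

namespace Hty

variable {c : Car R} {t : SD S} {v0 v1 : EvD c t} (O : Hty v0 v1)

include O in
theorem H_eq (T : c.s2.Z) : v0.mor.H (c.s2.cl T) = v1.mor.H (c.s2.cl T) := by
  refine (t.cl_eq (u := O.KK T.1) ?_).symm
  have h := O.hom T.1
  rw [T.2.2, map_zero, zero_add] at h
  change v1.ev T.1 = v0.ev T.1 + _
  rw [← h, add_sub_cancel]

variable (N : S →ₗ[ℝ] ℝ) (hN : ∀ u, N (t.d u) = 0) (s : t.Z)
  (h0 : ∀ (y : R[X][X]) (k ε : ℕ), N (v0.ev y * (v1.eZ ^ k * s ^ ε : t.Z).1) = 0) (hK : v1.Kil)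

include hN h0 in
theorem val_d (y : R[X][X]) (k ε : ℕ) : N (O.KK (c.s2.d y) * (v1.eZ ^ k * s ^ ε : t.Z).1) =
    N (v1.ev y * (v1.eZ ^ k * s ^ ε : t.Z).1) := by
  have h1 := hN (O.KK y * (v1.eZ ^ k * s ^ ε : t.Z).1)
  rw [t.d_mul, (v1.eZ ^ k * s ^ ε : t.Z).2.2, mul_zero, add_zero] at h1
  rw [eq_sub_of_add_eq (O.hom y).symm, sub_mul, sub_mul, map_sub, map_sub, h0, h1, sub_zero,
    sub_zero]

/-- the pairing -/
noncomputable def pair : c.Pair where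
  Λ := fun k ε => N.comp ((LinearMap.mulRight ℝ (v1.eZ ^ k * s ^ ε : t.Z).1).comp O.KK)
  K := fun k ε y hy => by
    change N (O.KK (c.s2.d y) * _) = 0
    rw [O.val_d N hN s h0, v1.ev_K hK hy, zero_mul, map_zero]
  u := fun k ε y => by
    change N (O.KK (c.u.1 * y) * _) = N (O.KK y * _)
    rw [O.u, t.even v1.e _ v1.eZ.2.1, mul_assoc, pow_succ', mul_assoc]
    rfl

theorem pair_L (k ε : ℕ) (g : Car.Pol) : (O.pair N hN s h0 hK).L k ε g =
    t.lif N hN (MvPolynomial.aeval ![t.cl (EvD.xZ hK), t.cl v1.eZ, t.cl (EvD.ηZ hK)] g *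
      (t.cl v1.eZ ^ k * t.cl s ^ ε)) := by
  rw [← EvD.cl_aeval, ← map_pow, ← map_pow, ← map_mul, ← map_mul, SD.lif_cl]
  change N (O.KK (c.s2.d _) * _) = N (_ * _)
  rw [O.val_d N hN s h0, EvD.ev_τ hK]

end Hty

end Vale.Agent.P231Z.Alg
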