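import Vale.Agent.P231Z.Alg.Tg

/-!
# P231, Cayley case, algebra (10): generation of the basic cohomology, the levels
-/

set_option linter.unusedSectionVars false
set_option linter.unusedVariables false

namespace Vale.Agent.P231Z.Alg

open Vale.Agent.P231 Vale.Agent.P231.Fm Vale.Agent.P231.W Vale.Agent.P231.H584
open Vale.Agent.P231.Fm.Form (IsDeg part)
open Polynomial

variable {X Y B M : Type*} {dX : Dif X} {dY : Dif Y} {dB : Dif B} {dM : Dif M} {T : ℝ}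

namespace Cn

variable (n : Cn dY T)

/-- a closed basic form of even degree -/
def mkZ {w : Form dY} {k : ℕ} (hk : Even k) (hw : IsDeg k w) (hb : Basic n.Ψ n.hΨ.map w)
    (hd : w.d = 0) : n.bs.Z := ⟨⟨w, hb⟩, Subtype.ext (hw.sg_of_even hk), Subtype.ext hd⟩

/-- the Euler class -/
noncomputable def E : n.bs.H := n.bs.cl n.eZ

theorem Z_d (w : n.bs.Z) : w.1.1.d = 0 := congrArg Subtype.val w.2.2

theorem stepH {k : ℕ} (hk : Even k) {w s : n.bs.Z} (hw : IsDeg (k + 2) w.1.1)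
    (hs : IsDeg (k + 2) s.1.1) {c : ℝ} {κ : Form dY} (h : w.1.1 = c • s.1.1 + κ.d) :
    ∃ w' : n.bs.Z, IsDeg k w'.1.1 ∧ n.bs.cl w = c • n.bs.cl s + n.E * n.bs.cl w' := by
  obtain ⟨w', h1, h2, h3, u, hu, h4⟩ := step n.hΨ n.hT n.hα n.αo hw w.1.2 hs s.1.2 h
  refine ⟨n.mkZ hk h1 h2 h3, h1, ?_⟩
  rw [E, ← map_mul, ← map_smul, ← map_add]
  exact n.bs.cl_eq (u := ⟨u, hu⟩) (Subtype.ext h4)

theorem step0H {k : ℕ} (hk : Even k) {w : n.bs.Z} (hw : IsDeg (k + 2) w.1.1) {κ : Form dY}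
    (h : w.1.1 = κ.d) : ∃ w' : n.bs.Z, IsDeg k w'.1.1 ∧ n.bs.cl w = n.E * n.bs.cl w' := by
  obtain ⟨w', h1, h2⟩ := n.stepH hk (s := w) hw hw (c := 0) (κ := κ)
    (by rw [zero_smul, zero_add]; exact h)
  exact ⟨w', h1, by rw [h2, zero_smul, zero_add]⟩

theorem gen {q m : ℕ} (s : n.bs.Z) (hs : IsDeg (2 * q) s.1.1) (hq : 1 ≤ q)
    (H0 : ∀ w : Form dY, IsDeg 0 w → w.d = 0 → ∃ r : ℝ, w = r • 1)
    (Hk : ∀ i, 1 ≤ i → i ≤ m → i ≠ q → ∀ w : Form dY, IsDeg (2 * i) w → w.d = 0 →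
      ∃ κ : Form dY, w = κ.d)
    (Hq : q ≤ m → ∀ w : Form dY, IsDeg (2 * q) w → w.d = 0 →
      ∃ (r : ℝ) (κ : Form dY), w = r • s.1.1 + κ.d) (i : ℕ) :
    i ≤ m → ∀ w : n.bs.Z, IsDeg (2 * i) w.1.1 → ∃ c0 c1 : ℝ, (i < q → c1 = 0) ∧
      n.bs.cl w = c0 • n.E ^ i + c1 • (n.E ^ (i - q) * n.bs.cl s) := by
  induction i with
  | zero =>
    intro _ w hw
    obtain ⟨r, hr⟩ := H0 _ hw (n.Z_d w)
    refine ⟨r, 0, fun _ => rfl, ?_⟩
    have h1 : w = r • 1 := Subtype.ext (Subtype.ext hr)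
    rw [h1, map_smul, map_one, pow_zero, zero_smul, add_zero]
  | succ i ih =>
    intro hi w hw
    by_cases h1 : i + 1 = q
    · subst h1
      obtain ⟨r, κ, hr⟩ := Hq hi _ hw (n.Z_d w)
      obtain ⟨w', h2, h3⟩ := n.stepH (k := 2 * i) (even_two_mul i) hw hs hr
      obtain ⟨c0, c1, h4, h5⟩ := ih (by omega) w' h2
      refine ⟨c0, r, fun h => absurd h (lt_irrefl _), ?_⟩
      rw [h3, h5, h4 (by omega), zero_smul, add_zero, Nat.sub_self, pow_zero, one_mul,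
        mul_smul_comm, ← pow_succ', add_comm]
    · obtain ⟨κ, hr⟩ := Hk (i + 1) (by omega) hi h1 _ hw (n.Z_d w)
      obtain ⟨w', h2, h3⟩ := n.step0H (k := 2 * i) (even_two_mul i) hw hr
      obtain ⟨c0, c1, h4, h5⟩ := ih (by omega) w' h2
      refine ⟨c0, c1, fun h => h4 (by omega), ?_⟩
      rw [h3, h5, mul_add, mul_smul_comm, mul_smul_comm, ← pow_succ']
      by_cases h6 : i < q
      · rw [h4 h6, zero_smul, zero_smul]
      · rw [← mul_assoc, ← pow_succ', show i - q + 1 = i + 1 - q by omega]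

theorem odd {m : ℕ} (H : ∀ i, i ≤ m → ∀ w : Form dY, IsDeg (2 * i + 1) w → w.d = 0 →
      ∃ κ : Form dY, w = κ.d) (i : ℕ) : i ≤ m → ∀ w : Form dY, IsDeg (2 * i + 1) w →
      Basic n.Ψ n.hΨ.map w → w.d = 0 → ∃ η : Form dY, Basic n.Ψ n.hΨ.map η ∧ w = η.d := by
  induction i with
  | zero =>
    intro hi w hw hb hd
    obtain ⟨κ, hκ⟩ := H 0 hi w hw hd
    have h1 : (part 0 κ).d = w := by rw [← Form.part_succ_d, ← hκ]; exact hw
    have h2 := gysin_d n.hΨ n.hα n.αo (τ := part 0 κ) (by rw [h1]; exact hb)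
    have h3 : J n.Ψ n.hΨ.map T (part 0 κ) = 0 :=
      (Dg_J n.hΨ (Dg_of (Form.isDeg_part 0 κ) rfl)).1 (by norm_num)
    rw [h3, mul_zero, zero_add, h1] at h2
    refine ⟨T⁻¹ • J n.Ψ n.hΨ.map T (n.α * part 0 κ),
      Basic.smul (hΦ := n.hΨ.map) _ (J_basic n.hΨ _), ?_⟩
    rw [Form.d_smul, ← h2, smul_smul, inv_mul_cancel₀ n.hT, one_smul]
  | succ i ih =>
    intro hi w hw hb hd
    obtain ⟨κ, hκ⟩ := H _ hi w hw hd
    obtain ⟨w', h1, h2, h3, u, hu, h4⟩ := step0 n.hΨ n.hT n.hα n.αo (k := 2 * i + 1) hw hb hκ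
    obtain ⟨η, hη, h5⟩ := ih (by omega) w' h1 h2 h3
    refine ⟨n.e.1 * η + u, Basic.add (hΦ := n.hΨ.map) (Basic.mul (hΦ := n.hΨ.map) n.e.2 hη) hu, ?_⟩
    have h6 : n.e.1.d = 0 := n.Z_d n.eZ
    have h7 : n.e.1.sg = n.e.1 := congrArg Subtype.val n.eZ.2.1
    rw [Form.d_add, Form.d_mul, h6, h7, zero_mul, zero_add, ← h5]
    exact h4

theorem odd7 (H : ∀ i, i ≤ 3 → ∀ w : Form dY, IsDeg (2 * i + 1) w → w.d = 0 →
      ∃ κ : Form dY, w = κ.d) {w : Bs n.hΨ} (hw : w ∈ n.bs.G 7) (hd : n.bs.d w = 0) :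
    ∃ η ∈ n.bs.G 6, n.bs.d η = w := by
  have h1 : IsDeg 7 w.1 := mem_Dg.1 hw
  obtain ⟨η, hη, h2⟩ := n.odd H 3 le_rfl w.1 h1 w.2 (congrArg Subtype.val hd)
  refine ⟨⟨part 6 η, basic_part n.hΨ hη 6⟩, Dg_of (Form.isDeg_part 6 η) rfl, Subtype.ext ?_⟩
  change (part 6 η).d = w.1
  rw [← Form.part_succ_d, ← h2]
  exact h1

end Cn

/-- a map which intertwines two flows up to speed -/
structure Sp (n : Cn dB T) (n' : Cn dY T) (r : ℝ) where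
  q : B → Y
  hq : dB.Map dY q
  hc : ∀ b t, q (n.Ψ (b, t)) = n'.Ψ (q b, r * t)
  hα : Form.pull q hq n'.α = r • n.α

namespace Sp

variable {n : Cn dB T} {n' : Cn dY T} {r : ℝ} (s : Sp n n' r)

/-- pull-back of basic forms -/
noncomputable def bm : Bs n'.hΨ →ₐ[ℝ] Bs n.hΨ :=
  bmap _ _ s.hq (basic_speed n'.hΨ.map n.hΨ.map s.hq r s.hc)

theorem bm_val (w : Bs n'.hΨ) : (s.bm w).1 = Form.pull s.q s.hq w.1 := rfl

theorem mor : Mor n'.bs n.bs s.bm := mor_bmap _ _ _ _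

theorem bm_e : s.bm n'.e = r • n.e := Subtype.ext (by
  change Form.pull s.q s.hq (T⁻¹ • n'.α.d) = r • T⁻¹ • n.α.d
  rw [pl_smul, Form.pull_d, s.hα, Form.d_smul, smul_comm])

theorem H_E : s.mor.H n'.E = r • n.E := by
  rw [Cn.E, Cn.E, Mor.H_cl, ← map_smul]
  exact congrArg n.bs.cl (Subtype.ext s.bm_e)

end Sp

variable {Φ : X × ℝ → X} {h : IsFlow dX T Φ}

/-- the construction of a level -/
theorem exists_level (C : CX h dM) {n : Cn dB T} {n' : Cn dY T} {r : ℝ} (hr : r ≠ 0)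
    (hp : ∀ b, n.Ψ (b, r * T) = b) (s : Sp n n' r⁻¹) (g : Tg h n') (k : Tg h (n.cyl hr hp))
    (k0 : ∀ b, k.f (b, 0) = g.f (s.q b)) {g1 : B → M} (hg1 : dB.Map dM g1)
    (k1 : ∀ b, k.f (b, 1) = C.cst (g1 b))
    (H : ∀ i, i ≤ 3 → ∀ w : Form dY, IsDeg (2 * i + 1) w → w.d = 0 → ∃ κ : Form dY, w = κ.d)
    (b : n.bs.H) (g6 : ∀ w : n.bs.Z, w.1 ∈ n.bs.G 6 → ∃ c0 c1 : ℝ,
      n.bs.cl w = c0 • n.E ^ 3 + c1 • b) :
    ∃ (v : EvD C.car n'.bs) (v1 : EvD C.car n.bs) (hK : v1.Kil) (ρ : ℝ),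
      Nonempty (Hty (v.map s.mor) v1) ∧ v.e = n'.e ∧ v1.e = r⁻¹ • n.e ∧
      (EvD.xZ hK).1.1 = Form.pull g1 hg1 (Form.pull C.cst C.hcst C.x.1) ∧
      n.bs.cl (EvD.ηZ hK) = ρ • b := by
  have hc : dB.Map dX (fun b => g.f (s.q b)) := fun {E} _ _ _ {u x} hh => g.hf (s.hq hh)
  have h0 : ∀ w, at_ 0 (Form.pull k.f k.hf w) = Form.pull s.q s.hq (Form.pull g.f g.hf w) :=
    fun w => (pull_pull (Form.map_slice 0) k.hf hc k0 w).trans
      (pull_pull s.hq g.hf hc (fun b => rfl) w).symm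
  have h1 : ∀ a, s.bm (g.φ a) = slc n hr hp 0 (k.φ a) := fun a => Subtype.ext (by
    rw [s.bm_val, slc_val, g.φ_val, k.φ_val, ← pl_smul, ← pl_smul, at_sub, at_mul, h0, h0, pl_sub,
      pl_mul, s.hα]
    congr 2
    exact ((pl_smul _ _).trans (congrArg (fun w => r⁻¹ • w) (at_pr 0 n.α))).symm)
  obtain ⟨η, ηG, ηd⟩ := n'.odd7 H (w := g.φ C.car.A) (by
    rw [bsd_G, show C.car.A = JI h C.x from rfl, g.φ_J]
    exact Dg_pull (C.car.AG) _) (Subtype.ext (by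
    rw [bsd_d, show C.car.A = JI h C.x from rfl, g.φ_J, ← Form.pull_d]
    have h3 : (J Φ h.map T C.x.1).d = 0 := congrArg Subtype.val C.car.Ad
    rw [h3, pl_zero]
    rfl))
  obtain ⟨v1, -, hK, -, -, h2⟩ := exists_cyl n hr hp C k hg1 k1 ((g.evd C η ηG ηd).map s.mor) h1
    s.bm_e
  obtain ⟨c0, c1, h3⟩ := g6 (EvD.ηZ hK) v1.ηG
  have h4 : η - (c0 * r ^ 3) • n'.e ^ 3 ∈ n'.bs.G 6 := Submodule.sub_mem _ ηG
    (Submodule.smul_mem _ _ (n'.bs.cast (n'.bs.G_pow n'.eG 3) (by norm_num)))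
  have h5 : n'.bs.d (η - (c0 * r ^ 3) • n'.e ^ 3) = g.φ C.car.A := by
    rw [map_sub, map_smul, n'.bs.d_pow_closed (a := n'.e) n'.eZ.2.1 n'.ed, smul_zero, sub_zero, ηd]
  obtain ⟨v2, O, hK', h6, h7, h8⟩ := exists_cyl n hr hp C k hg1 k1
    ((g.evd C _ h4 h5).map s.mor) h1 s.bm_e
  refine ⟨g.evd C _ h4 h5, v2, hK', c1, O, rfl, h6, h7, ?_⟩
  have h9 : EvD.ηZ hK' = EvD.ηZ hK - c0 • n.eZ ^ 3 := Subtype.ext (by
    change v2.η = v1.η - c0 • n.e ^ 3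
    rw [h8, h2]
    change s.bm (η - _) + _ = s.bm η + _ - _
    rw [map_sub, map_smul, map_pow, s.bm_e, _root_.smul_pow, smul_smul, mul_assoc, ← mul_pow,
      mul_inv_cancel₀ hr, one_pow, mul_one]
    abel)
  rw [h9, map_sub, map_smul, map_pow, h3, Cn.E, add_sub_cancel_left]

end Vale.Agent.P231Z.Alg
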