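import Vale.Agent.P231Z.Alg.DG2
import Vale.Agent.P231Z.Alg.Defs
import Vale.Agent.P231.WA.Inv

/-!
# P231, Cayley case, algebra (3): invariant and basic forms of a periodic flow
-/

set_option linter.unusedSectionVars false
set_option linter.unusedVariables false

namespace Vale.Agent.P231Z.Alg

open Vale.Agent.P231 Vale.Agent.P231.Fm Vale.Agent.P231.W Vale.Agent.P231.H584
open Vale.Agent.P231.Fm.Form (IsDeg part)

variable {X Y Z : Type*} {D : Dif X} {D' : Dif Y} {D'' : Dif Z}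

section pl

variable {f : X → Y} {hf : D.Map D' f}

theorem pl_add (a b : Form D') : Form.pull f hf (a + b) = Form.pull f hf a + Form.pull f hf b :=
  map_add (Form.pullA f hf) a b

theorem pl_sub (a b : Form D') : Form.pull f hf (a - b) = Form.pull f hf a - Form.pull f hf b :=
  map_sub (Form.pullA f hf) a b

theorem pl_mul (a b : Form D') : Form.pull f hf (a * b) = Form.pull f hf a * Form.pull f hf b :=
  map_mul (Form.pullA f hf) a b

theorem pl_smul (c : ℝ) (a : Form D') : Form.pull f hf (c • a) = c • Form.pull f hf a :=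
  map_smul (Form.pullA f hf) c a

theorem pl_neg (a : Form D') : Form.pull f hf (-a) = -Form.pull f hf a :=
  map_neg (Form.pullA f hf) a

theorem pl_zero : Form.pull f hf (0 : Form D') = 0 := map_zero (Form.pullA f hf)

theorem pl_one : Form.pull f hf (1 : Form D') = 1 := map_one (Form.pullA f hf)

theorem pl_pow (a : Form D') (n : ℕ) : Form.pull f hf (a ^ n) = Form.pull f hf a ^ n :=
  map_pow (Form.pullA f hf) a n

end pl

theorem pr_neg (a : Form D) : pr (-a) = -pr a := map_neg (Form.pullA Prod.fst Dif.map_fst) a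

/-- the forms of degree `z` -/
def Dg (D : Dif X) (z : ℤ) : Submodule ℝ (Form D) where
  carrier := {w | (z < 0 → w = 0) ∧ ∀ k : ℕ, (k : ℤ) = z → IsDeg k w}
  add_mem' := fun {a b} ha hb => ⟨fun h => by rw [ha.1 h, hb.1 h, add_zero],
    fun k hk => (ha.2 k hk).add (hb.2 k hk)⟩
  zero_mem' := ⟨fun _ => rfl, fun k _ => IsDeg.zero k⟩
  smul_mem' := fun c a ha => ⟨fun h => by rw [ha.1 h, smul_zero],
    fun k hk => (ha.2 k hk).smul c⟩

theorem mem_Dg {k : ℕ} {w : Form D} : w ∈ Dg D k ↔ IsDeg k w :=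
  ⟨fun h => h.2 k rfl, fun h => ⟨fun h1 => by omega, fun j hj => by
    obtain rfl : j = k := by omega
    exact h⟩⟩

theorem Dg_of {k : ℕ} {z : ℤ} {w : Form D} (h : IsDeg k w) (e : (k : ℤ) = z) : w ∈ Dg D z :=
  e ▸ mem_Dg.2 h

theorem Dg_cases {z : ℤ} {w : Form D} (h : w ∈ Dg D z) :
    w = 0 ∨ ∃ k : ℕ, (k : ℤ) = z ∧ IsDeg k w := by
  rcases lt_or_ge z 0 with h1 | h1
  · exact Or.inl (h.1 h1)
  · exact Or.inr ⟨z.toNat, Int.toNat_of_nonneg h1, h.2 _ (Int.toNat_of_nonneg h1)⟩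

theorem Dg_pull {z : ℤ} {w : Form D'} (h : w ∈ Dg D' z) {f : X → Y} (hf : D.Map D' f) :
    Form.pull f hf w ∈ Dg D z :=
  ⟨fun h1 => by rw [h.1 h1, pl_zero], fun k hk => (h.2 k hk).pull f hf⟩

theorem Dg_mul {i j : ℤ} {a b : Form D} (ha : a ∈ Dg D i) (hb : b ∈ Dg D j) :
    a * b ∈ Dg D (i + j) := by
  rcases Dg_cases ha with rfl | ⟨k, rfl, hk⟩
  · rw [zero_mul]; exact Submodule.zero_mem _
  rcases Dg_cases hb with rfl | ⟨l, rfl, hl⟩
  · rw [mul_zero]; exact Submodule.zero_mem _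
  exact Dg_of (hk.mul hl) (by push_cast; rfl)

theorem Dg_K {z : ℤ} {w : Form (D.prod (Dif.lin ℝ))} (h : w ∈ Dg _ z) :
    Form.K w ∈ Dg D (z - 1) := by
  rcases Dg_cases h with rfl | ⟨k, rfl, hk⟩
  · rw [K_zero]; exact Submodule.zero_mem _
  rcases k with _ | k
  · rw [hk.K_zero]; exact Submodule.zero_mem _
  · exact Dg_of hk.K (by push_cast; ring)

theorem Dg_KT (c : ℝ) {z : ℤ} {w : Form (D.prod (Dif.lin ℝ))} (h : w ∈ Dg _ z) :
    KT c w ∈ Dg D (z - 1) := Dg_K (Dg_pull h _)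

/-- the grade involution as a homomorphism -/
noncomputable def sgA (D : Dif X) : Form D →ₐ[ℝ] Form D :=
  AlgHom.ofLinearMap { toFun := Form.sg, map_add' := Form.sg_add, map_smul' := Form.sg_smul }
    Form.sg_one Form.sg_mul

/-- the algebra of forms -/
noncomputable def fsd (K : Submodule ℝ (Form D)) (hl : ∀ a, ∀ b ∈ K, a * b ∈ K)
    (hr : ∀ a ∈ K, ∀ b, a * b ∈ K) (hd : ∀ a ∈ K, a.d ∈ K) : SD (Form D) where
  d := Form.dL
  sg := sgA D
  G := Dg D
  K := K
  d_mul := Form.d_mul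
  d_d := Form.d_d
  d_sg := Form.d_sg
  even := fun a b h => Form.mul_comm_of_even h b
  odd := fun a b h => Form.mul_of_odd h b
  G_one := Dg_of IsDeg.one rfl
  G_mul := Dg_mul
  G_d := fun {i a} ha => by
    rcases Dg_cases ha with rfl | ⟨k, rfl, hk⟩
    · rw [map_zero]; exact Submodule.zero_mem _
    · exact Dg_of hk.d (by push_cast; rfl)
  G_neg := fun hi ha => ha.1 hi
  G_even := fun {i a} hi ha => by
    rcases Dg_cases ha with rfl | ⟨k, rfl, hk⟩
    · exact map_zero _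
    · exact hk.sg_of_even ((Int.even_coe_nat k).1 hi)
  G_odd := fun {i a} hi ha => by
    rcases Dg_cases ha with rfl | ⟨k, rfl, hk⟩
    · rw [map_zero, neg_zero]
    · exact hk.sg_of_odd ((Int.odd_coe_nat k).1 hi)
  K_l := fun a b hb => hl a b hb
  K_r := fun b ha => hr _ ha b
  K_d := fun ha => hd _ ha

/-- all forms -/
noncomputable def fs0 (D : Dif X) : SD (Form D) :=
  fsd ⊤ (fun _ _ _ => trivial) (fun _ _ _ => trivial) (fun _ _ => trivial)

/-- the forms with the ideal of the forms which vanish on a subspace -/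
noncomputable def fsK {f : Y → X} (hf : D'.Map D f) : SD (Form D) :=
  fsd (LinearMap.ker (Form.pullA f hf).toLinearMap)
    (fun a b hb => by
      have h : Form.pull f hf b = 0 := hb
      change Form.pull f hf (a * b) = 0
      rw [pl_mul, h, mul_zero])
    (fun a ha b => by
      have h : Form.pull f hf a = 0 := ha
      change Form.pull f hf (a * b) = 0
      rw [pl_mul, h, zero_mul])
    (fun a ha => by
      have h : Form.pull f hf a = 0 := ha
      change Form.pull f hf a.d = 0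
      rw [Form.pull_d, h, Form.d_zero])

/-! ### basic forms -/

section Bs

variable {T T' : ℝ} {Φ : X × ℝ → X} (h : IsFlow D T Φ)

/-- the basic forms -/
def Bs : Subalgebra ℝ (Form D) where
  carrier := {w | Basic Φ h.map w}
  mul_mem' := fun ha hb => Basic.mul (hΦ := h.map) ha hb
  add_mem' := fun ha hb => Basic.add (hΦ := h.map) ha hb
  algebraMap_mem' := fun r => by
    rw [Algebra.algebraMap_eq_smul_one]
    exact Basic.smul (hΦ := h.map) r (Basic.one (hΦ := h.map))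

theorem basic_sg {w : Form D} (hw : Basic Φ h.map w) : Basic Φ h.map w.sg := by
  rw [basic_def, Form.pull_sg, hw, pr_sg]

theorem basic_part {w : Form D} (hw : Basic Φ h.map w) (k : ℕ) : Basic Φ h.map (part k w) := by
  rw [basic_def, ← Form.part_pull, hw, WA.part_pr]

/-- the algebra of basic forms -/
noncomputable def bsd : SD (Bs h) :=
  (fs0 D).sub (Bs h) (fun a ha => Basic.d (hΦ := h.map) ha) (fun a ha => basic_sg h ha)

theorem bsd_d (a : Bs h) : ((bsd h).d a).1 = a.1.d := rfl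

theorem bsd_sg (a : Bs h) : ((bsd h).sg a).1 = a.1.sg := rfl

theorem bsd_G {i : ℤ} {a : Bs h} : a ∈ (bsd h).G i ↔ a.1 ∈ Dg D i := Iff.rfl

variable {Ψ : Y × ℝ → Y} (h' : IsFlow D' T' Ψ)

/-- pull-back of basic forms -/
noncomputable def bmap {f : Y → X} (hf : D'.Map D f)
    (hb : ∀ w, Basic Φ h.map w → Basic Ψ h'.map (Form.pull f hf w)) : Bs h →ₐ[ℝ] Bs h' :=
  ((Form.pullA f hf).comp (Bs h).val).codRestrict (Bs h') (fun a => hb a.1 a.2)

theorem bmap_val {f : Y → X} (hf : D'.Map D f)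
    (hb : ∀ w, Basic Φ h.map w → Basic Ψ h'.map (Form.pull f hf w)) (a : Bs h) :
    (bmap h h' hf hb a).1 = Form.pull f hf a.1 := rfl

theorem mor_bmap {f : Y → X} (hf : D'.Map D f)
    (hb : ∀ w, Basic Φ h.map w → Basic Ψ h'.map (Form.pull f hf w)) :
    Mor (bsd h) (bsd h') (bmap h h' hf hb) where
  d := fun a => Subtype.ext (Form.pull_d f hf a.1)
  sg := fun a => Subtype.ext (Form.pull_sg f hf a.1)
  G := fun ha => Dg_pull ha hf

theorem pull_flow (hΦ : (D.prod (Dif.lin ℝ)).Map D Φ) (hΨ : (D'.prod (Dif.lin ℝ)).Map D' Ψ)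
    {f : Y → X} (hf : D'.Map D f) (hc : ∀ y t, f (Ψ (y, t)) = Φ (f y, t))
    (w : Form D) : Form.pull Ψ hΨ (Form.pull f hf w) =
      Form.pull (fun p : Y × ℝ => (f p.1, p.2)) (map_cyl hf) (Form.pull Φ hΦ w) := by
  have h1 : (D'.prod (Dif.lin ℝ)).Map D (fun p => Φ (f p.1, p.2)) :=
    fun {E} _ _ _ {u x} hh => hΦ (map_cyl hf hh)
  rw [pull_pull hΨ hf h1 (fun p => hc _ _) w, pull_pull (map_cyl hf) hΦ h1 (fun p => rfl) w]

theorem basic_equiv (hΦ : (D.prod (Dif.lin ℝ)).Map D Φ) (hΨ : (D'.prod (Dif.lin ℝ)).Map D' Ψ)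
    {f : Y → X} (hf : D'.Map D f) (hc : ∀ y t, f (Ψ (y, t)) = Φ (f y, t))
    (w : Form D) (hw : Basic Φ hΦ w) : Basic Ψ hΨ (Form.pull f hf w) := by
  rw [basic_def, pull_flow hΦ hΨ hf hc, hw, pull_pr hf]

/-- maps which intertwine the flows up to a change of speed -/
theorem basic_speed (hΦ : (D.prod (Dif.lin ℝ)).Map D Φ) (hΨ : (D'.prod (Dif.lin ℝ)).Map D' Ψ)
    {f : Y → X} (hf : D'.Map D f) (r : ℝ)
    (hc : ∀ y t, f (Ψ (y, t)) = Φ (f y, r * t)) (w : Form D) (hw : Basic Φ hΦ w) :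
    Basic Ψ hΨ (Form.pull f hf w) := by
  have h0 : (D.prod (Dif.lin ℝ)).Map D (fun p : X × ℝ => Φ (p.1, r * p.2)) :=
    fun {E} _ _ _ {u x} hh => hΦ (map_scale r hh)
  refine basic_equiv (Φ := fun p : X × ℝ => Φ (p.1, r * p.2)) h0 hΨ hf hc w ?_
  rw [basic_def, ← pull_pull (map_scale r) hΦ h0 (fun p => rfl) w, hw, scale_pr]

end Bs

/-! ### invariant forms -/

section Inv

variable {T : ℝ} {Φ : X × ℝ → X}

theorem dt_dt : (dt : Form (D.prod (Dif.lin ℝ))) * dt = 0 :=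
  (fs0 (D.prod (Dif.lin ℝ))).sq_odd dt_sg

theorem mul_dt (a : Form (D.prod (Dif.lin ℝ))) : a * dt = dt * a.sg := by
  have h := Form.mul_of_odd (dt_sg (D := D)) a.sg
  rw [Form.sg_sg] at h
  exact h.symm

/-- the invariant forms -/
def Inv (h : IsFlow D T Φ) : Subalgebra ℝ (Form D) where
  carrier := {w | ∃ w' : Form D, Form.pull Φ h.map w = pr w + dt * pr w'}
  mul_mem' := fun {a b} ⟨a', ha⟩ ⟨b', hb⟩ => ⟨a' * b + a.sg * b', by
    rw [pl_mul, ha, hb, pr_add, pr_mul, pr_mul, pr_mul, pr_sg, add_mul, mul_add, mul_add,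
      ← mul_assoc (pr a), mul_dt (pr a), ← mul_assoc (dt * pr a'), mul_assoc dt (pr a') dt,
      mul_dt (pr a'), ← mul_assoc dt dt, dt_dt, zero_mul, zero_mul, add_zero, mul_add,
      mul_assoc, mul_assoc]
    abel⟩
  add_mem' := fun {a b} ⟨a', ha⟩ ⟨b', hb⟩ => ⟨a' + b', by
    rw [pl_add, ha, hb, pr_add, pr_add, mul_add]
    abel⟩
  algebraMap_mem' := fun r => ⟨0, by
    rw [Algebra.algebraMap_eq_smul_one, pl_smul, pl_one, pr_smul, pr_one, pr_zero, mul_zero,
      add_zero]⟩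

variable (h : IsFlow D T Φ)

theorem J_of_inv {w w' : Form D} (hw : Form.pull Φ h.map w = pr w + dt * pr w') :
    J Φ h.map T w = T • w' := by
  rw [J_def, hw, KT_add, KT_pr, zero_add, KT_dt_mul_pr]

theorem inv_eq (hT : T ≠ 0) {w : Form D} (hw : w ∈ Inv h) :
    Form.pull Φ h.map w = pr w + dt * pr (T⁻¹ • J Φ h.map T w) := by
  obtain ⟨w', hw'⟩ := hw
  rw [J_of_inv h hw', smul_smul, inv_mul_cancel₀ hT, one_smul, hw']

theorem inv_basic {w : Form D} (hw : Basic Φ h.map w) : w ∈ Inv h :=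
  ⟨0, by rw [pr_zero, mul_zero, add_zero]; exact hw⟩

theorem inv_d {w : Form D} (hw : w ∈ Inv h) : w.d ∈ Inv h := by
  obtain ⟨w', hw'⟩ := hw
  refine ⟨-w'.d, ?_⟩
  rw [Form.pull_d, hw', Form.d_add, Form.d_mul, dt_d, zero_mul, zero_add, dt_sg, ← pr_d, ← pr_d,
    pr_neg, neg_mul, mul_neg]

theorem inv_sg {w : Form D} (hw : w ∈ Inv h) : w.sg ∈ Inv h := by
  obtain ⟨w', hw'⟩ := hw
  refine ⟨-w'.sg, ?_⟩
  rw [Form.pull_sg, hw', Form.sg_add, Form.sg_mul, dt_sg, ← pr_sg, ← pr_sg, pr_neg, neg_mul,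
    mul_neg]

theorem J_mul_inv {a b : Form D} (ha : a ∈ Inv h) (hb : b ∈ Inv h) :
    J Φ h.map T (a * b) = J Φ h.map T a * b + a.sg * J Φ h.map T b := by
  obtain ⟨a', ha⟩ := ha
  obtain ⟨b', hb⟩ := hb
  have h1 : Form.pull Φ h.map (a * b) = pr (a * b) + dt * pr (a' * b + a.sg * b') := by
    rw [pl_mul, ha, hb, pr_add, pr_mul, pr_mul, pr_mul, pr_sg, add_mul, mul_add, mul_add,
      ← mul_assoc (pr a), mul_dt (pr a), ← mul_assoc (dt * pr a'), mul_assoc dt (pr a') dt,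
      mul_dt (pr a'), ← mul_assoc dt dt, dt_dt, zero_mul, zero_mul, add_zero, mul_add,
      mul_assoc, mul_assoc]
    abel
  rw [J_of_inv h h1, J_of_inv h ha, J_of_inv h hb, smul_add, smul_mul_assoc, mul_smul_comm]

theorem J_sg (w : Form D) : J Φ h.map T w.sg = -(J Φ h.map T w).sg := by
  rw [J_def, J_def, KT_sg, neg_neg, Form.pull_sg]

theorem Dg_J {z : ℤ} {w : Form D} (hw : w ∈ Dg D z) : J Φ h.map T w ∈ Dg D (z - 1) :=
  Dg_KT T (Dg_pull hw _)

theorem inv_pull {Ψ : Y × ℝ → Y} (h' : IsFlow D' T Ψ) {f : Y → X} (hf : D'.Map D f)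
    (hc : ∀ y t, f (Ψ (y, t)) = Φ (f y, t)) {w : Form D} (hw : w ∈ Inv h) :
    Form.pull f hf w ∈ Inv h' := by
  obtain ⟨w', hw'⟩ := hw
  refine ⟨Form.pull f hf w', ?_⟩
  rw [pull_flow h.map h'.map hf hc, hw', pl_add, pl_mul, pull_pr hf, pull_pr hf, pull_dt hf]

/-- averaging -/
noncomputable def Av (w : Form D) : Form D :=
  T⁻¹ • KT T (dt * Form.pull Φ h.map w)

theorem Av_inv (hT : T ≠ 0) (w : Form D) : Av h w ∈ Inv h :=
  (Inv h).smul_mem (x := KT T (dt * Form.pull Φ h.map w)) ⟨_, WA.pull_average h hT w⟩ _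

theorem Av_of_inv (hT : T ≠ 0) {w : Form D} (hw : w ∈ Inv h) : Av h w = w := by
  obtain ⟨w', hw'⟩ := hw
  rw [Av, hw', mul_add, ← mul_assoc, dt_dt, zero_mul, add_zero, KT_dt_mul_pr, smul_smul,
    inv_mul_cancel₀ hT, one_smul]

theorem Av_d (w : Form D) : Av h w.d = (Av h w).d := by
  have h1 := KT_homotopy T (dt * Form.pull Φ h.map w)
  rw [at_mul, at_mul, at_dt, at_dt, zero_mul, zero_mul, sub_zero, Form.d_mul, dt_d, zero_mul,
    zero_add, dt_sg, neg_mul, KT_neg, ← Form.pull_d] at h1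
  rw [Av, Av, Form.d_smul]
  congr 1
  exact (neg_add_eq_zero.1 h1.symm)

theorem Av_add (v w : Form D) : Av h (v + w) = Av h v + Av h w := by
  rw [Av, Av, Av, pl_add, mul_add, KT_add, smul_add]

theorem Av_smul (c : ℝ) (w : Form D) : Av h (c • w) = c • Av h w := by
  rw [Av, Av, pl_smul, mul_smul_comm, KT_smul, smul_comm]

theorem Dg_Av {z : ℤ} {w : Form D} (hw : w ∈ Dg D z) : Av h w ∈ Dg D z := by
  have h1 := Dg_KT T (Dg_mul (Dg_of (WA.isDeg_dt (D := D)) rfl) (Dg_pull hw h.map))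
  rw [show ((1 : ℕ) : ℤ) + z - 1 = z by push_cast; ring] at h1
  exact Submodule.smul_mem _ _ h1

theorem KT_nat {f : Y → X} (hf : D'.Map D f) (c : ℝ) (w : Form (D.prod (Dif.lin ℝ))) :
    Form.pull f hf (KT c w) =
      KT c (Form.pull (fun p : Y × ℝ => (f p.1, p.2)) (map_cyl hf) w) := by
  have h1 : (D'.prod (Dif.lin ℝ)).Map (D.prod (Dif.lin ℝ)) (fun p => (f p.1, c * p.2)) :=
    fun {E} _ _ _ {u x} hh => map_scale c (map_cyl hf hh)
  rw [KT, KT, ← K_nat hf, pull_pull (map_cyl hf) (map_scale c) h1 (fun p => rfl),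
    pull_pull (map_scale c) (map_cyl hf) h1 (fun p => rfl)]

theorem fix_flow {f : Y → X} (hf : D'.Map D f) (hc : ∀ y t, Φ (f y, t) = f y) (w : Form D) :
    Form.pull (fun p : Y × ℝ => (f p.1, p.2)) (map_cyl hf) (Form.pull Φ h.map w) =
      pr (Form.pull f hf w) :=
  (pull_pull (map_cyl hf) h.map (map_comp_fst hf) (fun p => hc _ _) w).trans
    (pull_pull Dif.map_fst hf (map_comp_fst hf) (fun p => rfl) w).symm

theorem fix_Av (hT : T ≠ 0) {f : Y → X} (hf : D'.Map D f) (hc : ∀ y t, Φ (f y, t) = f y)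
    (w : Form D) : Form.pull f hf (Av h w) = Form.pull f hf w := by
  rw [Av, pl_smul, KT_nat hf, pl_mul, pull_dt hf, fix_flow h hf hc, KT_dt_mul_pr, smul_smul,
    inv_mul_cancel₀ hT, one_smul]

theorem fix_J {f : Y → X} (hf : D'.Map D f) (hc : ∀ y t, Φ (f y, t) = f y) (w : Form D) :
    Form.pull f hf (J Φ h.map T w) = 0 := by
  rw [J_def, KT_nat hf, fix_flow h hf hc, KT_pr]

variable {f : Y → X} (hf : D'.Map D f)

/-- the algebra of invariant forms -/
noncomputable def isd : SD (Inv h) :=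
  (fsK hf).sub (Inv h) (fun a ha => inv_d h ha) (fun a ha => inv_sg h ha)

/-- the contraction on invariant forms -/
noncomputable def JI : Inv h →ₗ[ℝ] Inv h where
  toFun := fun a => ⟨J Φ h.map T a.1, inv_basic h (J_basic h a.1)⟩
  map_add' := fun a b => Subtype.ext (J_add (hΦ := h.map) T a.1 b.1)
  map_smul' := fun c a => Subtype.ext (J_smul (hΦ := h.map) T c a.1)

theorem JI_val (a : Inv h) : (JI h a).1 = J Φ h.map T a.1 := rfl

theorem isd_d (a : Inv h) : ((isd h hf).d a).1 = a.1.d := rfl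

theorem isd_sg (a : Inv h) : ((isd h hf).sg a).1 = a.1.sg := rfl

theorem isd_G {i : ℤ} {a : Inv h} : a ∈ (isd h hf).G i ↔ a.1 ∈ Dg D i := Iff.rfl

theorem isd_K {a : Inv h} : a ∈ (isd h hf).K ↔ Form.pull f hf a.1 = 0 := Iff.rfl

theorem der_JI (hc : ∀ y t, Φ (f y, t) = f y) : Der (isd h hf) (JI h) (-1) where
  mul := fun a b => Subtype.ext (J_mul_inv h a.2 b.2)
  sg := fun a => Subtype.ext (J_sg h a.1)
  G := fun ha => Dg_J h ha
  K := fun {a} _ => fix_J h hf hc a.1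

theorem JI_JI (a : Inv h) : JI h (JI h a) = 0 := 
  Subtype.ext (J_of_basic (hΦ := h.map) T (J_basic h a.1))

theorem JI_d (a : Inv h) : JI h ((isd h hf).d a) = -(isd h hf).d (JI h a) :=
  Subtype.ext (J_d h a.1)

end Inv

end Vale.Agent.P231Z.Alg
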