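import Vale.Agent.P231Z.Alg.LB

/-!
# P231, Cayley case, algebra (13): the Cartan model of the loops, the first level
-/

set_option linter.unusedSectionVars false
set_option linter.unusedVariables false

namespace Vale.Agent.P231Z.Alg

open Vale.Agent.P231 Vale.Agent.P231.Fm Vale.Agent.P231.W Vale.Agent.P231.H584
open Vale.Agent.P231.Fm.Form (IsDeg part)
open Polynomial

theorem EvD.map_H {R S S' : Type*} [Ring R] [Algebra ℝ R] [Ring S] [Algebra ℝ S] [Ring S']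
    [Algebra ℝ S'] {c : Car R} {t : SD S} (v : EvD c t) {t' : SD S'} {ψ : S →ₐ[ℝ] S'}
    (h : Mor t t' ψ) (T : c.s2.Z) :
    h.H (v.mor.H (c.s2.cl T)) = (v.map h).mor.H (c.s2.cl T) :=
  congrArg t'.cl (Subtype.ext (v.map_ev h T.1))

variable {B U M X : Type*} {dB : Dif B} {dU : Dif U} {dM : Dif M} {dX : Dif X} {D c : ℝ}
  {S : Sys dB dU dM 1 D c}

namespace Lp

variable (L : Lp S dX) (hB : HB S)

theorem cst_ev (a : Form dM) : Form.pull L.cst L.hcst (Form.pull L.ev L.hev a) = a :=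
  (pull_pull (k := fun b : M => b) L.hcst L.hev (fun h => h) L.ev_cst a).trans (Form.pull_id _ a)

theorem cst_x : Form.pull L.cst L.hcst (Av L.hΦ (Form.pull L.ev L.hev S.F)) = S.F :=
  (fix_Av L.hΦ S.T_ne L.hcst L.Φ_cst _).trans (L.cst_ev S.F)

/-- the Cartan model of the loops -/
noncomputable def cx : CX L.hΦ dM where
  cst := L.cst
  hcst := L.hcst
  fix := L.Φ_cst
  x := ⟨Av L.hΦ (Form.pull L.ev L.hev S.F), Av_inv L.hΦ S.T_ne _⟩
  xG := mem_Dg.1 (Dg_Av L.hΦ (mem_Dg.2 (hB.Fdeg.pull _ L.hev)))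
  xd := by
    change (Av L.hΦ _).d = 0
    rw [← Av_d, ← Form.pull_d, S.hF, pl_zero, ← zero_smul ℝ (0 : Form dX), Av_smul, zero_smul,
      zero_smul]
  x3 := by
    change Form.pull L.cst L.hcst (Av L.hΦ _) ^ 3 = 0
    rw [L.cst_x]
    exact S.hFn

theorem rx {k : ℕ} {a : Inv L.hΦ} (hG : IsDeg k a.1) (hK : Form.pull L.cst L.hcst a.1 = 0)
    (hd : a.1.d = 0) {κ : Form dU} (hκ : L.Res a.1 = κ.d) : (L.cx hB).car.s.Rx k a := by
  obtain ⟨b, η, h⟩ := L.Res_ex k a.1 κ hG hd hκ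
  have h1 : b = -(Form.pull L.cst L.hcst η).d := by
    rw [h, pl_add, L.cst_ev, Form.pull_d] at hK
    exact eq_neg_of_add_eq_zero_left hK
  have h2 : a.1 = (η - Form.pull L.ev L.hev (Form.pull L.cst L.hcst η)).d := by
    rw [Form.d_sub, ← Form.pull_d, h, h1, pl_neg]
    abel
  rcases k with _ | k
  · refine SD.Rx.zero.congr (Subtype.ext ?_)
    rw [← hG.part_eq, h2, Form.part_zero_d]
    rfl
  · refine ⟨⟨Av L.hΦ (part k (η - Form.pull L.ev L.hev (Form.pull L.cst L.hcst η))),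
      Av_inv L.hΦ S.T_ne _⟩, Dg_Av L.hΦ (Dg_of (Form.isDeg_part k _) (by push_cast; ring)), ?_,
      Subtype.ext ?_⟩
    · change Form.pull L.cst L.hcst (Av L.hΦ _) = 0
      rw [fix_Av L.hΦ S.T_ne L.hcst L.Φ_cst, ← Form.part_pull, pl_sub, L.cst_ev, sub_self]
      exact IsDeg.zero k
    · change a.1 = (Av L.hΦ _).d
      rw [← Av_d, ← Form.part_succ_d, ← h2, hG.part_eq, Av_of_inv L.hΦ S.T_ne a.2]

theorem coh (hU : HU dU) : (L.cx hB).car.Coh where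
  ex := fun j h7 h15 h30 h38 a hG hK hd => by
    have hd' : a.1.d = 0 := congrArg Subtype.val hd
    rcases Dg_cases hG with h | ⟨k, rfl, hk⟩
    · exact SD.Rx.zero.congr (Subtype.ext h.symm)
    by_cases h1 : k < 7
    · exact L.rx hB hk hK hd' (κ := 0) (by rw [Form.d_zero]; exact L.Res_low k _ h1 hk)
    · obtain ⟨i, rfl⟩ : ∃ i, k = i + 7 := ⟨k - 7, by omega⟩
      obtain ⟨κ, hκ⟩ := hU.ex i (by omega) (by omega) (by omega) (by omega) _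
        (L.Res_deg i _ hk) (L.Res_d _ hd')
      exact L.rx hB hk hK hd' hκ
  one := fun j hj a a' hG hK hd hG' hK' hd' hn => by
    obtain ⟨i, rfl, hi⟩ : ∃ i : ℕ, j = ((i + 7 : ℕ) : ℤ) ∧ (i = 0 ∨ i = 8 ∨ i = 23 ∨ i = 31) :=
      ⟨(j - 7).toNat, by omega, by omega⟩
    obtain ⟨G, hGG⟩ : ∃ G : Form dU, ∀ w : Form dU, IsDeg i w → w.d = 0 →
        ∃ (r : ℝ) (κ : Form dU), w = r • G + κ.d := by
      rcases hi with rfl | hi
      · refine ⟨1, fun w hw hwd => ?_⟩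
        obtain ⟨r, hr⟩ := hU.h0 w hw hwd
        exact ⟨r, 0, by rw [Form.d_zero, add_zero, hr]⟩
      · exact hU.one i hi
    have e1 : a.1.d = 0 := congrArg Subtype.val hd
    have e2 : a'.1.d = 0 := congrArg Subtype.val hd'
    have g1 : IsDeg (i + 7) a.1 := mem_Dg.1 hG
    have g2 : IsDeg (i + 7) a'.1 := mem_Dg.1 hG'
    obtain ⟨r, κ, h1⟩ := hGG _ (L.Res_deg i _ g1) (L.Res_d _ e1)
    obtain ⟨r', κ', h2⟩ := hGG _ (L.Res_deg i _ g2) (L.Res_d _ e2)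
    have h3 : r' ≠ 0 := fun h => hn (L.rx hB g2 hK' e2 (κ := κ') (by
      rw [h2, h, zero_smul, zero_add]))
    refine ⟨r / r', L.rx hB (g1.sub (g2.smul _)) (Submodule.sub_mem _ hK
      (Submodule.smul_mem _ _ hK')) ?_ (κ := κ - (r / r') • κ') ?_⟩
    · change (a.1 - (r / r') • a'.1).d = 0
      rw [Form.d_sub, Form.d_smul, e1, e2, smul_zero, sub_zero]
    · change L.Res (a.1 - (r / r') • a'.1) = _
      rw [map_sub, map_smul, h1, h2, Form.d_sub, Form.d_smul, smul_add, smul_smul,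
        div_mul_cancel₀ r h3]
      abel

theorem xZ_eq {v : EvD (L.cx hB).car hB.nB.bs} (hK : v.Kil) (h : (EvD.xZ hK).1.1 =
    Form.pull (fun b => S.g (b, 1)) (map_at S.hg 1)
      (Form.pull (L.cx hB).cst (L.cx hB).hcst (L.cx hB).x.1)) : EvD.xZ hK = hB.G1Z :=
  Subtype.ext (Subtype.ext (h.trans (congrArg (Form.pull _ (map_at S.hg 1)) L.cst_x)))

/-- the first level -/
theorem level1 (hU : HU dU) {ε : ℝ} (hε : ε ≠ 0) {l : Form dB} (hl : S.b1 = ε • S.b0 + l.d)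
    {a μ : ℝ} (n : Num hB.nB.bs.H a μ) (nσ : n.σ = hB.sσ.mor.H) (nN : n.N = hB.NH)
    (nE : hB.nB.E = 2 * n.f) (nb : hB.nB.bs.cl hB.bZ = 2 * n.h)
    (nG : hB.nB.bs.cl hB.G1Z = n.t + 2 * n.f * n.h) :
    ∃ s : hB.nU.bs.Z, IsDeg 8 s.1.1 ∧ hB.sπ.mor.H (hB.nU.bs.cl s) = n.t ∧
      ∃ T22 T28 T34 T40, Car.Lifts (L.cx hB).car a μ T22 T28 T34 T40 := by
  obtain ⟨v, v1, hK, ρ, ⟨O⟩, ve, v1e, hx, hη⟩ := exists_level (L.cx hB) (n := hB.nB)
    (n' := hB.nU) (r := 1) one_ne_zero (fun b => by rw [one_mul]; exact S.hφ.per b) hB.sπ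
    ⟨L.γ, L.hγ, L.γ_φ⟩ ⟨L.gX, L.hgX, fun y t => by
      change L.gX (S.φ (y.1, 1 * t), y.2) = _
      rw [one_mul, L.gX_φ]⟩ L.gX0 (map_at S.hg 1) L.gX1
    (fun i hi => hU.ex _ (by omega) (by omega) (by omega) (by omega)) _ (hB.gen6 hε hl)
  have e1 : hB.nB.bs.cl (EvD.xZ hK) = n.t + 2 * n.f * n.h := by rw [L.xZ_eq hB hK hx, nG]
  have e0 : v1.eZ = hB.sπ.mor.Z hB.nU.eZ := Subtype.ext (v1e.trans hB.sπ.bm_e.symm)
  have e2 : hB.nB.bs.cl v1.eZ = 2 * n.f := by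
    rw [e0, ← Mor.H_cl, ← Cn.E, hB.sπ.H_E, inv_one, one_smul, nE]
  obtain ⟨e5, e6⟩ := n.norm1 (ρ := ρ)
    (z := hB.sπ.mor.H (v.mor.H ((L.cx hB).car.s2.cl (L.cx hB).car.yZ)))
    (by rw [v.map_H, O.H_eq, EvD.H_y hK, e1, e2, hη, nb]) (by rw [nσ, hB.σπ])
  rw [← nb, ← hη] at e5
  rw [Mor.H_cl] at e6
  refine ⟨v.mor.Z (L.cx hB).car.yZ, mem_Dg.1 (v.mor.G Car.yZ_G), e6, ?_⟩
  refine n.lev1 (L.coh hB hU) (O.pair hB.N hB.N_d (hB.sπ.mor.Z (v.mor.Z (L.cx hB).car.yZ))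
    (fun y k ε => ?_) hK) fun k ε g => ?_
  · rw [e0, ← map_pow, ← map_pow, ← map_mul, ← v.map_ev, Mor.Z_val, ← map_mul]
    exact hB.N_π _
  · rw [O.pair_L, e1, e2, e5, ← Mor.H_cl, e6, nN]
    rfl

end Lp

end Vale.Agent.P231Z.Alg
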