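import Vale.Agent.P231Z.Alg.L1

/-!
# P231, Cayley case, algebra (14): the sphere bundle of the second level
-/

set_option linter.unusedSectionVars false
set_option linter.unusedVariables false

namespace Vale.Agent.P231Z.Alg

open Vale.Agent.P231 Vale.Agent.P231.Fm Vale.Agent.P231.W Vale.Agent.P231.H584
open Vale.Agent.P231.Fm.Form (IsDeg part)

theorem Cn.eq_zero {Y : Type*} {dY : Dif Y} {T : ℝ} (n : Cn dY T) {w : Form dY}
    (hb : Basic n.Ψ n.hΨ.map w) (h : n.α * w = 0) : w = 0 := by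
  have h1 := J_mul_basic (hΦ := n.hΨ.map) T n.α hb
  rw [h, J_of_basic (hΦ := n.hΨ.map) T Basic.zero,
    J_of_inv n.hΨ (w' := 1) (by rw [pr_one, mul_one]; exact n.hα), smul_mul_assoc, one_mul] at h1
  exact (smul_eq_zero.1 h1.symm).resolve_left n.hT

theorem comb34 {H : Type*} [CommRing H] [Algebra ℝ H] {E y T w w1 w2 w3 w4 : H} {c c0 c1 : ℝ}
    (f1 : w = E * w1) (f2 : w1 = E * w2) (f3 : w2 = E * w3) (f4 : w3 = c • T + E * w4)
    (f5 : w4 = c0 • E ^ 13 + c1 • (E ^ (13 - 4) * y)) :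
    w = c • (E ^ 3 * T) + c0 • E ^ 17 + c1 • (E ^ 13 * y) := by
  rw [f1, f2, f3, f4, f5]
  simp only [Algebra.smul_def]
  ring

theorem comb28 {H : Type*} [CommRing H] [Algebra ℝ H] (E y : H) (c0 c1 : ℝ) :
    E * (c0 • E ^ 13 + c1 • (E ^ (13 - 4) * y)) = c0 • E ^ 14 + c1 • (E ^ 10 * y) := by
  simp only [Algebra.smul_def]
  ring

variable {B U M X Sg : Type*} {dB : Dif B} {dU : Dif U} {dM : Dif M} {dX : Dif X} {dS : Dif Sg}
  {D c : ℝ} {S : Sys dB dU dM 1 D c} {L : Lp S dX}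

namespace Sig

variable (G : Sig L dS) (hB : HB S)

/-- the flow on the sphere bundle -/
noncomputable def nS : Cn dS (2 * D) :=
  ⟨G.ψ, (2 : ℝ)⁻¹ • Form.pull G.p G.hp S.α, S.T_ne, G.hψ,
    conn_speed S.hφU.map G.hψ.map G.hp two_ne_zero G.p_ψ S.hα, (hB.αdeg.pull _ G.hp).smul _⟩

theorem nS_α : (G.nS hB).α = Form.pull G.p G.hp ((2 : ℝ)⁻¹ • S.α) := (pl_smul _ _).symm

/-- the projection -/
noncomputable def sp : Sp (G.nS hB) hB.nU 2 :=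
  ⟨G.p, G.hp, G.p_ψ, by
    change _ = (2 : ℝ) • (2 : ℝ)⁻¹ • Form.pull G.p G.hp S.α
    rw [smul_smul, mul_inv_cancel₀ two_ne_zero, one_smul]
    rfl⟩

theorem jp (w : Form dU) :
    Form.pull G.j G.hj (Form.pull G.p G.hp w) = Form.pull S.pi S.hpi w :=
  pull_pull G.hj G.hp S.hpi G.p_j w

theorem Ap (w : Form dU) :
    Form.pull G.A G.hA (Form.pull G.p G.hp w) = Form.pull G.p G.hp w :=
  pull_pull G.hA G.hp G.hp G.p_A w

/-- the inclusion of the null planes -/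
noncomputable def sj : Sp hB.nB (G.nS hB) 2⁻¹ :=
  ⟨G.j, G.hj, fun b t => by
    change G.j (S.φ (b, t)) = G.ψ (G.j b, 2⁻¹ * t)
    rw [← G.j_φ, mul_inv_cancel_left₀ two_ne_zero], by
    rw [nS_α, G.jp, pl_smul]
    rfl⟩

/-- the antipodal map -/
noncomputable def sA : Sp (G.nS hB) (G.nS hB) 1 :=
  ⟨G.A, G.hA, fun b t => by rw [one_mul]; exact G.A_ψ b t, by rw [one_smul, nS_α, G.Ap]⟩

theorem jpH (v : hB.nU.bs.H) :
    (G.sj hB).mor.H ((G.sp hB).mor.H v) = hB.sπ.mor.H v := by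
  obtain ⟨w, rfl⟩ := hB.nU.bs.cl_surj v
  exact congrArg hB.nB.bs.cl (Subtype.ext (Subtype.ext (G.jp w.1.1)))

theorem jAH (v : (G.nS hB).bs.H) :
    (G.sj hB).mor.H ((G.sA hB).mor.H v) = hB.sσ.mor.H ((G.sj hB).mor.H v) := by
  obtain ⟨w, rfl⟩ := (G.nS hB).bs.cl_surj v
  refine congrArg hB.nB.bs.cl (Subtype.ext (Subtype.ext ?_))
  change Form.pull G.j G.hj (Form.pull G.A G.hA w.1.1) =
    Form.pull S.σ S.hσ (Form.pull G.j G.hj w.1.1)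
  have h0 : dB.Map dB (fun b => S.φ (b, D)) := map_at S.hφ.map D
  have h1 : dB.Map dS (fun b => G.j (S.σ b)) := fun h => G.hj (S.hσ h)
  have h2 : dB.Map dS (fun b => G.j (S.σ (S.φ (b, D)))) := fun h => h1 (h0 h)
  rw [pull_pull G.hj G.hA h2 G.A_j, ← pull_pull h0 h1 h2 (fun b => rfl),
    ← pull_pull S.hσ G.hj h1 (fun b => rfl)]
  exact basic_at (hΦ := S.hφ.map) (hB.sσ.bm ((G.sj hB).bm w.1)).2 D

/-- the integral of basic forms -/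
noncomputable def I : Bs (G.nS hB).hΨ →ₗ[ℝ] ℝ :=
  (S.I.comp G.SI).comp ((LinearMap.mulLeft ℝ (G.nS hB).α).comp
    ((Form.partL 58).comp (Bs (G.nS hB).hΨ).val.toLinearMap))

theorem I_val (w : Bs (G.nS hB).hΨ) : G.I hB w = S.I (G.SI ((G.nS hB).α * part 58 w.1)) := rfl

theorem I_d (hI : ∀ κ : Form dU, S.I κ.d = 0) (u : Bs (G.nS hB).hΨ) :
    G.I hB ((G.nS hB).bs.d u) = 0 := by
  have h1 : (G.nS hB).α.d * part 57 u.1 = 0 := (G.nS hB).eq_zero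
    (Basic.mul (hΦ := (G.nS hB).hΨ.map) (G.nS hB).basic_dα (basic_part (G.nS hB).hΨ u.2 57))
    (G.dim _ ((G.nS hB).αd.mul ((G.nS hB).αd.d.mul (Form.isDeg_part 57 _))))
  have h2 := hI (G.SI ((G.nS hB).α * part 57 u.1))
  rw [← G.SI_d, Form.d_mul, h1, zero_add, (G.nS hB).αo, neg_mul, map_neg, map_neg,
    neg_eq_zero] at h2
  rw [I_val, bsd_d, Form.part_succ_d, h2]

theorem I_p (v : Bs hB.nU.hΨ) : G.I hB ((G.sp hB).bm v) = 0 := by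
  have h1 : (G.nS hB).α * part 58 ((G.sp hB).bm v).1 =
      1 * Form.pull G.p G.hp ((2 : ℝ)⁻¹ • S.α * part 58 v.1) := by
    rw [one_mul, pl_mul, nS_α, ← Form.part_pull]
    rfl
  rw [I_val, h1, G.SI_mul, G.SI_low 0 1 (by norm_num) IsDeg.one, zero_mul, map_zero]

theorem I_A (w : Bs (G.nS hB).hΨ) : G.I hB ((G.sA hB).bm w) = -G.I hB w := by
  rw [I_val, I_val, ← map_neg, ← G.SI_A, pl_mul, ← Form.part_pull, nS_α, G.Ap]
  rfl

theorem I_T {T : Bs (G.nS hB).hΨ} (hT : IsDeg 28 T.1) {r : ℝ} (hr : G.SI T.1 = r • 1)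
    (v : Bs hB.nU.hΨ) : G.I hB (T * (G.sp hB).bm v) = r * (2⁻¹ * S.I (S.α * v.1)) := by
  have h1 : (G.nS hB).α * part 58 (T * (G.sp hB).bm v).1 =
      T.1 * Form.pull G.p G.hp ((2 : ℝ)⁻¹ • S.α * part 30 v.1) := by
    change _ * part (28 + 30) (T.1 * Form.pull G.p G.hp v.1) = _
    rw [hT.part_mul_left, pl_mul, nS_α, Form.part_pull, ← mul_assoc, ← mul_assoc,
      Form.mul_comm_of_even (hT.sg_of_even (by decide))]
  rw [I_val, h1, G.SI_mul, hr, smul_mul_assoc, one_mul, smul_mul_assoc, map_smul, map_smul,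
    hB.Itop (S.α * v.1), ← hB.αdeg.part_mul_left 30, smul_eq_mul, smul_eq_mul]

variable (hU : HU dU)
include hU

theorem ex_of {k : ℕ} (h0 : k ≠ 0) (h8 : k ≠ 8) (h23 : k ≠ 23) (h31 : k ≠ 31) {w : Form dS}
    (hw : IsDeg k w) (hd : w.d = 0) (hS : G.SI w = 0) : ∃ κ : Form dS, w = κ.d := by
  obtain ⟨a, κ, h1, h2, h3⟩ := G.gys k w hw hd hS
  obtain ⟨κ', h4⟩ := hU.ex k h0 h8 h23 h31 a h2 h1
  exact ⟨Form.pull G.p G.hp κ' + κ, by rw [h3, h4, Form.d_add, Form.pull_d]⟩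

theorem gen {s : hB.nU.bs.Z} (hs : IsDeg 8 s.1.1) (hn : ∀ κ : Form dU, s.1.1 ≠ κ.d) (i : ℕ)
    (hi : i ≤ 13) (w : (G.nS hB).bs.Z) (hw : IsDeg (2 * i) w.1.1) : ∃ c0 c1 : ℝ,
      (G.nS hB).bs.cl w = c0 • (G.nS hB).E ^ i +
        c1 • ((G.nS hB).E ^ (i - 4) * (G.sp hB).mor.H (hB.nU.bs.cl s)) := by
  obtain ⟨c0, c1, -, h⟩ := (G.nS hB).gen (q := 4) (m := 13) ((G.sp hB).mor.Z s)
    (hs.pull _ G.hp) (by norm_num)
    (fun w hw hd => by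
      obtain ⟨a, κ, h1, h2, h3⟩ := G.gys 0 w hw hd (G.SI_low 0 w (by norm_num) hw)
      obtain ⟨r, hr⟩ := hU.h0 a h2 h1
      refine ⟨r, ?_⟩
      rw [← hw.part_eq, h3, hr, Form.part_add, Form.part_zero_d, add_zero, pl_smul, pl_one,
        Form.part_smul, IsDeg.one.part_eq])
    (fun i h1 h2 h3 w hw hd => G.ex_of hU (by omega) (by omega) (by omega) (by omega) hw hd
      (G.SI_low _ w (by omega) hw))
    (fun _ w hw hd => by
      obtain ⟨a, κ, h1, h2, h3⟩ := G.gys 8 w hw hd (G.SI_low 8 w (by norm_num) hw)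
      obtain ⟨Q, hQ⟩ := hU.one 8 (Or.inl rfl)
      obtain ⟨r, κ1, h4⟩ := hQ a h2 h1
      obtain ⟨r', κ2, h5⟩ := hQ _ hs (hB.nU.Z_d s)
      have h6 : r' ≠ 0 := fun h => hn κ2 (by rw [h5, h, zero_smul, zero_add])
      refine ⟨r / r', Form.pull G.p G.hp (κ1 - (r / r') • κ2) + κ, ?_⟩
      change w = (r / r') • Form.pull G.p G.hp s.1.1 + _
      rw [h3, h4, h5, Form.d_add, ← Form.pull_d, ← pl_smul, ← add_assoc, ← pl_add, Form.d_sub,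
        Form.d_smul, smul_add, smul_smul, div_mul_cancel₀ r h6]
      congr 2
      abel) i hi w hw
  exact ⟨c0, c1, h⟩

theorem gen28 {s : hB.nU.bs.Z} (hs : IsDeg 8 s.1.1) (hn : ∀ κ : Form dU, s.1.1 ≠ κ.d)
    (w : (G.nS hB).bs.Z) (hw : IsDeg 28 w.1.1) (hS : G.SI w.1.1 = 0) : ∃ c0 c1 : ℝ,
      (G.nS hB).bs.cl w = c0 • (G.nS hB).E ^ 14 +
        c1 • ((G.nS hB).E ^ 10 * (G.sp hB).mor.H (hB.nU.bs.cl s)) := by
  obtain ⟨κ, hκ⟩ := G.ex_of hU (by norm_num) (by norm_num) (by norm_num) (by norm_num) hw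
    ((G.nS hB).Z_d w) hS
  obtain ⟨w', h1, h2⟩ := (G.nS hB).step0H (k := 26) (by decide) hw hκ
  obtain ⟨c0, c1, h3⟩ := G.gen hB hU hs hn 13 le_rfl w' h1
  exact ⟨c0, c1, by rw [h2, h3]; exact comb28 _ _ _ _⟩

theorem ex_high {T : Form dS} (hT : IsDeg 28 T) (hTd : T.d = 0) {r : ℝ} (hr : G.SI T = r • 1)
    (h0 : r ≠ 0) {k : ℕ} (hk : k = 2 ∨ k = 4 ∨ k = 6) {w : Form dS} (hw : IsDeg (k + 28) w)
    (hd : w.d = 0) : ∃ κ : Form dS, w = κ.d := by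
  have h1 : IsDeg k (G.SI w) := G.SI_deg k w hw
  obtain ⟨κ, hκ⟩ := hU.ex k (by omega) (by omega) (by omega) (by omega) _ h1
    (by rw [← G.SI_d, hd, map_zero])
  have h2 : (T * Form.pull G.p G.hp κ).d = T * Form.pull G.p G.hp (G.SI w) := by
    rw [Form.d_mul, hTd, zero_mul, zero_add, hT.sg_of_even (by decide), hκ, Form.pull_d]
  obtain ⟨κ', h3⟩ := G.ex_of hU (k := k + 28) (by omega) (by omega) (by omega) (by omega)
    (w := w - r⁻¹ • (T * Form.pull G.p G.hp (G.SI w)))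
    (hw.sub (IsDeg.smul _ (add_comm 28 k ▸ hT.mul (h1.pull _ G.hp))))
    (by rw [Form.d_sub, Form.d_smul, ← h2, Form.d_d, hd, smul_zero, sub_zero])
    (by rw [map_sub, map_smul, G.SI_mul, hr, smul_mul_assoc, one_mul, smul_smul,
      inv_mul_cancel₀ h0, one_smul, sub_self])
  exact ⟨κ' + r⁻¹ • (T * Form.pull G.p G.hp κ), by
    rw [Form.d_add, Form.d_smul, h2, ← h3, sub_add_cancel]⟩

theorem SI_const {w : Form dS} (hw : IsDeg 28 w) (hd : w.d = 0) : ∃ r : ℝ, G.SI w = r • 1 :=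
  hU.h0 _ (G.SI_deg 0 w hw) (by rw [← G.SI_d, hd, map_zero])

theorem gen34 {s : hB.nU.bs.Z} (hs : IsDeg 8 s.1.1) (hn : ∀ κ : Form dU, s.1.1 ≠ κ.d)
    (T : (G.nS hB).bs.Z) (hT : IsDeg 28 T.1.1) {r : ℝ} (hr : G.SI T.1.1 = r • 1) (h0 : r ≠ 0)
    (w : (G.nS hB).bs.Z) (hw : IsDeg 34 w.1.1) : ∃ q c0 c1 : ℝ,
      (G.nS hB).bs.cl w = q • ((G.nS hB).E ^ 3 * (G.nS hB).bs.cl T) + c0 • (G.nS hB).E ^ 17 +
        c1 • ((G.nS hB).E ^ 13 * (G.sp hB).mor.H (hB.nU.bs.cl s)) := by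
  have hTd := (G.nS hB).Z_d T
  obtain ⟨κ1, e1⟩ := G.ex_high hU hT hTd hr h0 (k := 6) (by omega) hw ((G.nS hB).Z_d w)
  obtain ⟨w1, g1, f1⟩ := (G.nS hB).step0H (k := 32) (by decide) hw e1
  obtain ⟨κ2, e2⟩ := G.ex_high hU hT hTd hr h0 (k := 4) (by omega) g1 ((G.nS hB).Z_d w1)
  obtain ⟨w2, g2, f2⟩ := (G.nS hB).step0H (k := 30) (by decide) g1 e2
  obtain ⟨κ3, e3⟩ := G.ex_high hU hT hTd hr h0 (k := 2) (by omega) g2 ((G.nS hB).Z_d w2)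
  obtain ⟨w3, g3, f3⟩ := (G.nS hB).step0H (k := 28) (by decide) g2 e3
  obtain ⟨r', hr'⟩ := G.SI_const hU g3 ((G.nS hB).Z_d w3)
  obtain ⟨κ4, e4⟩ := G.ex_of hU (k := 28) (by norm_num) (by norm_num) (by norm_num) (by norm_num)
    (w := w3.1.1 - (r' / r) • T.1.1) (g3.sub (hT.smul _))
    (by rw [Form.d_sub, Form.d_smul, hTd, (G.nS hB).Z_d w3, smul_zero, sub_zero])
    (by rw [map_sub, map_smul, hr, hr', smul_smul, div_mul_cancel₀ r' h0, sub_self])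
  obtain ⟨w4, g4, f4⟩ := (G.nS hB).stepH (k := 26) (by decide) g3 hT (c := r' / r) (κ := κ4)
    (by rw [← e4, add_sub_cancel])
  obtain ⟨c0, c1, f5⟩ := G.gen hB hU hs hn 13 le_rfl w4 g4
  exact ⟨r' / r, c0, c1, comb34 f1 f2 f3 f4 f5⟩

end Sig

end Vale.Agent.P231Z.Alg
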