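import Vale.Agent.P231Z.Alg.Ev

/-!
# P231, Cayley case, algebra (11): the numbers
-/

set_option linter.unusedSectionVars false
set_option linter.unusedVariables false
set_option linter.unusedSimpArgs false

namespace Vale.Agent.P231Z.Alg

/-- the ring of the space of null planes -/
structure Num (H : Type*) [CommRing H] [Algebra ℝ H] (a μ : ℝ) where
  f : H
  t : H
  h : H
  σ : H →ₐ[ℝ] H
  N : H →ₗ[ℝ] ℝ
  σf : σ f = f
  σt : σ t = t
  σh : σ h = -h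
  Nσ : ∀ w, N (σ w) = -N w
  hh : h ^ 2 = 16 * algebraMap ℝ H a * f ^ 6 + 2 * algebraMap ℝ H μ * f ^ 2 * t
  x3 : (t + 2 * f * h) ^ 3 = 0
  n0 : N (h * f ^ 15) ≠ 0
  ha : a ≠ 0

variable {H : Type*} [CommRing H] [Algebra ℝ H] {a μ : ℝ}

theorem exists_num (σ : H →ₐ[ℝ] H) (N : H →ₗ[ℝ] ℝ) {E b G1 G2 : H} (σE : σ E = E)
    (σb : σ b = -b) (σ1 : σ G1 = G2) (σ2 : σ G2 = G1) (Nσ : ∀ w, N (σ w) = -N w)
    (h12 : G1 - G2 = E * b) (hb : b ^ 2 = a • E ^ 6 + μ • (E ^ 2 * (G1 + G2)))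
    (h3 : G1 ^ 3 = 0) (h0 : N (b * E ^ 15) ≠ 0) (ha : a ≠ 0) :
    ∃ n : Num H a μ, n.σ = σ ∧ n.N = N ∧ E = 2 * n.f ∧ b = 2 * n.h ∧
      G1 = n.t + 2 * n.f * n.h := by
  obtain ⟨q, hq1⟩ : ∃ q : H, q = algebraMap ℝ H 2⁻¹ := ⟨_, rfl⟩
  have hq : 2 * q = 1 := by
    rw [hq1, ← map_ofNat (algebraMap ℝ H) 2, ← map_mul, mul_inv_cancel₀ two_ne_zero, map_one]
  have σq : σ q = q := by rw [hq1, AlgHom.commutes]
  have h4 : G1 = q * (G1 + G2) + 2 * (q * E) * (q * b) := by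
    linear_combination q * h12 - (G1 + q * E * b) * hq
  refine ⟨⟨q * E, q * (G1 + G2), q * b, σ, N, by rw [map_mul, σq, σE],
    by rw [map_mul, map_add, σq, σ1, σ2, add_comm], by rw [map_mul, σq, σb, mul_neg], Nσ, ?_,
    by rw [← h4, h3], fun h => h0 ?_, ha⟩, rfl, rfl, by linear_combination -E * hq,
    by linear_combination -b * hq, h4⟩
  · rw [Algebra.smul_def, Algebra.smul_def] at hb
    linear_combination q ^ 2 * hb - (algebraMap ℝ H a * E ^ 6 * q ^ 2 * (2 * q + 1) *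
      (4 * q ^ 2 + 1) + algebraMap ℝ H μ * E ^ 2 * (G1 + G2) * q ^ 2) * hq
  · have h5 : q * b * (q * E) ^ 15 = ((2 : ℝ)⁻¹ ^ 16) • (b * E ^ 15) := by
      rw [Algebra.smul_def, map_pow, ← hq1]
      ring
    rw [h5, map_smul, smul_eq_mul] at h
    exact (mul_eq_zero.1 h).resolve_left (by positivity)

namespace Num

variable (n : Num H a μ)

theorem N_mul (c : ℝ) (w : H) : n.N (algebraMap ℝ H c * w) = c * n.N w := by
  rw [← Algebra.smul_def, map_smul, smul_eq_mul]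

theorem N_even {w : H} (h : n.σ w = w) : n.N w = 0 := by
  have := n.Nσ w
  rw [h] at this
  linarith

theorem N_mon (i j : ℕ) : n.N (n.f ^ i * n.t ^ j) = 0 :=
  n.N_even (by rw [map_mul, map_pow, map_pow, n.σf, n.σt])

/-- the unit -/
noncomputable def ν : ℝ := n.N (n.h * n.f ^ 7 * n.t ^ 2) / (64 * a ^ 2)

theorem N_comb (c0 c1 c2 c3 : ℝ) {w : H} (hw : w = algebraMap ℝ H c0 * (n.h * n.f ^ 15) +
    algebraMap ℝ H c1 * (n.h * n.f ^ 11 * n.t) + algebraMap ℝ H c2 * (n.h * n.f ^ 7 * n.t ^ 2) +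
    algebraMap ℝ H c3 * (n.h * n.f ^ 3 * n.t ^ 3)) :
    n.N w = c0 * n.N (n.h * n.f ^ 15) + c1 * n.N (n.h * n.f ^ 11 * n.t) +
      c2 * n.N (n.h * n.f ^ 7 * n.t ^ 2) + c3 * n.N (n.h * n.f ^ 3 * n.t ^ 3) := by
  rw [hw, map_add, map_add, map_add, N_mul, N_mul, N_mul, N_mul]

theorem vals : n.N (n.h * n.f ^ 15) = (μ ^ 2 - 3 * a) * n.ν ∧
    n.N (n.h * n.f ^ 11 * n.t) = -8 * a * μ * n.ν ∧
    n.N (n.h * n.f ^ 7 * n.t ^ 2) = 64 * a ^ 2 * n.ν ∧ n.N (n.h * n.f ^ 3 * n.t ^ 3) = 0 := by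
  have h1 := n.x3
  have h2 := congrArg n.σ h1
  have hh := n.hh
  have ha := n.ha
  simp only [map_add, map_mul, map_pow, map_ofNat, map_zero, n.σf, n.σt, n.σh] at h2
  have e1 := n.N_comb (256 * a) (32 * μ) 12 0 (w := 0) (by
    simp only [map_mul, map_ofNat, map_zero]
    linear_combination -n.f ^ 6 * h1 + n.f ^ 6 * h2 + 16 * n.f ^ 9 * n.h * hh)
  have e2 := n.N_comb 0 (256 * a) (32 * μ) 12 (w := 0) (by
    simp only [map_mul, map_ofNat, map_zero]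
    linear_combination -n.f ^ 2 * n.t * h1 + n.f ^ 2 * n.t * h2 + 16 * n.f ^ 5 * n.t * n.h * hh)
  have e3 := n.N_comb 0 (384 * a) (48 * μ) 2 (w := 0) (by
    simp only [map_mul, map_ofNat, map_zero]
    linear_combination -n.h * n.f ^ 3 * h1 - n.h * n.f ^ 3 * h2 + 24 * n.f ^ 5 * n.t * n.h * hh)
  rw [map_zero] at e1 e2 e3
  have e4 : n.N (n.h * n.f ^ 7 * n.t ^ 2) = 64 * a ^ 2 * n.ν := by
    rw [ν]
    field_simp
  have e5 : n.N (n.h * n.f ^ 11 * n.t) = -8 * a * μ * n.ν := by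
    apply mul_left_cancel₀ ha
    rw [e4] at e2 e3
    linear_combination (1 / 2048) * e2 - (3 / 1024) * e3
  refine ⟨?_, e5, e4, ?_⟩
  · apply mul_left_cancel₀ ha
    rw [e4, e5] at e1
    linear_combination (-1 / 256) * e1
  · rw [e4, e5] at e3
    linear_combination (-1 / 2) * e3

theorem ν_ne : n.ν ≠ 0 := fun h => n.n0 (by rw [n.vals.1, h, mul_zero])

include n in
theorem W_ne : μ ^ 2 - 3 * a ≠ 0 := fun h => n.n0 (by rw [n.vals.1, h, zero_mul])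

theorem ev (c0 c1 c2 c3 : ℝ) {w : H} (hw : w - n.σ w = algebraMap ℝ H c0 * (n.h * n.f ^ 15) +
    algebraMap ℝ H c1 * (n.h * n.f ^ 11 * n.t) + algebraMap ℝ H c2 * (n.h * n.f ^ 7 * n.t ^ 2) +
    algebraMap ℝ H c3 * (n.h * n.f ^ 3 * n.t ^ 3)) :
    2 * n.N w = (c0 * (μ ^ 2 - 3 * a) - 8 * a * μ * c1 + 64 * a ^ 2 * c2) * n.ν := by
  have h := n.N_comb c0 c1 c2 c3 hw
  obtain ⟨e0, e1, e2, e3⟩ := n.vals
  rw [map_sub, n.Nσ, e0, e1, e2, e3] at h
  linear_combination h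

theorem a_p14_11 : 2 * n.N (p14 (n.t + 2 * n.f * n.h) (2 * n.f) (-n.h) * ((2 * n.f) ^ 11 *
    n.t ^ 0)) = (65536 * a * μ) * n.ν := by
  rw [n.ev (0) (-8192) (0) (0) ?_]
  · ring
  · have hh := n.hh
    simp only [p14, map_add, map_sub, map_mul, map_pow, map_neg, map_ofNat, map_zero, map_one,
      n.σf, n.σt, n.σh, AlgHom.commutes]
    generalize algebraMap ℝ H a = a at hh ⊢
    generalize algebraMap ℝ H μ = m at hh ⊢
    linear_combination (0) * hh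

theorem a_p14_7 : 2 * n.N (p14 (n.t + 2 * n.f * n.h) (2 * n.f) (-n.h) * ((2 * n.f) ^ 7 * n.t
    ^ 1)) = (-32768 * a ^ 2) * n.ν := by
  rw [n.ev (0) (0) (-512) (0) ?_]
  · ring
  · have hh := n.hh
    simp only [p14, map_add, map_sub, map_mul, map_pow, map_neg, map_ofNat, map_zero, map_one,
      n.σf, n.σt, n.σh, AlgHom.commutes]
    generalize algebraMap ℝ H a = a at hh ⊢
    generalize algebraMap ℝ H μ = m at hh ⊢
    linear_combination (0) * hh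

theorem a_Q4 : 2 * n.N (Q4 (n.t + 2 * n.f * n.h) (2 * n.f) (-n.h) * ((2 * n.f) ^ 0 * n.t ^
    1)) = (32768 * a ^ 3) * n.ν := by
  rw [n.ev (0) (0) (512 * a) (64 * μ) ?_]
  · ring
  · have hh := n.hh
    simp only [Q4, map_add, map_sub, map_mul, map_pow, map_neg, map_ofNat, map_zero, map_one,
      n.σf, n.σt, n.σh, AlgHom.commutes]
    generalize algebraMap ℝ H a = a at hh ⊢
    generalize algebraMap ℝ H μ = m at hh ⊢
    linear_combination (32 * n.f * n.t ^ 2 * n.h) * hh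

theorem a_p36 : 2 * n.N (p36 (n.t + 2 * n.f * n.h) (2 * n.f) (-n.h) * ((2 * n.f) ^ 0 * n.t ^
    0)) = (65536 * a ^ 3) * n.ν := by
  rw [n.ev (12288 * a ^ 2) (3072 * a * μ) (1600 * a + 192 * μ ^ 2) (200 * μ) ?_]
  · ring
  · have hh := n.hh
    simp only [p36, Q5, map_add, map_sub, map_mul, map_pow, map_neg, map_ofNat, map_zero,
      map_one, n.σf, n.σt, n.σh, AlgHom.commutes]
    generalize algebraMap ℝ H a = a at hh ⊢
    generalize algebraMap ℝ H μ = m at hh ⊢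
    linear_combination (768 * a * n.f ^ 9 * n.h + 96 * m * n.f ^ 5 * n.t * n.h + 48 * n.f ^ 3
      * n.h ^ 3 + 100 * n.f * n.t ^ 2 * n.h) * hh

theorem a_Q3_7 : 2 * n.N (Q3 (n.t + 2 * n.f * n.h) (2 * n.f) (-n.h) * ((2 * n.f) ^ 7 * n.t ^
    0)) = (0) * n.ν := by
  rw [n.ev (-16384 * a) (-2048 * μ) (-768) (0) ?_]
  · ring
  · have hh := n.hh
    simp only [Q3, map_add, map_sub, map_mul, map_pow, map_neg, map_ofNat, map_zero, map_one,
      n.σf, n.σt, n.σh, AlgHom.commutes]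
    generalize algebraMap ℝ H a = a at hh ⊢
    generalize algebraMap ℝ H μ = m at hh ⊢
    linear_combination (-1024 * n.f ^ 9 * n.h) * hh

theorem a_Q3_3 : 2 * n.N (Q3 (n.t + 2 * n.f * n.h) (2 * n.f) (-n.h) * ((2 * n.f) ^ 3 * n.t ^
    1)) = (0) * n.ν := by
  rw [n.ev (0) (-1024 * a) (-128 * μ) (-48) ?_]
  · ring
  · have hh := n.hh
    simp only [Q3, map_add, map_sub, map_mul, map_pow, map_neg, map_ofNat, map_zero, map_one,
      n.σf, n.σt, n.σh, AlgHom.commutes]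
    generalize algebraMap ℝ H a = a at hh ⊢
    generalize algebraMap ℝ H μ = m at hh ⊢
    linear_combination (-64 * n.f ^ 5 * n.t * n.h) * hh

theorem a_g28_4 : 2 * n.N (g28 (algebraMap ℝ H a) (algebraMap ℝ H μ) (n.t + 2 * n.f * n.h)
    (2 * n.f) (-n.h) * ((2 * n.f) ^ 4 * n.t ^ 0)) = (0) * n.ν := by
  rw [n.ev (65536 * a * μ) (8192 * μ ^ 2) (3072 * μ) (0) ?_]
  · ring
  · have hh := n.hh
    simp only [g28, Q4, k28, map_add, map_sub, map_mul, map_pow, map_neg, map_ofNat, map_zero,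
      map_one, n.σf, n.σt, n.σh, AlgHom.commutes]
    generalize algebraMap ℝ H a = a at hh ⊢
    generalize algebraMap ℝ H μ = m at hh ⊢
    linear_combination (1536 * n.f ^ 5 * n.t * n.h) * hh

theorem a_g28_0 : 2 * n.N (g28 (algebraMap ℝ H a) (algebraMap ℝ H μ) (n.t + 2 * n.f * n.h)
    (2 * n.f) (-n.h) * ((2 * n.f) ^ 0 * n.t ^ 1)) = (0) * n.ν := by
  rw [n.ev (0) (4096 * a * μ) (512 * μ ^ 2) (192 * μ) ?_]
  · ring
  · have hh := n.hh
    simp only [g28, Q4, k28, map_add, map_sub, map_mul, map_pow, map_neg, map_ofNat, map_zero,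
      map_one, n.σf, n.σt, n.σh, AlgHom.commutes]
    generalize algebraMap ℝ H a = a at hh ⊢
    generalize algebraMap ℝ H μ = m at hh ⊢
    linear_combination (96 * n.f * n.t ^ 2 * n.h) * hh

theorem a_g34 : 2 * n.N (g34 (algebraMap ℝ H a) (algebraMap ℝ H μ) (n.t + 2 * n.f * n.h) (2
    * n.f) (-n.h) * ((2 * n.f) ^ 1 * n.t ^ 0)) = (0) * n.ν := by
  rw [n.ev (-122880 * a ^ 3 + 90112 * a ^ 2 * μ ^ 2 - 81920 * a * μ ^ 4) (24576 * a ^ 2 * μ +
    22528 * a * μ ^ 3 - 10240 * μ ^ 5) (-5760 * a ^ 2 + 9216 * a * μ ^ 2 - 2432 * μ ^ 4) (720 *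
    a * μ - 240 * μ ^ 3) ?_]
  · ring
  · have hh := n.hh
    simp only [g34, Q5, k28, map_add, map_sub, map_mul, map_pow, map_neg, map_ofNat, map_zero,
      map_one, n.σf, n.σt, n.σh, AlgHom.commutes]
    generalize algebraMap ℝ H a = a at hh ⊢
    generalize algebraMap ℝ H μ = m at hh ⊢
    linear_combination (-32256 * a ^ 2 * n.f ^ 9 * n.h + 26112 * a * m ^ 2 * n.f ^ 9 * n.h +
      1728 * a * m * n.f ^ 5 * n.t * n.h + 864 * a * n.f ^ 3 * n.h ^ 3 + 360 * a * n.f * n.t ^ 2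
      * n.h - 5120 * m ^ 4 * n.f ^ 9 * n.h - 576 * m ^ 3 * n.f ^ 5 * n.t * n.h - 288 * m ^ 2 *
      n.f ^ 3 * n.h ^ 3 - 120 * m ^ 2 * n.f * n.t ^ 2 * n.h) * hh

theorem b_f4 : 2 * n.N (n.f ^ 4 * g28 (algebraMap ℝ H a) (algebraMap ℝ H μ) (n.t + 2 * n.f *
    n.h) n.f (-2 * n.h)) = (180 * a ^ 2 * μ - 60 * a * μ ^ 3) * n.ν := by
  rw [n.ev (4 * a * μ) (6120 * a + 8 * μ ^ 2) (768 * μ) (0) ?_]
  · ring
  · have hh := n.hh
    simp only [g28, Q4, k28, map_add, map_sub, map_mul, map_pow, map_neg, map_ofNat, map_zero,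
      map_one, n.σf, n.σt, n.σh, AlgHom.commutes]
    generalize algebraMap ℝ H a = a at hh ⊢
    generalize algebraMap ℝ H μ = m at hh ⊢
    linear_combination (384 * n.f ^ 5 * n.t * n.h) * hh

theorem b_t : 2 * n.N (n.t * g28 (algebraMap ℝ H a) (algebraMap ℝ H μ) (n.t + 2 * n.f * n.h)
    n.f (-2 * n.h)) = (391680 * a ^ 3 + 480 * a ^ 2 * μ ^ 2) * n.ν := by
  rw [n.ev (0) (4 * a * μ) (6120 * a + 8 * μ ^ 2) (768 * μ) ?_]
  · ring
  · have hh := n.hh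
    simp only [g28, Q4, k28, map_add, map_sub, map_mul, map_pow, map_neg, map_ofNat, map_zero,
      map_one, n.σf, n.σt, n.σh, AlgHom.commutes]
    generalize algebraMap ℝ H a = a at hh ⊢
    generalize algebraMap ℝ H μ = m at hh ⊢
    linear_combination (384 * n.f * n.t ^ 2 * n.h) * hh

theorem b_g34 : 2 * n.N (n.f * g34 (algebraMap ℝ H a) (algebraMap ℝ H μ) (n.t + 2 * n.f *
    n.h) n.f (-2 * n.h)) = (-1156680 * a ^ 4 + 377460 * a ^ 3 * μ ^ 2 + 2700 * a ^ 2 * μ ^ 4) *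
    n.ν := by
  rw [n.ev (873240 * a ^ 3 - 287252 * a ^ 2 * μ ^ 2 - 1280 * a * μ ^ 4) (219804 * a ^ 2 * μ -
    72788 * a * μ ^ 3 - 160 * μ ^ 5) (22860 * a ^ 2 + 6264 * a * μ ^ 2 - 4628 * μ ^ 4) (2880 * a
    * μ - 960 * μ ^ 3) ?_]
  · ring
  · have hh := n.hh
    simp only [g34, Q5, k28, map_add, map_sub, map_mul, map_pow, map_neg, map_ofNat, map_zero,
      map_one, n.σf, n.σt, n.σh, AlgHom.commutes]
    generalize algebraMap ℝ H a = a at hh ⊢
    generalize algebraMap ℝ H μ = m at hh ⊢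
    linear_combination (54576 * a ^ 2 * n.f ^ 9 * n.h - 17952 * a * m ^ 2 * n.f ^ 9 * n.h +
      6912 * a * m * n.f ^ 5 * n.t * n.h + 3456 * a * n.f ^ 3 * n.h ^ 3 + 1440 * a * n.f * n.t ^
      2 * n.h - 80 * m ^ 4 * n.f ^ 9 * n.h - 2304 * m ^ 3 * n.f ^ 5 * n.t * n.h - 1152 * m ^ 2 *
      n.f ^ 3 * n.h ^ 3 - 480 * m ^ 2 * n.f * n.t ^ 2 * n.h) * hh

theorem b_h : 2 * n.N (n.h * n.f * g28 (algebraMap ℝ H a) (algebraMap ℝ H μ) (n.t + 2 * n.f
    * n.h) n.f (-2 * n.h)) = (-72960 * a ^ 3 - 272 * a ^ 2 * μ ^ 2) * n.ν := by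
  rw [n.ev (73344 * a ^ 2 + 128 * a * μ ^ 2) (18386 * a * μ + 16 * μ ^ 3) (2298 * a + 1154 * μ
    ^ 2) (288 * μ) ?_]
  · ring
  · have hh := n.hh
    simp only [g28, Q4, k28, map_add, map_sub, map_mul, map_pow, map_neg, map_ofNat, map_zero,
      map_one, n.σf, n.σt, n.σh, AlgHom.commutes]
    generalize algebraMap ℝ H a = a at hh ⊢
    generalize algebraMap ℝ H μ = m at hh ⊢
    linear_combination (4584 * a * n.f ^ 9 * n.h + 8 * m ^ 2 * n.f ^ 9 * n.h + 576 * m * n.f ^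
      5 * n.t * n.h + 288 * n.f ^ 3 * n.h ^ 3 + 144 * n.f * n.t ^ 2 * n.h) * hh

theorem b_r22a : 2 * n.N (n.h * n.f ^ 4 * r22 (algebraMap ℝ H a) (algebraMap ℝ H μ) n.f n.t
    (Q3 (n.t + 2 * n.f * n.h) n.f (-2 * n.h))) = (0) * n.ν := by
  rw [n.ev (0) (0) (0) (0) ?_]
  · ring
  · have hh := n.hh
    simp only [r22, Q3, map_add, map_sub, map_mul, map_pow, map_neg, map_ofNat, map_zero,
      map_one, n.σf, n.σt, n.σh, AlgHom.commutes]
    generalize algebraMap ℝ H a = a at hh ⊢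
    generalize algebraMap ℝ H μ = m at hh ⊢
    linear_combination (-24 * n.f ^ 5 * n.t * n.h) * hh

theorem b_r22b : 2 * n.N (n.h * n.f ^ 0 * n.t * r22 (algebraMap ℝ H a) (algebraMap ℝ H μ)
    n.f n.t (Q3 (n.t + 2 * n.f * n.h) n.f (-2 * n.h))) = (0) * n.ν := by
  rw [n.ev (0) (0) (0) (0) ?_]
  · ring
  · have hh := n.hh
    simp only [r22, Q3, map_add, map_sub, map_mul, map_pow, map_neg, map_ofNat, map_zero,
      map_one, n.σf, n.σt, n.σh, AlgHom.commutes]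
    generalize algebraMap ℝ H a = a at hh ⊢
    generalize algebraMap ℝ H μ = m at hh ⊢
    linear_combination (-24 * n.f * n.t ^ 2 * n.h) * hh

theorem b_r16a : 2 * n.N (n.h * n.f ^ 7 * r16 (algebraMap ℝ H a) (algebraMap ℝ H μ) n.f n.t)
    = (0) * n.ν := by
  rw [n.ev (128 * a) (16 * μ) (6) (0) ?_]
  · ring
  · have hh := n.hh
    simp only [r16, map_add, map_sub, map_mul, map_pow, map_neg, map_ofNat, map_zero, map_one,
      n.σf, n.σt, n.σh, AlgHom.commutes]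
    generalize algebraMap ℝ H a = a at hh ⊢
    generalize algebraMap ℝ H μ = m at hh ⊢
    linear_combination (0) * hh

theorem b_r16b : 2 * n.N (n.h * n.f ^ 3 * n.t * r16 (algebraMap ℝ H a) (algebraMap ℝ H μ)
    n.f n.t) = (0) * n.ν := by
  rw [n.ev (0) (128 * a) (16 * μ) (6) ?_]
  · ring
  · have hh := n.hh
    simp only [r16, map_add, map_sub, map_mul, map_pow, map_neg, map_ofNat, map_zero, map_one,
      n.σf, n.σt, n.σh, AlgHom.commutes]
    generalize algebraMap ℝ H a = a at hh ⊢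
    generalize algebraMap ℝ H μ = m at hh ⊢
    linear_combination (0) * hh

theorem gram {c0 c1 : ℝ} {j k : ℕ} (hjk : j + k = 7) {w : H}
    (hw : w = c0 • n.f ^ (k + 4) + c1 • (n.f ^ k * n.t)) (h1 : n.N (n.h * n.f ^ (j + 4) * w) = 0)
    (h2 : n.N (n.h * n.f ^ j * n.t * w) = 0) : c0 = 0 ∧ c1 = 0 := by
  have h7 : n.f ^ j * n.f ^ k = n.f ^ 7 := by rw [← pow_add, hjk]
  obtain ⟨e0, e1, e2, e3⟩ := n.vals
  rw [n.N_comb c0 c1 0 0 (by
    rw [hw, Algebra.smul_def, Algebra.smul_def, map_zero]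
    linear_combination (algebraMap ℝ H c0 * n.h * n.f ^ 8 + algebraMap ℝ H c1 * n.h * n.f ^ 4 *
      n.t) * h7), e0, e1] at h1
  rw [n.N_comb 0 c0 c1 0 (by
    rw [hw, Algebra.smul_def, Algebra.smul_def, map_zero]
    linear_combination (algebraMap ℝ H c0 * n.h * n.f ^ 4 * n.t + algebraMap ℝ H c1 * n.h *
      n.t ^ 2) * h7), e1, e2] at h2
  have h3 : a ^ 3 * n.ν ≠ 0 := mul_ne_zero (pow_ne_zero _ n.ha) n.ν_ne
  constructor
  · apply mul_left_cancel₀ h3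
    linear_combination (-1 / 3 * a ^ 2) * h1 - (1 / 24 * a * μ) * h2
  · apply mul_left_cancel₀ h3
    linear_combination (-1 / 24 * a * μ) * h1 - (1 / 192 * (μ ^ 2 - 3 * a)) * h2

theorem norm {c : ℝ} (h : n.σ (n.t + 2 * n.f * n.h + c • (n.f * n.h)) =
    n.t + 2 * n.f * n.h + c • (n.f * n.h)) : c = -2 := by
  simp only [map_add, map_mul, map_smul, map_ofNat, n.σf, n.σt, n.σh] at h
  have h1 := n.N_comb (4 + 2 * c) 0 0 0 (w := 0) (by
    rw [Algebra.smul_def, Algebra.smul_def] at h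
    simp only [map_add, map_mul, map_ofNat, map_zero]
    linear_combination n.f ^ 14 * h)
  rw [map_zero, zero_mul, zero_mul, zero_mul, add_zero, add_zero, add_zero] at h1
  have h2 := (mul_eq_zero.1 h1.symm).resolve_right n.n0
  linarith

theorem half (w : H) : (2⁻¹ : ℝ) • (2 * w) = w := by
  rw [two_mul, smul_add, ← add_smul, show (2⁻¹ + 2⁻¹ : ℝ) = 1 by norm_num, one_smul]

theorem norm1 {ρ : ℝ} {z : H} (hz : z = n.t + 2 * n.f * n.h + 2 * n.f * ρ • (2 * n.h))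
    (hσ : n.σ z = z) : ρ • (2 * n.h) = -n.h ∧ z = n.t := by
  have h1 : z = n.t + 2 * n.f * n.h + (4 * ρ) • (n.f * n.h) := by
    rw [hz, Algebra.smul_def, Algebra.smul_def, map_mul, map_ofNat]
    ring
  have h2 : 4 * ρ = -2 := n.norm (by rw [← h1, hσ])
  have h3 : ρ • (2 * n.h) = -n.h := by
    rw [show ρ = -2⁻¹ by linarith, neg_smul, half]
  refine ⟨h3, ?_⟩
  rw [hz, h3]
  ring

theorem norm2 {ρ : ℝ} {z : H} (hz : z = n.t + 2 * n.f * n.h + n.f * ρ • (2 * n.h))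
    (hσ : n.σ z = z) : ρ • (2 * n.h) = -2 * n.h ∧ z = n.t := by
  have h1 : z = n.t + 2 * n.f * n.h + (2 * ρ) • (n.f * n.h) := by
    rw [hz, Algebra.smul_def, Algebra.smul_def, map_mul, map_ofNat]
    ring
  have h2 : 2 * ρ = -2 := n.norm (by rw [← h1, hσ])
  have h3 : ρ • (2 * n.h) = -2 * n.h := by
    rw [show ρ = -1 by linarith, neg_one_smul, neg_mul]
  refine ⟨h3, ?_⟩
  rw [hz, h3]
  ring

theorem t_eq {c0 c1 : ℝ} (h : n.t = c0 • n.f ^ 4 + c1 • n.t) : c0 = 0 ∧ c1 = 1 := by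
  obtain ⟨h1, h2⟩ := n.gram (j := 7) (k := 0) (c0 := c0) (c1 := c1 - 1) (w := 0) rfl
    (by rw [zero_add, pow_zero, one_mul, sub_smul, one_smul, ← add_sub_assoc, ← h, sub_self])
    (by rw [mul_zero, map_zero]) (by rw [mul_zero, map_zero])
  exact ⟨h1, by linarith⟩

theorem σ_comb (c0 c1 : ℝ) : n.σ (c0 • n.f ^ 4 + c1 • n.t) = c0 • n.f ^ 4 + c1 • n.t := by
  rw [map_add, map_smul, map_smul, map_pow, n.σf, n.σt]

/-- the first level -/
theorem lev1 {R : Type*} [Ring R] [Algebra ℝ R] {c : Car R} (hc : c.Coh) (π : c.Pair)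
    (hL : ∀ k ε g, π.L k ε g = n.N (MvPolynomial.aeval ![n.t + 2 * n.f * n.h, 2 * n.f, -n.h] g *
      ((2 * n.f) ^ k * n.t ^ ε))) : ∃ T22 T28 T34 T40, Car.Lifts c a μ T22 T28 T34 T40 := by
  obtain ⟨e0, e1, e2, e3⟩ := n.vals
  have x0 : MvPolynomial.aeval ![n.t + 2 * n.f * n.h, 2 * n.f, -n.h] Car.X0 =
    n.t + 2 * n.f * n.h := MvPolynomial.aeval_X _ _
  have x1 : MvPolynomial.aeval ![n.t + 2 * n.f * n.h, 2 * n.f, -n.h] Car.X1 = 2 * n.f :=
    MvPolynomial.aeval_X _ _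
  have x2 : MvPolynomial.aeval ![n.t + 2 * n.f * n.h, 2 * n.f, -n.h] Car.X2 = -n.h :=
    MvPolynomial.aeval_X _ _
  have xy : MvPolynomial.aeval ![n.t + 2 * n.f * n.h, 2 * n.f, -n.h] (Car.X0 + Car.X1 * Car.X2) =
      n.t := by
    rw [map_add, map_mul, x0, x1, x2]
    ring
  have v1 : π.L 15 0 Car.X2 = -32768 * (μ ^ 2 - 3 * a) * n.ν := by
    rw [hL, x2, n.N_comb (-32768) 0 0 0 (by simp only [map_neg, map_ofNat, map_zero]; ring), e0]
    ring
  have v2 : π.L 11 1 Car.X2 = 16384 * a * μ * n.ν := by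
    rw [hL, x2, n.N_comb 0 (-2048) 0 0 (by simp only [map_neg, map_ofNat, map_zero]; ring), e1]
    ring
  have hν := n.ν_ne
  have ha := n.ha
  have ev : ∀ (i j k ε : ℕ), n.N (n.t ^ i * (2 * n.f) ^ j * ((2 * n.f) ^ k * n.t ^ ε)) = 0 :=
    fun i j k ε => n.N_even (by simp only [map_mul, map_pow, map_ofNat, n.σf, n.σt])
  obtain ⟨z30, z38, hz⟩ := Car.nz_of hc π
    (by rw [v1]; exact mul_ne_zero (mul_ne_zero (by norm_num) n.W_ne) hν)
    (fun h => by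
      have h1 := n.a_p14_11
      have h2 := n.a_p14_7
      rw [v1, v2, hL, hL, map_p14, x0, x1, x2] at h
      apply mul_ne_zero (pow_ne_zero 3 ha) (pow_ne_zero 2 hν)
      linear_combination (-1 / 1610612736) * h - (1 / 98304 * (μ ^ 2 - 3 * a) * n.ν) * h2 -
        (1 / 196608 * a * μ * n.ν) * h1)
    (fun h => by
      have h1 := n.a_Q4
      rw [hL, map_Q4, x0, x1, x2] at h
      apply mul_ne_zero (pow_ne_zero 3 ha) hν
      linear_combination (-1 / 32768) * h1 + (1 / 16384) * h)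
    (fun h => by
      have h1 := n.a_p36
      rw [hL, map_p36, x0, x1, x2] at h
      apply mul_ne_zero (pow_ne_zero 3 ha) hν
      linear_combination (-1 / 65536) * h1 + (1 / 32768) * h)
  have t4 : ∀ k ε, π.L k ε (Car.X1 ^ 2) = 0 := fun k ε => by
    rw [hL, map_pow, x1, ← ev 0 2 k ε, pow_zero, one_mul]
  have t10 : ∀ k ε, π.L k ε ((Car.X0 + Car.X1 * Car.X2) * Car.X1) = 0 := fun k ε => by
    rw [hL, map_mul (MvPolynomial.aeval _), xy, x1, ← ev 1 1 k ε, pow_one, pow_one]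
  have t16 : ∀ k ε, π.L k ε ((Car.X0 + Car.X1 * Car.X2) ^ 2) = 0 := fun k ε => by
    rw [hL, map_pow, xy, ← ev 2 0 k ε, pow_zero, mul_one]
  refine Car.exists_lifts hc hz a μ ⟨fun k _ => t4 _ _, fun k _ => t4 _ _⟩
    ⟨fun k _ => t10 _ _, fun k _ => t10 _ _⟩ ⟨fun k _ => t16 _ _, fun k _ => t16 _ _⟩
    ⟨fun k hk => ?_, fun k hk => ?_⟩ ⟨fun k hk => ?_, fun k hk => ?_⟩
    ⟨fun k hk => ?_, fun k hk => by omega⟩
  · obtain rfl : k = 7 := by omega
    rw [hL, map_Q3, x0, x1, x2]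
    linear_combination (1 / 2) * n.a_Q3_7
  · obtain rfl : k = 3 := by omega
    rw [hL, map_Q3, x0, x1, x2]
    linear_combination (1 / 2) * n.a_Q3_3
  · obtain rfl : k = 4 := by omega
    rw [hL, map_g28, x0, x1, x2, AlgHom.commutes, AlgHom.commutes]
    linear_combination (1 / 2) * n.a_g28_4
  · obtain rfl : k = 0 := by omega
    rw [hL, map_g28, x0, x1, x2, AlgHom.commutes, AlgHom.commutes]
    linear_combination (1 / 2) * n.a_g28_0
  · obtain rfl : k = 1 := by omega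
    rw [hL, map_g34, x0, x1, x2, AlgHom.commutes, AlgHom.commutes]
    linear_combination (1 / 2) * n.a_g34

/-- the second level -/
theorem lev2 {G : Type*} [CommRing G] [Algebra ℝ G] (j : G →ₐ[ℝ] H) (A : G →ₐ[ℝ] G)
    (I : G →ₗ[ℝ] ℝ) {u y T22 T28 T34 T40 : G} {l : ℝ} (ju : j u = n.f) (jy : j y = n.t)
    (j22 : j T22 = Q3 (n.t + 2 * n.f * n.h) n.f (-2 * n.h))
    (j28 : j T28 = g28 (algebraMap ℝ H a) (algebraMap ℝ H μ) (n.t + 2 * n.f * n.h) n.f (-2 * n.h))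
    (j34 : j T34 = g34 (algebraMap ℝ H a) (algebraMap ℝ H μ) (n.t + 2 * n.f * n.h) n.f (-2 * n.h))
    (rel : idn (algebraMap ℝ G a) (algebraMap ℝ G μ) u y T22 T28 T34 T40 = 0)
    (Au : A u = u) (IA : ∀ w, I (A w) = -I w) (jA : ∀ w, j (A w) = n.σ (j w))
    (I0 : ∀ i k : ℕ, I (u ^ i * y ^ k) = 0)
    (IT : ∀ i k : ℕ, I (T28 * (u ^ i * y ^ k)) = l * n.N (n.h * (n.f ^ i * n.t ^ k)))
    (g16 : ∃ c0 c1 : ℝ, r16 (algebraMap ℝ G a) (algebraMap ℝ G μ) u y =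
      c0 • u ^ 8 + c1 • (u ^ 4 * y))
    (g22 : ∃ c0 c1 : ℝ, r22 (algebraMap ℝ G a) (algebraMap ℝ G μ) u y T22 =
      c0 • u ^ 11 + c1 • (u ^ 7 * y))
    (gA : ∃ c0 c1 : ℝ, T28 + A T28 = c0 • u ^ 14 + c1 • (u ^ 10 * y))
    (g0 : l = 0 → ∃ c0 c1 : ℝ, T28 = c0 • u ^ 14 + c1 • (u ^ 10 * y))
    (g34' : l ≠ 0 → ∃ r c0 c1 : ℝ, T34 = r • (u ^ 3 * T28) + c0 • u ^ 17 + c1 • (u ^ 13 * y)) :
    μ ^ 2 = -36 * a := by
  obtain ⟨e0, e1, e2, e3⟩ := n.vals
  have hν := n.ν_ne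
  have ha := n.ha
  have hW := n.W_ne
  have IM : ∀ (c : ℝ) (w : G), I (algebraMap ℝ G c * w) = c * I w := fun c w => by
    rw [← Algebra.smul_def, map_smul, smul_eq_mul]
  have h16 : r16 (algebraMap ℝ G a) (algebraMap ℝ G μ) u y = 0 := by
    obtain ⟨c0, c1, h⟩ := g16
    have h1 := congrArg j h
    rw [map_r16, map_add, map_smul, map_smul, map_mul, map_pow, map_pow, ju, jy, j.commutes,
      j.commutes] at h1
    obtain ⟨h2, h3⟩ := n.gram (j := 3) (k := 4) rfl h1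
      (by linear_combination (1 / 2) * n.b_r16a) (by linear_combination (1 / 2) * n.b_r16b)
    rw [h, h2, h3, zero_smul, zero_smul, add_zero]
  have h22 : r22 (algebraMap ℝ G a) (algebraMap ℝ G μ) u y T22 = 0 := by
    obtain ⟨c0, c1, h⟩ := g22
    have h1 := congrArg j h
    rw [map_r22, map_add, map_smul, map_smul, map_mul, map_pow, map_pow, ju, jy, j22, j.commutes,
      j.commutes] at h1
    obtain ⟨h2, h3⟩ := n.gram (j := 0) (k := 7) rfl h1
      (by linear_combination (1 / 2) * n.b_r22a) (by linear_combination (1 / 2) * n.b_r22b)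
    rw [h, h2, h3, zero_smul, zero_smul, add_zero]
  have hl : l ≠ 0 := fun hl => by
    obtain ⟨c0, c1, h⟩ := g0 hl
    have h1 := congrArg j h
    rw [map_add, map_smul, map_smul, map_mul, map_pow, map_pow, ju, jy, j28] at h1
    have h2 := n.b_f4
    have h3 := n.b_t
    rw [h1, n.N_even (by simp only [map_add, map_mul, map_pow, map_smul, n.σf, n.σt])] at h2 h3
    have h4 : μ = 0 := by
      apply mul_left_cancel₀ (mul_ne_zero (mul_ne_zero ha hW) hν)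
      linear_combination (1 / 60) * h2
    apply mul_ne_zero (pow_ne_zero 3 ha) hν
    linear_combination (-1 / 391680) * h3 - (1 / 816 * a ^ 2 * μ * n.ν) * h4
  obtain ⟨r, d0, d1, h34⟩ := g34' hl
  obtain ⟨c0, c1, hA⟩ := gA
  have k1 : n.N (n.f * g34 (algebraMap ℝ H a) (algebraMap ℝ H μ) (n.t + 2 * n.f * n.h) n.f
      (-2 * n.h)) = r * n.N (n.f ^ 4 * g28 (algebraMap ℝ H a) (algebraMap ℝ H μ)
        (n.t + 2 * n.f * n.h) n.f (-2 * n.h)) := by
    have h1 : n.f * j T34 = algebraMap ℝ H r * (n.f ^ 4 * j T28) + algebraMap ℝ H d0 *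
        (n.f ^ 18 * n.t ^ 0) + algebraMap ℝ H d1 * (n.f ^ 14 * n.t ^ 1) := by
      simp only [h34, map_add, map_smul, map_mul, map_pow, ju, jy, Algebra.smul_def, j.commutes]
      ring
    rw [← j34, ← j28, h1, map_add, map_add, N_mul, N_mul, N_mul, N_mon, N_mon]
    ring
  have k2 : 2 * n.N (n.h * n.f * g28 (algebraMap ℝ H a) (algebraMap ℝ H μ)
      (n.t + 2 * n.f * n.h) n.f (-2 * n.h)) =
      c0 * n.N (n.h * n.f ^ 15) + c1 * n.N (n.h * n.f ^ 11 * n.t) := by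
    have h1 := congrArg j hA
    rw [map_add, jA, map_add, map_smul, map_smul, map_mul, map_pow, map_pow, ju, jy] at h1
    have h2 := n.Nσ (n.h * n.f * j T28)
    rw [map_mul n.σ, map_mul n.σ, n.σh, n.σf, neg_mul, neg_mul, map_neg, neg_inj] at h2
    have h3 := n.N_comb c0 c1 0 0 (w := n.h * n.f * j T28 + n.h * n.f * n.σ (j T28)) (by
      rw [← mul_add, h1, Algebra.smul_def, Algebra.smul_def, map_zero]
      ring)
    rw [map_add, h2] at h3
    rw [← j28]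
    linear_combination h3
  have k3 : I (u * T28 ^ 2) = l * (c0 * n.N (n.h * n.f ^ 15) +
      c1 * n.N (n.h * n.f ^ 11 * n.t)) := by
    have h1 := IA (u * T28 ^ 2)
    have h2 : A (u * T28 ^ 2) = u * T28 ^ 2 + algebraMap ℝ G (c0 ^ 2) * (u ^ 29 * y ^ 0) +
        algebraMap ℝ G (2 * c0 * c1) * (u ^ 25 * y ^ 1) + algebraMap ℝ G (c1 ^ 2) *
        (u ^ 21 * y ^ 2) + algebraMap ℝ G (-2 * c0) * (T28 * (u ^ 15 * y ^ 0)) +
        algebraMap ℝ G (-2 * c1) * (T28 * (u ^ 11 * y ^ 1)) := by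
      rw [map_mul, map_pow, Au, eq_sub_of_add_eq' hA]
      simp only [map_mul, map_pow, map_neg, map_ofNat, Algebra.smul_def]
      ring
    rw [h2, map_add, map_add, map_add, map_add, map_add, IM, IM, IM, IM, IM, I0, I0, I0, IT, IT,
      pow_zero, mul_one, pow_one, ← mul_assoc n.h] at h1
    linear_combination (1 / 2) * h1
  have k4 : rel58 (algebraMap ℝ G a) (algebraMap ℝ G μ) u y T28 T34 =
      algebraMap ℝ G (122880 * a * (μ ^ 2 - 3 * a) ^ 2) * (u * T28 ^ 2) +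
      algebraMap ℝ G (cc1 a μ) * (T28 * (u ^ 7 * y ^ 2)) +
      algebraMap ℝ G (20480 * a * μ ^ 3 * (μ ^ 2 - 3 * a) * r) * (T28 * (u ^ 15 * y ^ 0)) +
      algebraMap ℝ G (20480 * a * μ ^ 3 * (μ ^ 2 - 3 * a) * d0) * (u ^ 29 * y ^ 0) +
      algebraMap ℝ G (20480 * a * μ ^ 3 * (μ ^ 2 - 3 * a) * d1) * (u ^ 25 * y ^ 1) := by
    rw [rel58, h34, map_cc1]
    simp only [map_mul, map_pow, map_sub, map_ofNat, Algebra.smul_def]
    ring
  rw [idn, h16, h22, zero_mul, zero_mul, add_zero, add_zero, k4] at rel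
  have k5 := congrArg I rel
  rw [map_zero, map_add, map_add, map_add, map_add, IM, IM, IM, IM, IM, I0, I0, IT, IT, k3, ← k2,
    n.b_h, pow_zero, mul_one, ← mul_assoc n.h, e0, e2, cc1] at k5
  have k6 := n.b_g34
  have k7 := n.b_f4
  rw [k1] at k6
  apply mul_left_cancel₀ (mul_ne_zero (mul_ne_zero (mul_ne_zero (pow_ne_zero 3 ha)
    (pow_ne_zero 2 hW)) hν) hl)
  linear_combination (-3 / 495452160) * k5 - (1024 / 495452160 * l * μ ^ 2 * (μ ^ 2 - 3 * a)) *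
    (k6 - r * k7)

end Num

end Vale.Agent.P231Z.Alg
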