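import Vale.Agent.P231Z.Alg.Gen
import Vale.Agent.P231Z.Alg.Num

/-!
# P231, Cayley case, algebra (12): the space of null planes
-/

set_option linter.unusedSectionVars false
set_option linter.unusedVariables false

namespace Vale.Agent.P231Z.Alg

open Vale.Agent.P231 Vale.Agent.P231.Fm Vale.Agent.P231.W Vale.Agent.P231.H584
open Vale.Agent.P231.Fm.Form (IsDeg part)

variable {B U M : Type*} {dB : Dif B} {dU : Dif U} {dM : Dif M} {D c : ℝ}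
  {S : Sys dB dU dM 1 D c}

namespace HB

variable (hB : HB S)

/-- the flow on `B` -/
noncomputable def nB : Cn dB (2 * D) :=
  ⟨S.φ, S.αB, S.T_ne, S.hφ, S.αB_flow, hB.αdeg.pull _ S.hpi⟩

/-- the flow on `U` -/
noncomputable def nU : Cn dU (2 * D) := ⟨S.φU, S.α, S.T_ne, S.hφU, S.hα, hB.αdeg⟩

/-- the projection -/
noncomputable def sπ : Sp hB.nB hB.nU 1⁻¹ :=
  ⟨S.pi, S.hpi, fun b t => by rw [inv_one, one_mul]; exact S.hpφ b t,
    by rw [inv_one, one_smul]; rfl⟩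

/-- the involution -/
noncomputable def sσ : Sp hB.nB hB.nB 1 :=
  ⟨S.σ, S.hσ, fun b t => by rw [one_mul]; exact S.hσφ b t, by rw [one_smul]; exact S.σαB⟩

include hB in
theorem b1_deg : IsDeg 6 S.b1 := by
  have hKd : IsDeg 7 (Form.K (Form.pull S.g S.hg S.F)) := IsDeg.K (IsDeg.pull hB.Fdeg _ _)
  exact isDeg_J S.hφ.map S.T (IsDeg.sub hKd (IsDeg.pull hKd _ _))

/-- the class `b` -/
noncomputable def bZ : hB.nB.bs.Z := hB.nB.mkZ (by decide) hB.b1_deg S.b1_basic S.b1_d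

/-- the class `G₁` -/
noncomputable def G1Z : hB.nB.bs.Z :=
  hB.nB.mkZ (by decide) (IsDeg.pull hB.Fdeg _ (map_at S.hg 1)) S.G1_basic S.G1_good.1

/-- the class `G₂` -/
noncomputable def G2Z : hB.nB.bs.Z :=
  hB.nB.mkZ (by decide) ((IsDeg.pull hB.Fdeg _ (map_at S.hg 1)).pull _ S.hσ) S.G2_basic
    S.G2_good.1

/-- the integral of basic forms -/
noncomputable def N : Bs hB.nB.hΨ →ₗ[ℝ] ℝ :=
  (S.I.comp S.P).comp ((LinearMap.mulLeft ℝ S.αB).comp (Bs hB.nB.hΨ).val.toLinearMap)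

theorem N_val (w : Bs hB.nB.hΨ) : hB.N w = S.I (S.P (S.αB * w.1)) := rfl

theorem N_d (u : Bs hB.nB.hΨ) : hB.N (hB.nB.bs.d u) = 0 := by
  have h := integral_by_parts (I := S.I.comp S.P) S.hId S.αB u.1 (d_even S.αB_sg)
  exact h.trans (S.hIφ _ (Basic.mul (hΦ := S.hφ.map) hB.nB.basic_dα u.2))

theorem N_π (v : Bs hB.nU.hΨ) : hB.N (hB.sπ.bm v) = 0 := by
  have h1 : ∀ j, part j (S.P 1) = 0 := fun j => by
    rw [← hB.Pdeg, IsDeg.one.part_eq_zero (by omega), map_zero]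
  have h2 : S.αB * (hB.sπ.bm v).1 = 1 * Form.pull S.pi S.hpi (S.α * v.1) := by
    rw [one_mul, pl_mul]
    rfl
  rw [N_val, h2, S.hPm, hB.Itop, Form.part_mul, Finset.sum_eq_zero, map_zero]
  intro p _
  rw [h1, zero_mul]

theorem N_σ (w : Bs hB.nB.hΨ) : hB.N (hB.sσ.bm w) = -hB.N w := by
  rw [N_val, N_val, ← S.hIσ, pl_mul, S.σαB]
  rfl

/-- the integral of classes -/
noncomputable def NH : hB.nB.bs.H →ₗ[ℝ] ℝ := hB.nB.bs.lif hB.N hB.N_d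

theorem NH_π (v : hB.nU.bs.H) : hB.NH (hB.sπ.mor.H v) = 0 := by
  obtain ⟨w, rfl⟩ := hB.nU.bs.cl_surj v
  exact hB.N_π w.1

theorem σπ (v : hB.nU.bs.H) : hB.sσ.mor.H (hB.sπ.mor.H v) = hB.sπ.mor.H v := by
  obtain ⟨w, rfl⟩ := hB.nU.bs.cl_surj v
  refine congrArg hB.nB.bs.cl (Subtype.ext (Subtype.ext ?_))
  change Form.pull S.σ S.hσ (Form.pull S.pi S.hpi w.1.1) = Form.pull S.pi S.hpi w.1.1
  have h0 : dU.Map dU (fun v => S.φU (v, D)) := map_at S.hφU.map D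
  have h3 : dB.Map dU (fun b => S.φU (S.pi b, D)) := fun h => h0 (S.hpi h)
  rw [pull_pull S.hσ S.hpi h3 S.hσπ, ← pull_pull S.hpi h0 h3 (fun b => rfl)]
  exact congrArg (Form.pull S.pi S.hpi) (basic_at (hΦ := S.hφU.map) w.1.2 D)

variable {ε : ℝ} (hε : ε ≠ 0) {l : Form dB} (hl : S.b1 = ε • S.b0 + l.d)

include hB hl in
theorem P_b1 : S.P S.b1 = (ε * S.k) • 1 := by
  have h1 := hB.Pdeg 0 S.b1
  have h2 : S.P S.b0 = S.k • 1 := S.hk0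
  rw [zero_add, hB.b1_deg.part_eq] at h1
  rw [h1, hl, map_add, map_smul, h2, S.hPd, Form.part_add, Form.part_zero_d, add_zero, smul_smul,
    Form.part_smul, IsDeg.one.part_eq]

include hB hε hl in
theorem I_d (κ : Form dU) : S.I κ.d = 0 := by
  have h := S.hId (S.b1 * Form.pull S.pi S.hpi κ)
  rw [Form.d_mul, S.b1_d, zero_mul, zero_add, S.b1_sg, ← Form.pull_d, S.hPm, hB.P_b1 hl,
    smul_mul_assoc, one_mul, map_smul, smul_eq_mul] at h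
  exact (mul_eq_zero.1 h).resolve_left (mul_ne_zero hε S.hk)

include hl in
theorem NH_b (v : hB.nU.bs.Z) : hB.NH (hB.nB.bs.cl hB.bZ * hB.sπ.mor.H (hB.nU.bs.cl v)) =
    ε * S.k * S.I (S.α * v.1.1) := by
  have h1 : S.αB * (S.b1 * Form.pull S.pi S.hpi v.1.1) =
      S.b1 * Form.pull S.pi S.hpi (S.α * v.1.1) := by
    rw [pl_mul, ← mul_assoc, ← Form.mul_comm_of_even S.b1_sg, mul_assoc]
    rfl
  rw [Mor.H_cl, ← map_mul]
  change S.I (S.P (S.αB * (S.b1 * Form.pull S.pi S.hpi v.1.1))) = _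
  rw [h1, S.hPm, hB.P_b1 hl, smul_mul_assoc, one_mul, map_smul, smul_eq_mul]

include hε hl in
theorem gen6 (w : hB.nB.bs.Z) (hw : w.1 ∈ hB.nB.bs.G 6) :
    ∃ c0 c1 : ℝ, hB.nB.bs.cl w = c0 • hB.nB.E ^ 3 + c1 • hB.nB.bs.cl hB.bZ := by
  obtain ⟨c0, c1, -, h⟩ := hB.nB.gen (q := 3) (m := 3) hB.bZ hB.b1_deg (by norm_num) hB.h0
    (fun i h1 h2 h3 => by
      obtain rfl | rfl : i = 1 ∨ i = 2 := by omega
      exacts [hB.h2, hB.h4])
    (fun _ w hw hwd => by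
      obtain ⟨r, κ, h⟩ := hB.h6 w hw hwd
      refine ⟨r / ε, κ - (r / ε) • l, ?_⟩
      change w = (r / ε) • S.b1 + _
      rw [h, hl, Form.d_sub, Form.d_smul, smul_add, smul_smul, div_mul_cancel₀ r hε]
      abel) 3 le_rfl w (mem_Dg.1 hw)
  exact ⟨c0, c1, by rw [h, Nat.sub_self, pow_zero, one_mul]⟩

include hε hl in
theorem exists_numB {a μ : ℝ} {ρ : Form dB} (hρ : Basic S.φ S.hφ.map ρ)
    (hrel : S.b1 ^ 2 = a • S.e ^ 6 + μ • (S.e ^ 2 * (S.G1 + S.G2)) + ρ.d) (ha : a ≠ 0)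
    (hv : S.I (S.α * S.α.d ^ 15) ≠ 0) :
    ∃ n : Num hB.nB.bs.H a μ, n.σ = hB.sσ.mor.H ∧ n.N = hB.NH ∧ hB.nB.E = 2 * n.f ∧
      hB.nB.bs.cl hB.bZ = 2 * n.h ∧ hB.nB.bs.cl hB.G1Z = n.t + 2 * n.f * n.h := by
  have he : hB.nB.eZ.1.1 = S.e := S.e_eq.symm
  refine exists_num _ _ (G2 := hB.nB.bs.cl hB.G2Z) (by rw [hB.sσ.H_E, one_smul]) ?_ rfl ?_ ?_ ?_
    ?_ ?_ ?_ ha
  · rw [← map_neg]
    exact congrArg hB.nB.bs.cl (Subtype.ext (Subtype.ext S.σb1))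
  · exact congrArg hB.nB.bs.cl (Subtype.ext (Subtype.ext S.σG2))
  · intro w
    obtain ⟨w, rfl⟩ := hB.nB.bs.cl_surj w
    exact hB.N_σ w.1
  · rw [Cn.E, ← map_sub, ← map_mul]
    have hβb : Basic S.φ S.hφ.map S.β.d := by
      rw [S.β_d]
      exact Basic.sub (hΦ := S.hφ.map) S.G1_basic S.G2_basic
    have h7 : S.T • S.β.d = S.αB.d * S.b1 + (J S.φ S.hφ.map S.T (S.αB * S.β)).d := by
      rw [← S.J_β]
      exact gysin_d S.hφ S.αB_flow S.αB_sg hβb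
    refine hB.nB.bs.cl_eq (u := ⟨S.T⁻¹ • J S.φ S.hφ.map S.T (S.αB * S.β),
      Basic.smul (hΦ := S.hφ.map) _ (J_basic S.hφ _)⟩) (Subtype.ext ?_)
    change S.G1 - S.G2 = (S.T⁻¹ • S.αB.d) * S.b1 + (S.T⁻¹ • _ : Form dB).d
    rw [← S.β_d, smul_mul_assoc, Form.d_smul, ← smul_add, ← h7, smul_smul,
      inv_mul_cancel₀ S.T_ne, one_smul]
  · have h := hB.nB.bs.cl_eq (a := hB.bZ ^ 2)
      (b := a • hB.nB.eZ ^ 6 + μ • (hB.nB.eZ ^ 2 * (hB.G1Z + hB.G2Z))) (u := ⟨ρ, hρ⟩)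
      (Subtype.ext (by
        change S.b1 ^ 2 = a • hB.nB.eZ.1.1 ^ 6 + μ • (hB.nB.eZ.1.1 ^ 2 * (S.G1 + S.G2)) + ρ.d
        rw [he, hrel]))
    simpa only [map_add, map_smul, map_mul, map_pow, Cn.E] using h
  · rw [← map_pow, ← map_zero hB.nB.bs.cl]
    exact congrArg hB.nB.bs.cl (Subtype.ext (Subtype.ext S.G1_good.2.2))
  · have h1 : hB.nB.E ^ 15 = hB.sπ.mor.H (hB.nU.bs.cl (hB.nU.eZ ^ 15)) := by
      rw [map_pow hB.nU.bs.cl, map_pow hB.sπ.mor.H, ← Cn.E, hB.sπ.H_E, inv_one, one_smul]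
    rw [h1, hB.NH_b hl]
    change ε * S.k * S.I (S.α * ((2 * D)⁻¹ • S.α.d) ^ 15) ≠ 0
    rw [_root_.smul_pow, mul_smul_comm, map_smul, smul_eq_mul]
    exact mul_ne_zero (mul_ne_zero hε S.hk)
      (mul_ne_zero (pow_ne_zero _ (inv_ne_zero S.T_ne)) hv)

end HB

end Vale.Agent.P231Z.Alg
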