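import Vale.Agent.P231Z.Alg.L2

/-!
# P231, Cayley case, algebra (15): the theorem
-/

set_option linter.unusedSectionVars false
set_option linter.unusedVariables false

namespace Vale.Agent.P231Z.Alg

open Vale.Agent.P231 Vale.Agent.P231.Fm Vale.Agent.P231.W Vale.Agent.P231.H584
open Vale.Agent.P231.Fm.Form (IsDeg part)

section Abs

variable {R : Type*} [Ring R] [Algebra ℝ R] {c : Car R} {H : Type*} [CommRing H] [Algebra ℝ H]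

theorem aeval_Q3 (x u z : H) :
    MvPolynomial.aeval ![x, u, z] (Q3 Car.X0 Car.X1 Car.X2) = Q3 x u z := by
  rw [map_Q3, MvPolynomial.aeval_X, MvPolynomial.aeval_X, MvPolynomial.aeval_X]
  rfl

theorem aeval_g28 (a μ : ℝ) (x u z : H) : MvPolynomial.aeval ![x, u, z]
    (g28 (algebraMap ℝ _ a) (algebraMap ℝ _ μ) Car.X0 Car.X1 Car.X2) =
    g28 (algebraMap ℝ _ a) (algebraMap ℝ _ μ) x u z := by
  rw [map_g28, MvPolynomial.aeval_X, MvPolynomial.aeval_X, MvPolynomial.aeval_X, AlgHom.commutes,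
    AlgHom.commutes]
  rfl

theorem aeval_g34 (a μ : ℝ) (x u z : H) : MvPolynomial.aeval ![x, u, z]
    (g34 (algebraMap ℝ _ a) (algebraMap ℝ _ μ) Car.X0 Car.X1 Car.X2) =
    g34 (algebraMap ℝ _ a) (algebraMap ℝ _ μ) x u z := by
  rw [map_g34, MvPolynomial.aeval_X, MvPolynomial.aeval_X, MvPolynomial.aeval_X, AlgHom.commutes,
    AlgHom.commutes]
  rfl

variable {S : Type*} [Ring S] [Algebra ℝ S] {t : SD S} {v : EvD c t} {a μ : ℝ}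
  {T22 T28 T34 T40 : c.s2.Z}

theorem Car.Lifts.vals (h : Car.Lifts c a μ T22 T28 T34 T40) (hK : v.Kil) :
    v.mor.H (c.s2.cl T22) = Q3 (t.cl (EvD.xZ hK)) (t.cl v.eZ) (t.cl (EvD.ηZ hK)) ∧
    v.mor.H (c.s2.cl T28) = g28 (algebraMap ℝ _ a) (algebraMap ℝ _ μ) (t.cl (EvD.xZ hK))
      (t.cl v.eZ) (t.cl (EvD.ηZ hK)) ∧
    v.mor.H (c.s2.cl T34) = g34 (algebraMap ℝ _ a) (algebraMap ℝ _ μ) (t.cl (EvD.xZ hK))
      (t.cl v.eZ) (t.cl (EvD.ηZ hK)) := by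
  refine ⟨?_, ?_, ?_⟩
  · rw [← aeval_Q3]
    refine EvD.H_lift hK ?_
    rw [map_Q3, c.τ0, c.τ1, c.τ2]
    exact h.K22
  · rw [← aeval_g28]
    refine EvD.H_lift hK ?_
    rw [map_g28, c.τ0, c.τ1, c.τ2, AlgHom.commutes, AlgHom.commutes]
    exact h.K28
  · rw [← aeval_g34]
    refine EvD.H_lift hK ?_
    rw [map_g34, c.τ0, c.τ1, c.τ2, AlgHom.commutes, AlgHom.commutes]
    exact h.K34

theorem Car.Lifts.rel' (h : Car.Lifts c a μ T22 T28 T34 T40) (v : EvD c t) :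
    idn (algebraMap ℝ _ a) (algebraMap ℝ _ μ) (t.cl v.eZ) (v.mor.H (c.s2.cl c.yZ))
      (t.cl (v.mor.Z T22)) (t.cl (v.mor.Z T28)) (t.cl (v.mor.Z T34)) (t.cl (v.mor.Z T40)) = 0 := by
  have h1 := congrArg v.mor.H h.rel
  rwa [map_idn, map_zero, AlgHom.commutes, AlgHom.commutes, v.H_u] at h1

theorem cl_r16 (t : SD S) (a μ : ℝ) (u y : t.Z) :
    t.cl (r16 (algebraMap ℝ _ a) (algebraMap ℝ _ μ) u y) =
      r16 (algebraMap ℝ _ a) (algebraMap ℝ _ μ) (t.cl u) (t.cl y) := by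
  rw [map_r16, AlgHom.commutes, AlgHom.commutes]

theorem cl_r22 (t : SD S) (a μ : ℝ) (u y w : t.Z) :
    t.cl (r22 (algebraMap ℝ _ a) (algebraMap ℝ _ μ) u y w) =
      r22 (algebraMap ℝ _ a) (algebraMap ℝ _ μ) (t.cl u) (t.cl y) (t.cl w) := by
  rw [map_r22, AlgHom.commutes, AlgHom.commutes]

theorem Num.not_f4 {a μ : ℝ} (n : Num H a μ) {c0 : ℝ} {y : H}
    (h : n.t = 2 * n.f * (c0 • (2 * n.f) ^ 3 + (0 : ℝ) • y)) : False := by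
  have h1 := (n.t_eq (c0 := 16 * c0) (c1 := 0) (by
    rw [zero_smul, add_zero] at h ⊢
    rw [h, Algebra.smul_def, Algebra.smul_def, map_mul, map_ofNat]
    ring)).2
  exact zero_ne_one h1

theorem Num.two_N {a μ : ℝ} (n : Num H a μ) (w : H) : n.N (2 * n.h * w) = 2 * n.N (n.h * w) := by
  rw [mul_assoc, two_mul, map_add, two_mul]

theorem y_eq {E y z : H} {c0 c1 : ℝ} (h : z = c0 • E ^ 4 + c1 • (E ^ (4 - 4) * y)) :
    z = c0 • E ^ 4 + c1 • y := by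
  rw [h, Nat.sub_self, pow_zero, one_mul]

theorem half' {G : Type*} [CommRing G] [Algebra ℝ G] (φ : G →ₐ[ℝ] H) {E : H} {z : G}
    (h : φ z = (2 : ℝ) • E) : φ ((2⁻¹ : ℝ) • z) = E := by
  rw [map_smul, h, smul_smul, inv_mul_cancel₀ two_ne_zero, one_smul]

theorem map_comb {G : Type*} [CommRing G] [Algebra ℝ G] (φ : G →ₐ[ℝ] H) {E y z : G} {f t : H}
    {c0 c1 : ℝ} (h : z = c0 • E ^ 4 + c1 • y) (hE : φ E = f) (hy : φ y = t) :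
    φ z = c0 • f ^ 4 + c1 • t := by
  rw [h, map_add, map_smul, map_smul, map_pow, hE, hy]

theorem map_mon {G : Type*} [CommRing G] [Algebra ℝ G] (φ : G →ₐ[ℝ] H) {E y : G} {f t : H}
    (hE : φ E = f) (hy : φ y = t) (i k : ℕ) : f ^ i * t ^ k = φ (E ^ i * y ^ k) := by
  rw [map_mul, map_pow, map_pow, hE, hy]

theorem comb_eq {E y z : H} {c0 c1 : ℝ} (h : z = c0 • E ^ 4 + c1 • y) (h0 : c0 = 0)
    (h1 : c1 = 1) : z = y := by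
  rw [h, h0, h1, zero_smul, zero_add, one_smul]

end Abs

variable {B U M X Sg : Type*} {dB : Dif B} {dU : Dif U} {dM : Dif M} {dX : Dif X} {dS : Dif Sg}
  {D c : ℝ}

theorem not_exact {S : Sys dB dU dM 1 D c} (hU : HU dU) (hB : HB S) {a μ : ℝ}
    (n : Num hB.nB.bs.H a μ) (nE : hB.nB.E = 2 * n.f) {s : hB.nU.bs.Z} (hs : IsDeg 8 s.1.1)
    (ht : hB.sπ.mor.H (hB.nU.bs.cl s) = n.t) (κ : Form dU) : s.1.1 ≠ κ.d := fun h => by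
  obtain ⟨w, h1, h2⟩ := hB.nU.step0H (k := 6) (by decide) hs h
  obtain ⟨c0, c1, h3, h4⟩ := hB.nU.gen (q := 4) (m := 3) s hs (by norm_num) hU.h0
    (fun i h1 h2 h3 => hU.ex _ (by omega) (by omega) (by omega) (by omega))
    (fun h => absurd h (by norm_num)) 3 le_rfl w h1
  have h5 : hB.sπ.mor.H hB.nU.E = 2 * n.f := by rw [hB.sπ.H_E, inv_one, one_smul, nE]
  rw [h2, h4, h3 (by norm_num), map_mul, map_add, map_smul, map_smul, map_pow, h5] at ht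
  exact n.not_f4 ht.symm

namespace Sig

variable {S : Sys dB dU dM 1 D c} {L : Lp S dX} (G : Sig L dS) (hB : HB S) (hU : HU dU)
  {ε : ℝ} (hε : ε ≠ 0) {l : Form dB} (hl : S.b1 = ε • S.b0 + l.d)

/-- the integral of classes -/
noncomputable def IH : (G.nS hB).bs.H →ₗ[ℝ] ℝ :=
  (G.nS hB).bs.lif (G.I hB) (G.I_d hB (hB.I_d hε hl))

theorem IH_A (w : (G.nS hB).bs.H) : G.IH hB hε hl ((G.sA hB).mor.H w) = -G.IH hB hε hl w := by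
  obtain ⟨w, rfl⟩ := (G.nS hB).bs.cl_surj w
  exact G.I_A hB w.1

theorem IH_p (v : hB.nU.bs.H) : G.IH hB hε hl ((G.sp hB).mor.H v) = 0 := by
  obtain ⟨w, rfl⟩ := hB.nU.bs.cl_surj v
  exact G.I_p hB w.1

theorem IH_T {T : (G.nS hB).bs.Z} (hT : IsDeg 28 T.1.1) {r : ℝ} (hr : G.SI T.1.1 = r • 1)
    (v : hB.nU.bs.H) : G.IH hB hε hl ((G.nS hB).bs.cl T * (G.sp hB).mor.H v) =
      r / (ε * S.k) * (2⁻¹ * hB.NH (hB.nB.bs.cl hB.bZ * hB.sπ.mor.H v)) := by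
  obtain ⟨w, rfl⟩ := hB.nU.bs.cl_surj v
  have h1 := S.hk
  rw [hB.NH_b hl w]
  refine (G.I_T hB hT hr w.1).trans ?_
  field_simp

theorem pu : (G.sp hB).mor.H ((2⁻¹ : ℝ) • hB.nU.E) = (G.nS hB).E :=
  half' (G.sp hB).mor.H (G.sp hB).H_E

variable {a μ : ℝ} (n : Num hB.nB.bs.H a μ) (nσ : n.σ = hB.sσ.mor.H) (nN : n.N = hB.NH)
  (nE : hB.nB.E = 2 * n.f) (nb : hB.nB.bs.cl hB.bZ = 2 * n.h)
  (nG : hB.nB.bs.cl hB.G1Z = n.t + 2 * n.f * n.h) {s : hB.nU.bs.Z} (hs : IsDeg 8 s.1.1)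
  (ht : hB.sπ.mor.H (hB.nU.bs.cl s) = n.t)

include nE in
theorem ju : (G.sj hB).mor.H (G.nS hB).E = n.f := by
  rw [(G.sj hB).H_E, nE]
  exact Num.half n.f

include hU hε hl nE nb nG hs ht in
theorem level2 : ∃ (v : EvD (L.cx hB).car (G.nS hB).bs) (v1 : EvD (L.cx hB).car hB.nB.bs)
    (hK : v1.Kil), (G.nS hB).bs.cl v.eZ = (G.nS hB).E ∧
      v.mor.H ((L.cx hB).car.s2.cl (L.cx hB).car.yZ) = (G.sp hB).mor.H (hB.nU.bs.cl s) ∧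
      hB.nB.bs.cl (EvD.xZ hK) = n.t + 2 * n.f * n.h ∧ hB.nB.bs.cl v1.eZ = n.f ∧
      hB.nB.bs.cl (EvD.ηZ hK) = -2 * n.h ∧ ∀ T, v1.mor.H ((L.cx hB).car.s2.cl T) =
        (G.sj hB).mor.H ((G.nS hB).bs.cl (v.mor.Z T)) := by
  have hn := not_exact hU hB n nE hs ht
  obtain ⟨v, v1, hK, r, ⟨O⟩, ve, v1e, hx, hη⟩ := exists_level (L.cx hB) (n := hB.nB)
    (n' := G.nS hB) (r := 2) two_ne_zero (fun b => by
      change S.φ (b, 2 * (2 * D)) = b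
      rw [two_mul, ← S.hφ.add, S.hφ.per, S.hφ.per]) (G.sj hB)
    ⟨G.fX, G.hfX, G.fX_ψ⟩ ⟨G.kX, G.hkX, fun y t => G.kX_φ y.1 y.2 t⟩ G.kX0 (map_at S.hg 1) G.kX1
    (fun i hi w hw hd => G.ex_of hU (by omega) (by omega) (by omega) (by omega) hw hd
      (G.SI_low _ w (by omega) hw)) _ (hB.gen6 hε hl)
  have ju := G.ju hB n nE
  have e1 : hB.nB.bs.cl (EvD.xZ hK) = n.t + 2 * n.f * n.h := by rw [L.xZ_eq hB hK hx, nG]
  have e0 : v1.eZ = (G.sj hB).mor.Z (G.nS hB).eZ := Subtype.ext (v1e.trans (G.sj hB).bm_e.symm)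
  have e2 : hB.nB.bs.cl v1.eZ = n.f := by rw [e0, ← Mor.H_cl, ← Cn.E, ju]
  have jv : ∀ T, (G.sj hB).mor.H ((G.nS hB).bs.cl (v.mor.Z T)) =
      v1.mor.H ((L.cx hB).car.s2.cl T) := fun T => (v.map_H _ T).trans (O.H_eq T)
  obtain ⟨c0, c1, hy⟩ := G.gen hB hU hs hn 4 (by norm_num) (v.mor.Z (L.cx hB).car.yZ)
    (mem_Dg.1 (v.mor.G Car.yZ_G))
  have hy2 := map_comb (G.sj hB).mor.H (y_eq hy) ju ((G.jpH hB _).trans ht)
  obtain ⟨e5, e6⟩ := n.norm2 (ρ := r)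
    (z := (G.sj hB).mor.H ((G.nS hB).bs.cl (v.mor.Z (L.cx hB).car.yZ)))
    (by rw [jv, EvD.H_y hK, e1, e2, hη, nb]) (by rw [hy2]; exact n.σ_comb c0 c1)
  obtain ⟨h0, h1⟩ := n.t_eq (e6.symm.trans hy2)
  refine ⟨v, v1, hK, congrArg (G.nS hB).bs.cl (Subtype.ext ve), comb_eq (y_eq hy) h0 h1, e1, e2,
    ?_, fun T => (jv T).symm⟩
  rw [hη, nb]
  exact e5

include hU hs nE ht in
theorem g16 : ∃ c0 c1 : ℝ, r16 (algebraMap ℝ _ a) (algebraMap ℝ _ μ) (G.nS hB).E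
    ((G.sp hB).mor.H (hB.nU.bs.cl s)) = c0 • (G.nS hB).E ^ 8 +
      c1 • ((G.nS hB).E ^ 4 * (G.sp hB).mor.H (hB.nU.bs.cl s)) := by
  have h2 := G.gen hB hU hs (not_exact hU hB n nE hs ht) 8 (by norm_num)
    (r16 (algebraMap ℝ _ a) (algebraMap ℝ _ μ) (G.nS hB).eZ ((G.sp hB).mor.Z s))
    (mem_Dg.1 ((G.nS hB).bs.grdZ.r16_deg ((G.nS hB).bs.G_alg a) ((G.nS hB).bs.G_alg μ)
      (G.nS hB).eG (Dg_of (hs.pull _ G.hp) rfl)))
  rwa [cl_r16] at h2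

include hU hs nE ht in
theorem g22 {T : (G.nS hB).bs.Z} (hT : T.1 ∈ (G.nS hB).bs.G 22) : ∃ c0 c1 : ℝ,
    r22 (algebraMap ℝ _ a) (algebraMap ℝ _ μ) (G.nS hB).E ((G.sp hB).mor.H (hB.nU.bs.cl s))
      ((G.nS hB).bs.cl T) = c0 • (G.nS hB).E ^ 11 +
      c1 • ((G.nS hB).E ^ 7 * (G.sp hB).mor.H (hB.nU.bs.cl s)) := by
  have h2 := G.gen hB hU hs (not_exact hU hB n nE hs ht) 11 (by norm_num)
    (r22 (algebraMap ℝ _ a) (algebraMap ℝ _ μ) (G.nS hB).eZ ((G.sp hB).mor.Z s) T)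
    (mem_Dg.1 ((G.nS hB).bs.grdZ.r22_deg ((G.nS hB).bs.G_alg a) ((G.nS hB).bs.G_alg μ)
      (G.nS hB).eG (Dg_of (hs.pull _ G.hp) rfl) hT))
  rwa [cl_r22] at h2

include hU hs nE ht in
theorem gA {T : (G.nS hB).bs.Z} (hT : IsDeg 28 T.1.1) : ∃ c0 c1 : ℝ,
    (G.nS hB).bs.cl T + (G.sA hB).mor.H ((G.nS hB).bs.cl T) = c0 • (G.nS hB).E ^ 14 +
      c1 • ((G.nS hB).E ^ 10 * (G.sp hB).mor.H (hB.nU.bs.cl s)) := by
  have h2 := G.gen28 hB hU hs (not_exact hU hB n nE hs ht) (T + (G.sA hB).mor.Z T)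
    (hT.add (hT.pull _ G.hA)) (by
      change G.SI (T.1.1 + Form.pull G.A G.hA T.1.1) = 0
      rw [map_add, G.SI_A, add_neg_cancel])
  rwa [map_add (G.nS hB).bs.cl] at h2

include nN nE nb ht in
theorem IT {T : (G.nS hB).bs.Z} (hT : IsDeg 28 T.1.1) {r : ℝ} (hr : G.SI T.1.1 = r • 1)
    (i k : ℕ) : G.IH hB hε hl ((G.nS hB).bs.cl T *
      ((G.nS hB).E ^ i * (G.sp hB).mor.H (hB.nU.bs.cl s) ^ k)) =
      r / (ε * S.k) * n.N (n.h * (n.f ^ i * n.t ^ k)) := by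
  have πu : hB.sπ.mor.H ((2⁻¹ : ℝ) • hB.nU.E) = n.f := by rw [← G.jpH, G.pu, G.ju hB n nE]
  rw [map_mon (G.sp hB).mor.H (G.pu hB) rfl, map_mon hB.sπ.mor.H πu ht, G.IH_T hB hε hl hT hr, nb,
    ← nN, n.two_N, inv_mul_cancel_left₀ two_ne_zero]

end Sig

/-- **the algebraic theorem** -/
theorem main (S : H584.Sys dB dU dM 1 D c) (hU : HU dU) (hB : HB S) (L : Lp S dX) (G : Sig L dS)
    {a μ : ℝ} {ρ : Form dB} (hρ : Basic S.φ S.hφ.map ρ)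
    (hrel : S.b1 ^ 2 = a • S.e ^ 6 + μ • (S.e ^ 2 * (S.G1 + S.G2)) + ρ.d) {ε : ℝ} (hε : ε ≠ 0)
    {l : Form dB} (hl : S.b1 = ε • S.b0 + l.d) (ha : a ≠ 0)
    (hv : S.I (S.α * S.α.d ^ 15) ≠ 0) : μ ^ 2 = -36 * a := by
  obtain ⟨n, nσ, nN, nE, nb, nG⟩ := hB.exists_numB hε hl hρ hrel ha hv
  obtain ⟨s, hs, ht, T22, T28, T34, T40, hT⟩ := L.level1 hB hU hε hl n nσ nN nE nb nG
  have hn := not_exact hU hB n nE hs ht
  obtain ⟨v, v1, hK, ev, hy, e1, e2, e3, jv⟩ := G.level2 hB hU hε hl n nE nb nG hs ht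
  obtain ⟨j22, j28, j34⟩ := hT.vals hK
  rw [e1, e2, e3, jv] at j22 j28 j34
  have rel := hT.rel' v
  rw [ev, hy] at rel
  have d28 : IsDeg 28 (v.mor.Z T28).1.1 := mem_Dg.1 (v.mor.G hT.G28)
  obtain ⟨lam, hlam⟩ := G.SI_const hU d28 ((G.nS hB).Z_d _)
  refine n.lev2 (G.sj hB).mor.H (G.sA hB).mor.H (G.IH hB hε hl) (G.ju hB n nE)
    ((G.jpH hB _).trans ht) j22 j28 j34 rel ((G.sA hB).H_E.trans (one_smul _ _))
    (G.IH_A hB hε hl) (fun w => by rw [nσ, G.jAH]) (fun i k => ?_)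
    (G.IT hB hε hl n nN nE nb ht d28 hlam) (G.g16 hB hU n nE hs ht)
    (G.g22 hB hU n nE hs ht (v.mor.G hT.G22)) (G.gA hB hU n nE hs ht d28) (fun h => ?_)
    (fun h => G.gen34 hB hU hs hn _ d28 hlam (fun h0 => h (by rw [h0, zero_div])) _
      (mem_Dg.1 (v.mor.G hT.G34)))
  · rw [map_mon (G.sp hB).mor.H (G.pu hB) rfl]
    exact G.IH_p hB hε hl _
  · refine G.gen28 hB hU hs hn _ d28 ?_
    rw [hlam, (div_eq_zero_iff.1 h).resolve_right (mul_ne_zero hε S.hk), zero_smul]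

end Vale.Agent.P231Z.Alg
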