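import Vale.Agent.P231Z.Alg.Car

/-!
# P231, Cayley case, algebra (5): the relative cohomology of the Cartan model
-/

set_option linter.unusedSectionVars false
set_option linter.unusedVariables false

namespace Vale.Agent.P231Z.Alg

open Polynomial

variable {R : Type*} [Ring R] [Algebra ℝ R]

/-- relatively exact elements -/
def SD.Rx (s : SD R) (n : ℤ) (a : R) : Prop := ∃ b, b ∈ s.G (n - 1) ∧ b ∈ s.K ∧ a = s.d b

namespace SD.Rx

variable {s : SD R} {n : ℤ} {a a' : R}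

theorem zero : s.Rx n 0 := ⟨0, Submodule.zero_mem _, Submodule.zero_mem _, (map_zero _).symm⟩

theorem add (h : s.Rx n a) (h' : s.Rx n a') : s.Rx n (a + a') := by
  obtain ⟨b, h1, h2, rfl⟩ := h
  obtain ⟨b', h1', h2', rfl⟩ := h'
  exact ⟨b + b', Submodule.add_mem _ h1 h1', Submodule.add_mem _ h2 h2', (map_add _ _ _).symm⟩

theorem smul (r : ℝ) (h : s.Rx n a) : s.Rx n (r • a) := by
  obtain ⟨b, h1, h2, rfl⟩ := h
  exact ⟨r • b, Submodule.smul_mem _ _ h1, Submodule.smul_mem _ _ h2, (map_smul _ _ _).symm⟩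

theorem sub (h : s.Rx n a) (h' : s.Rx n a') : s.Rx n (a - a') := by
  have := h.add (h'.smul (-1))
  rwa [neg_one_smul, ← sub_eq_add_neg] at this

theorem cast {m : ℤ} (h : s.Rx n a) (e : n = m) : s.Rx m a := e ▸ h

theorem congr (h : s.Rx n a) (e : a = a') : s.Rx n a' := e ▸ h

end SD.Rx

namespace Car

variable (c : Car R)

/-- the relative cohomology of the forms -/
structure Coh : Prop where
  ex : ∀ j : ℤ, j ≠ 7 → j ≠ 15 → j ≠ 30 → j ≠ 38 → ∀ a, a ∈ c.s.G j → a ∈ c.s.K →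
    c.s.d a = 0 → c.s.Rx j a
  one : ∀ j : ℤ, j = 7 ∨ j = 15 ∨ j = 30 ∨ j = 38 → ∀ a a', a ∈ c.s.G j → a ∈ c.s.K →
    c.s.d a = 0 → a' ∈ c.s.G j → a' ∈ c.s.K → c.s.d a' = 0 → ¬ c.s.Rx j a' →
    ∃ r : ℝ, c.s.Rx j (a - r • a')

/-- a family of functionals -/
structure Pair where
  Λ : ℕ → ℕ → R[X][X] →ₗ[ℝ] ℝ
  K : ∀ k ε y, y ∈ c.s2.K → Λ k ε (c.s2.d y) = 0
  u : ∀ k ε y, Λ k ε (c.u.1 * y) = Λ (k + 1) ε y

variable {c}

theorem Rx_X_pow {n : ℤ} {p : R[X]} (h : c.s1.Rx n p) (i : ℕ) :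
    c.s1.Rx (n + 2 * i) (X ^ i * p) := by
  obtain ⟨b, h1, h2, rfl⟩ := h
  exact ⟨X ^ i * b, c.s1.cast (c.s1.G_mul (c.s1.G_pow c.G1_X i) h1) (by ring), c.s1.K_l _ h2,
    (c.d1_X_pow_mul i b).symm⟩

theorem X_cancel {p q : R[X]} (h : X * p = X * q) : p = q := by
  ext n
  rw [← coeff_X_mul p, h, coeff_X_mul]

theorem exists_div {n : ℤ} {q : R[X]} (hG : q ∈ c.s1.G n) (hK : q ∈ c.s1.K)
    (h0 : q.coeff 0 = 0) : ∃ q', q' ∈ c.s1.G (n - 2) ∧ q' ∈ c.s1.K ∧ q = X * q' := by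
  refine ⟨divX q, fun i => ?_, fun i => ?_, ?_⟩
  · rw [coeff_divX]
    exact c.s.cast (hG (i + 1)) (by push_cast; ring)
  · rw [coeff_divX]
    exact hK _
  · have := X_mul_divX_add q
    rw [h0, map_zero, add_zero] at this
    exact this.symm

theorem G1_coeff {n : ℤ} {p : R[X]} (h : p ∈ c.s1.G n) : p.coeff 0 ∈ c.s.G n :=
  c.s.cast (h 0) (by simp)

namespace Pair

variable (π : c.Pair)

/-- the functionals on the first level -/
noncomputable def P (k ε : ℕ) (p : R[X]) : ℝ := π.Λ k ε (C p)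

theorem P_add (k ε : ℕ) (p q : R[X]) : π.P k ε (p + q) = π.P k ε p + π.P k ε q := by
  rw [P, map_add, map_add, P, P]

theorem P_sub (k ε : ℕ) (p q : R[X]) : π.P k ε (p - q) = π.P k ε p - π.P k ε q := by
  rw [P, map_sub, map_sub, P, P]

theorem P_smul (k ε : ℕ) (r : ℝ) (p : R[X]) : π.P k ε (r • p) = r * π.P k ε p := by
  rw [P, ← smul_C, map_smul, P, smul_eq_mul]

theorem P_zero (k ε : ℕ) : π.P k ε 0 = 0 := by rw [P, map_zero, map_zero]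

theorem P_d (k ε : ℕ) {p : R[X]} (h : p ∈ c.s1.K) : π.P k ε (c.s1.d p) = 0 := by
  rw [P, ← c.d2_C]
  exact π.K k ε _ (c.K2_C h)

theorem P_Rx (k ε : ℕ) {n : ℤ} {p : R[X]} (h : c.s1.Rx n p) : π.P k ε p = 0 := by
  obtain ⟨b, -, h2, rfl⟩ := h
  exact π.P_d k ε h2

theorem P_X_pow (k ε i : ℕ) (p : R[X]) : π.P k ε (X ^ i * p) = π.P (k + i) ε p := by
  induction i generalizing k with
  | zero => simp
  | succ i ih =>
    rw [pow_succ', mul_assoc, P, map_mul]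
    refine (π.u k ε _).trans ?_
    rw [← P, ih, add_assoc, add_comm 1 i]

end Pair

variable (c)

/-- first generator -/
noncomputable def g0 (n : ℤ) : R[X] :=
  if 7 ≤ n ∧ n % 2 = 1 then X ^ ((n - 7) / 2).toNat * C c.A else 0

/-- second generator -/
noncomputable def g1 (n : ℤ) : R[X] :=
  if 15 ≤ n ∧ n % 2 = 1 then X ^ ((n - 15) / 2).toNat * C (c.x * c.A) else 0

theorem g0_eq (i : ℕ) {n : ℤ} (h : n = 7 + 2 * i) : c.g0 n = X ^ i * C c.A := by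
  rw [g0, if_pos (by omega), show ((n - 7) / 2).toNat = i by omega]

theorem g1_eq (i : ℕ) {n : ℤ} (h : n = 15 + 2 * i) : c.g1 n = X ^ i * C (c.x * c.A) := by
  rw [g1, if_pos (by omega), show ((n - 15) / 2).toNat = i by omega]

theorem g0_zero {n : ℤ} (h : n < 7 ∨ n % 2 = 0) : c.g0 n = 0 := if_neg (by omega)

theorem g1_zero {n : ℤ} (h : n < 15 ∨ n % 2 = 0) : c.g1 n = 0 := if_neg (by omega)

theorem X_g0 {n : ℤ} (h : n ≠ 7) : X * c.g0 (n - 2) = c.g0 n := by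
  by_cases h1 : n < 7 ∨ n % 2 = 0
  · rw [c.g0_zero h1, c.g0_zero (by omega), mul_zero]
  · obtain ⟨i, hi⟩ : ∃ i : ℕ, n = 7 + 2 * ((i + 1 : ℕ) : ℤ) := ⟨((n - 9) / 2).toNat, by omega⟩
    rw [c.g0_eq _ hi, c.g0_eq i (by omega), pow_succ', mul_assoc]

theorem X_g1 {n : ℤ} (h : n ≠ 15) : X * c.g1 (n - 2) = c.g1 n := by
  by_cases h1 : n < 15 ∨ n % 2 = 0
  · rw [c.g1_zero h1, c.g1_zero (by omega), mul_zero]
  · obtain ⟨i, hi⟩ : ∃ i : ℕ, n = 15 + 2 * ((i + 1 : ℕ) : ℤ) :=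
      ⟨((n - 17) / 2).toNat, by omega⟩
    rw [c.g1_eq _ hi, c.g1_eq i (by omega), pow_succ', mul_assoc]

/-- the generation statement in degree `n` -/
def NN (n : ℤ) : Prop := ∀ p, p ∈ c.s1.G n → p ∈ c.s1.K → c.s1.d p = 0 →
  ∃ c0 c1 : ℝ, c.s1.Rx n (p - c0 • c.g0 n - c1 • c.g1 n)

variable {c}

theorem stepS {n : ℤ} (ih : c.NN (n - 2)) {p : R[X]} (hG : p ∈ c.s1.G n) (hK : p ∈ c.s1.K)
    (hd : c.s1.d p = 0) (h0 : c.s.Rx n (p.coeff 0)) :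
    ∃ c0 c1 : ℝ, c.s1.Rx n (p - c0 • (X * c.g0 (n - 2)) - c1 • (X * c.g1 (n - 2))) := by
  obtain ⟨b, hb1, hb2, hb⟩ := h0
  have h1 : c.s1.Rx n (c.s1.d (C b)) := ⟨C b, c.G1_C hb1, c.K1_C hb2, rfl⟩
  obtain ⟨q, q1, q2, hq⟩ := exists_div (c := c) (n := n) (q := p - c.s1.d (C b))
    (Submodule.sub_mem _ hG (c.s1.cast (c.s1.G_d (c.G1_C hb1)) (by ring)))
    (Submodule.sub_mem _ hK (c.s1.K_d (c.K1_C hb2)))
    (by rw [coeff_sub, c.d1_coeff, coeff_C_zero, hb, sub_self])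
  have h2 : c.s1.d q = 0 := X_cancel (by
    rw [← c.d1_X_mul, ← hq, map_sub, hd, c.s1.d_d, sub_zero, mul_zero])
  obtain ⟨c0, c1, h3⟩ := ih q q1 q2 h2
  refine ⟨c0, c1, (h1.add ((Rx_X_pow h3 1).cast (by push_cast; ring))).congr ?_⟩
  rw [pow_one, mul_sub, mul_sub, ← hq, mul_smul_comm, mul_smul_comm]
  abel

theorem killz (π : c.Pair) {n : ℤ} {z : R} (zG : z ∈ c.s.G n) (zK : z ∈ c.s.K)
    (zd : c.s.d z = 0) {k ε : ℕ} (hz : π.P k ε (C (c.J z)) ≠ 0) {p : R[X]} (hG : p ∈ c.s1.G n)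
    (hK : p ∈ c.s1.K) (hd : c.s1.d p = 0) {r : ℝ} (h0 : c.s.Rx n (p.coeff 0 - r • z)) :
    r = 0 := by
  obtain ⟨b, hb1, hb2, hb⟩ := h0
  obtain ⟨q, q1, q2, hq⟩ := exists_div (c := c) (n := n) (q := p - r • C z - c.s1.d (C b))
    (Submodule.sub_mem _ (Submodule.sub_mem _ hG (Submodule.smul_mem _ _ (c.G1_C zG)))
      (c.s1.cast (c.s1.G_d (c.G1_C hb1)) (by ring)))
    (Submodule.sub_mem _ (Submodule.sub_mem _ hK (Submodule.smul_mem _ _ (c.K1_C zK)))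
      (c.s1.K_d (c.K1_C hb2)))
    (by rw [coeff_sub, coeff_sub, coeff_smul, c.d1_coeff, coeff_C_zero, coeff_C_zero, hb,
      sub_self])
  have h2 : c.s1.d q = r • C (c.J z) := X_cancel (by
    rw [← c.d1_X_mul, ← hq, map_sub, map_sub, hd, c.s1.d_d, map_smul, c.d1_C, zd, map_zero,
      zero_sub, zero_sub, sub_zero, smul_neg, neg_neg, mul_smul_comm])
  have h3 := π.P_d k ε q2
  rw [h2, π.P_smul] at h3
  exact (mul_eq_zero.1 h3).resolve_right hz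

theorem stepZ (hc : c.Coh) (π : c.Pair) {n : ℤ} (hn : n = 30 ∨ n = 38) {z : R}
    (zG : z ∈ c.s.G n) (zK : z ∈ c.s.K) (zd : c.s.d z = 0) {k ε : ℕ}
    (hz : π.P k ε (C (c.J z)) ≠ 0) {p : R[X]} (hG : p ∈ c.s1.G n) (hK : p ∈ c.s1.K)
    (hd : c.s1.d p = 0) : c.s.Rx n (p.coeff 0) := by
  have h1 : ¬ c.s.Rx n z := fun h => by
    have h2 := killz π zG zK zd hz (Submodule.zero_mem _) (Submodule.zero_mem _) (map_zero _)
      (r := -1) (h.congr (by simp))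
    norm_num at h2
  obtain ⟨r, hr⟩ := hc.one n (by omega) _ z (G1_coeff hG) (hK 0)
    (by rw [← c.d1_coeff, hd, coeff_zero]) zG zK zd h1
  have h2 := killz π zG zK zd hz hG hK hd hr
  rwa [h2, zero_smul, sub_zero] at hr

theorem stepG (hc : c.Coh) {n : ℤ} (hn : n = 7 ∨ n = 15) (ih : c.NN (n - 2)) {z : R}
    (zG : z ∈ c.s.G n) (zK : z ∈ c.s.K) (zd : c.s1.d (C z) = 0)
    (hz : ∀ c0 c1 : ℝ, ¬ c.s1.Rx n (C z - c0 • (X * c.g0 (n - 2)) - c1 • (X * c.g1 (n - 2))))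
    {p : R[X]} (hG : p ∈ c.s1.G n) (hK : p ∈ c.s1.K) (hd : c.s1.d p = 0) :
    ∃ r c0 c1 : ℝ, c.s1.Rx n
      (p - r • C z - c0 • (X * c.g0 (n - 2)) - c1 • (X * c.g1 (n - 2))) := by
  have zd0 : c.s.d z = 0 := by
    have := c.d1_coeff (C z)
    rwa [zd, coeff_zero, coeff_C_zero, eq_comm] at this
  have h1 : ¬ c.s.Rx n z := fun h => by
    obtain ⟨c0, c1, h2⟩ := stepS ih (c.G1_C zG) (c.K1_C zK) zd (by rwa [coeff_C_zero])
    exact hz c0 c1 h2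
  obtain ⟨r, hr⟩ := hc.one n (by omega) _ z (G1_coeff hG) (hK 0)
    (by rw [← c.d1_coeff, hd, coeff_zero]) zG zK zd0 h1
  obtain ⟨c0, c1, h2⟩ := stepS ih (p := p - r • C z)
    (Submodule.sub_mem _ hG (Submodule.smul_mem _ _ (c.G1_C zG)))
    (Submodule.sub_mem _ hK (Submodule.smul_mem _ _ (c.K1_C zK)))
    (by rw [map_sub, map_smul, hd, zd, smul_zero, sub_zero])
    (by rwa [coeff_sub, coeff_smul, coeff_C_zero])
  exact ⟨r, c0, c1, h2⟩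

theorem xA_G : c.x * c.A ∈ c.s.G 15 := c.s.cast (c.s.G_mul c.xG c.AG) (by norm_num)

theorem xA_K : c.x * c.A ∈ c.s.K := c.s.K_l _ c.AK

theorem d1_xA : c.s1.d (C (c.x * c.A)) = 0 := by
  have h1 : c.J (c.x * c.A) = 0 := by
    rw [c.hJ.mul, c.JA, mul_zero, add_zero]
    exact c.AA
  rw [c.d1_C, c.s.d_mul, c.xd, c.Ad, h1, zero_mul, mul_zero, add_zero, map_zero, mul_zero,
    sub_zero]

/-- the numbers which are not zero -/
structure Nz (π : c.Pair) (z30 z38 : R) : Prop where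
  G30 : z30 ∈ c.s.G 30
  K30 : z30 ∈ c.s.K
  d30 : c.s.d z30 = 0
  G38 : z38 ∈ c.s.G 38
  K38 : z38 ∈ c.s.K
  d38 : c.s.d z38 = 0
  n1 : π.P 15 0 (C c.A) ≠ 0
  n2 : π.P 15 0 (C c.A) * π.P 7 1 (C (c.x * c.A)) -
    π.P 11 1 (C c.A) * π.P 11 0 (C (c.x * c.A)) ≠ 0
  n3 : π.P 0 1 (C (c.J z30)) ≠ 0
  n4 : π.P 0 0 (C (c.J z38)) ≠ 0

variable (hc : c.Coh) {π : c.Pair} {z30 z38 : R} (hz : Nz π z30 z38)
include hc hz

theorem nn_step {n : ℤ} (ih : c.NN (n - 2)) : c.NN n := by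
  intro p hG hK hd
  by_cases h7 : n = 7
  · subst h7
    have e0 : c.g0 (7 - 2) = 0 := c.g0_zero (by omega)
    have e1 : c.g1 (7 - 2) = 0 := c.g1_zero (by omega)
    obtain ⟨r, c0, c1, h⟩ := stepG hc (Or.inl rfl) ih c.AG c.AK c.d1_A (fun c0 c1 h => by
      rw [e0, e1, mul_zero, smul_zero, smul_zero, sub_zero, sub_zero] at h
      exact hz.n1 (π.P_Rx _ _ h)) hG hK hd
    refine ⟨r, 0, h.congr ?_⟩
    rw [e0, e1, c.g0_eq 0 (by norm_num)]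
    simp
  by_cases h15 : n = 15
  · subst h15
    have e0 : X * c.g0 (15 - 2) = X ^ 4 * C c.A := by
      rw [c.X_g0 (by norm_num), c.g0_eq 4 (by norm_num)]
    have e1 : c.g1 (15 - 2) = 0 := c.g1_zero (by omega)
    obtain ⟨r, c0, c1, h⟩ := stepG hc (Or.inr rfl) ih xA_G xA_K d1_xA (fun c0 c1 h => by
      rw [e0, e1, mul_zero, smul_zero, sub_zero] at h
      have h1 := π.P_Rx 11 0 h
      have h2 := π.P_Rx 7 1 h
      rw [π.P_sub, π.P_smul, π.P_X_pow] at h1 h2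
      apply hz.n2
      linear_combination π.P 15 0 (C c.A) * h2 - π.P 11 1 (C c.A) * h1) hG hK hd
    refine ⟨c0, r, h.congr ?_⟩
    rw [e0, e1, c.g0_eq 4 (by norm_num), c.g1_eq 0 (by norm_num)]
    simp only [pow_zero, one_mul, mul_zero, smul_zero, sub_zero]
    abel
  have h0 : c.s.Rx n (p.coeff 0) := by
    by_cases h30 : n = 30
    · subst h30
      exact stepZ hc π (Or.inl rfl) hz.G30 hz.K30 hz.d30 hz.n3 hG hK hd
    by_cases h38 : n = 38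
    · subst h38
      exact stepZ hc π (Or.inr rfl) hz.G38 hz.K38 hz.d38 hz.n4 hG hK hd
    exact hc.ex n h7 h15 h30 h38 _ (G1_coeff hG) (hK 0) (by rw [← c.d1_coeff, hd, coeff_zero])
  obtain ⟨c0, c1, h⟩ := stepS ih hG hK hd h0
  rw [c.X_g0 h7, c.X_g1 h15] at h
  exact ⟨c0, c1, h⟩

theorem nn (n : ℤ) : c.NN n := by
  have h : ∀ m : ℕ, ∀ n : ℤ, n < m → c.NN n := by
    intro m
    induction m with
    | zero =>
      intro n hn p hG _ _
      refine ⟨0, 0, SD.Rx.zero.congr ?_⟩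
      rw [c.s1.G_neg (by exact_mod_cast hn) hG]
      simp
    | succ m ih => exact fun n hn => nn_step hc hz (ih _ (by push_cast at hn; omega))
  exact h (n.toNat + 1) n (by omega)

omit hc hz in
theorem Rx_XJ {n : ℤ} {z : R} (zG : z ∈ c.s.G n) (zK : z ∈ c.s.K) (zd : c.s.d z = 0) :
    c.s1.Rx (n + 1) (X * C (c.J z)) :=
  ⟨-C z, c.s1.cast (Submodule.neg_mem _ (c.G1_C zG)) (by ring),
    Submodule.neg_mem _ (c.K1_C zK), by rw [map_neg, c.d1_C, zd, map_zero, zero_sub, neg_neg]⟩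

omit hc hz in
theorem d1_CJ {z : R} (zd : c.s.d z = 0) : c.s1.d (C (c.J z)) = 0 := by
  have h := c.Jd z
  rw [zd, map_zero] at h
  rw [c.d1_C, neg_eq_zero.1 h.symm, c.JJ, map_zero, mul_zero, sub_zero]

theorem rel1 : ∃ ρ : ℝ, c.s1.Rx 31 (X ^ 8 * C (c.x * c.A) - ρ • (X ^ 12 * C c.A)) := by
  obtain ⟨d0, d1, h⟩ := nn hc hz 29 (C (c.J z30))
    (c.G1_C (c.s.cast (c.hJ.G hz.G30) (by norm_num))) (c.K1_C (c.JK _)) (d1_CJ hz.d30)
  rw [c.g0_eq 11 (by norm_num), c.g1_eq 7 (by norm_num)] at h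
  have h1 : c.s1.Rx 31 (d0 • (X ^ 12 * C c.A) + d1 • (X ^ 8 * C (c.x * c.A))) := by
    refine (((Rx_XJ hz.G30 hz.K30 hz.d30).cast (by norm_num)).sub
      ((Rx_X_pow h 1).cast (by norm_num))).congr ?_
    rw [pow_one, mul_sub, mul_sub, mul_smul_comm, mul_smul_comm, ← mul_assoc, ← mul_assoc,
      ← pow_succ', ← pow_succ']
    abel
  have h2 := π.P_Rx 3 0 h1
  have h3 := π.P_Rx 0 1 h
  rw [π.P_add, π.P_smul, π.P_smul, π.P_X_pow, π.P_X_pow] at h2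
  rw [π.P_sub, π.P_sub, π.P_smul, π.P_smul, π.P_X_pow, π.P_X_pow] at h3
  have h4 : d1 ≠ 0 := by
    rintro rfl
    have h5 : d0 = 0 := by
      rw [zero_mul, add_zero] at h2
      exact (mul_eq_zero.1 h2).resolve_right hz.n1
    rw [h5, zero_mul, zero_mul, sub_zero, sub_zero] at h3
    exact hz.n3 h3
  refine ⟨-(d0 / d1), (h1.smul d1⁻¹).congr ?_⟩
  rw [smul_add, smul_smul, smul_smul, inv_mul_cancel₀ h4, one_smul, neg_smul, sub_neg_eq_add,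
    add_comm, div_eq_inv_mul]

theorem rel2 : c.s1.Rx 39 (X ^ 16 * C c.A) := by
  obtain ⟨ρ, hρ⟩ := rel1 hc hz
  obtain ⟨f0, f1, h⟩ := nn hc hz 37 (C (c.J z38))
    (c.G1_C (c.s.cast (c.hJ.G hz.G38) (by norm_num))) (c.K1_C (c.JK _)) (d1_CJ hz.d38)
  rw [c.g0_eq 15 (by norm_num), c.g1_eq 11 (by norm_num)] at h
  have h1 : c.s1.Rx 37 (C (c.J z38) - (f0 + f1 * ρ) • (X ^ 15 * C c.A)) := by
    refine (h.add (((Rx_X_pow hρ 3).cast (by norm_num)).smul f1)).congr ?_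
    rw [mul_sub, mul_smul_comm, ← mul_assoc, ← mul_assoc, ← pow_add, ← pow_add]
    module
  have h2 : f0 + f1 * ρ ≠ 0 := fun h0 => by
    rw [h0, zero_smul, sub_zero] at h1
    exact hz.n4 (π.P_Rx _ _ h1)
  refine ((((Rx_XJ hz.G38 hz.K38 hz.d38).cast (by norm_num)).sub
    ((Rx_X_pow h1 1).cast (by norm_num))).smul (f0 + f1 * ρ)⁻¹).congr ?_
  rw [pow_one, mul_sub, sub_sub_cancel, mul_smul_comm, smul_smul, inv_mul_cancel₀ h2, one_smul,
    ← mul_assoc, ← pow_succ']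

/-- a closed relative element whose pairings vanish is exact -/
theorem inj {n : ℤ} {p : R[X]} (hG : p ∈ c.s1.G n) (hK : p ∈ c.s1.K) (hd : c.s1.d p = 0)
    (t0 : ∀ k : ℕ, n + 2 * k = 37 → π.P k 0 p = 0)
    (t1 : ∀ k : ℕ, n + 2 * k = 29 → π.P k 1 p = 0) : c.s1.Rx n p := by
  obtain ⟨c0, c1, h⟩ := nn hc hz n p hG hK hd
  by_cases h1 : n < 7 ∨ n % 2 = 0
  · rw [c.g0_zero h1, c.g1_zero (by omega)] at h
    simpa using h
  obtain ⟨i, hi⟩ : ∃ i : ℕ, n = 7 + 2 * (i : ℤ) := ⟨((n - 7) / 2).toNat, by omega⟩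
  rw [c.g0_eq i hi] at h
  have key : ∀ r : ℝ, c.s1.Rx n (p - r • (X ^ i * C c.A)) → c.s1.Rx n p := by
    intro r hr
    by_cases h15 : i ≤ 15
    · obtain ⟨k, hk⟩ : ∃ k, k + i = 15 := ⟨15 - i, by omega⟩
      have h2 := π.P_Rx k 0 hr
      rw [π.P_sub, π.P_smul, π.P_X_pow, hk, t0 k (by omega), zero_sub, neg_eq_zero] at h2
      rw [(mul_eq_zero.1 h2).resolve_right hz.n1] at hr
      simpa using hr
    · obtain ⟨k, rfl⟩ : ∃ k, i = k + 16 := ⟨i - 16, by omega⟩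
      refine (hr.add (((Rx_X_pow (rel2 hc hz) k).cast (by push_cast at hi; omega)).smul r)).congr
        ?_
      rw [← mul_assoc, ← pow_add, sub_add_cancel]
  by_cases h4 : i < 4
  · rw [c.g1_zero (by omega), smul_zero, sub_zero] at h
    exact key _ h
  obtain ⟨j, rfl⟩ : ∃ j, i = j + 4 := ⟨i - 4, by omega⟩
  rw [c.g1_eq j (by push_cast at hi; omega)] at h
  by_cases h8 : j < 8
  · obtain ⟨k, hk⟩ : ∃ k, k + j = 7 := ⟨7 - j, by omega⟩
    have h2 := π.P_Rx (k + 4) 0 h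
    have h3 := π.P_Rx k 1 h
    rw [π.P_sub, π.P_sub, π.P_smul, π.P_smul, π.P_X_pow, π.P_X_pow] at h2 h3
    rw [t0 _ (by push_cast at hi ⊢; omega), show k + 4 + (j + 4) = 15 by omega,
      show k + 4 + j = 11 by omega] at h2
    rw [t1 _ (by push_cast at hi ⊢; omega), show k + (j + 4) = 11 by omega, hk] at h3
    have h5 : c1 = 0 := by
      refine (mul_eq_zero.1 ?_).resolve_right hz.n2
      linear_combination π.P 11 1 (C c.A) * h2 - π.P 15 0 (C c.A) * h3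
    rw [h5, zero_smul, sub_zero] at h
    exact key _ h
  · obtain ⟨k, rfl⟩ : ∃ k, j = k + 8 := ⟨j - 8, by omega⟩
    obtain ⟨ρ, hρ⟩ := rel1 hc hz
    refine key (c0 + c1 * ρ) ((h.add (((Rx_X_pow hρ k).cast
      (by push_cast at hi; omega)).smul c1)).congr ?_)
    rw [mul_sub, mul_smul_comm, ← mul_assoc, ← mul_assoc, ← pow_add, ← pow_add,
      show k + 12 = k + 8 + 4 by omega]
    module

end Car

end Vale.Agent.P231Z.Alg
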