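import Mathlib

/-!
# P231, Cayley case, algebra (6): the polynomials and the identity between them
-/

set_option linter.unusedSectionVars false
set_option linter.unusedVariables false
set_option linter.unusedSimpArgs false

namespace Vale.Agent.P231Z.Alg

section Defs

variable {R : Type*} [CommRing R]

/-- `Q₃` -/
def Q3 (x u z : R) : R := u ^ 2 * z ^ 3 + 3 * x * u * z ^ 2 + 3 * x ^ 2 * z

/-- `Q₄` -/
def Q4 (x u z : R) : R := u ^ 2 * z ^ 4 + 4 * x * u * z ^ 3 + 6 * x ^ 2 * z ^ 2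

/-- `Q₅` -/
def Q5 (x u z : R) : R := u ^ 2 * z ^ 5 + 5 * x * u * z ^ 4 + 10 * x ^ 2 * z ^ 3

/-- `Q₆` -/
def Q6 (x u z : R) : R := u ^ 2 * z ^ 6 + 6 * x * u * z ^ 5 + 15 * x ^ 2 * z ^ 4

/-- `k₂₈` -/
def k28 (a m x u : R) : R := (m ^ 2 - 3 * a) * x ^ 2 * u ^ 6 + a * m * x * u ^ 10

/-- the generator of degree 28 -/
def g28 (a m x u z : R) : R := 3 * Q4 x u z + k28 a m x u

/-- the generator of degree 34 -/
def g34 (a m x u z : R) : R := 3 * (m ^ 2 - 3 * a) * Q5 x u z +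
  5 * (m ^ 2 - 3 * a) * k28 a m x u * z - (5 * m ^ 2 * a ^ 2 - 6 * a ^ 3) * x * u ^ 13

/-- the generator of degree 40 -/
def g40 (a m x u z : R) : R := (m ^ 2 - 3 * a) * Q6 x u z +
  5 * (m ^ 2 - 3 * a) * k28 a m x u * z ^ 2 - (10 * m ^ 2 * a ^ 2 - 12 * a ^ 3) * x * u ^ 13 * z

/-- a primitive -/
def p14 (x u z : R) : R := 2 * x * z + u * z ^ 2

/-- a primitive -/
def p36 (x u z : R) : R := 15 * x ^ 3 * z ^ 2 + 2 * u * Q5 x u z

/-- the relation of degree 16 -/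
def r16 (a m u y : R) : R := 3 * y ^ 2 + 64 * a * u ^ 8 + 8 * m * u ^ 4 * y

/-- the relation of degree 22 -/
def r22 (a m u y t22 : R) : R := t22 + 192 * a * y * u ^ 7 + 24 * m * y ^ 2 * u ^ 3

/-- a coefficient -/
def cc1 (a m : R) : R :=
  424673280 * a ^ 4 - 283132800 * a ^ 3 * m ^ 2 + 47327040 * a ^ 2 * m ^ 4 - 88320 * a * m ^ 6 +
    14400 * m ^ 8

/-- a cofactor -/
def hh1 (a m u y t22 t28 t34 t40 : R) : R :=
  (-110592 * a ^ 2 + 36864 * a * m ^ 2) * (u * t40) + (-80953344 * a ^ 4 + 55298160 * a ^ 3 * m ^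
    2 - 9881640 * a ^ 2 * m ^ 4 + 77280 * a * m ^ 6 - 13320 * m ^ 8) * (y * u ^ 6 * t22) +
    (-7299072 * a ^ 3 * m + 3534354 * a ^ 2 * m ^ 3 - 365445 * a * m ^ 5 - 555 * m ^ 7) * (y ^ 2
    * u ^ 2 * t22) + (221184 * a ^ 2 - 73728 * a * m ^ 2) * (y * t34) + (442368 * a ^ 4 - 731520
    * a ^ 3 * m ^ 2 + 300480 * a ^ 2 * m ^ 4 + 1600 * a * m ^ 6) * (u ^ 7 * t28) + (-73728 * a ^
    2 * m + 61440 * a * m ^ 3) * (u ^ 4 * t34) + (18800640 * a ^ 3 * m - 11978910 * a ^ 2 * m ^ 3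
    + 1903335 * a * m ^ 5 + 225 * m ^ 7) * (y * u ^ 3 * t28)

/-- a cofactor -/
def hh3 (a m u y t22 t28 : R) : R :=
  (3317760 * a ^ 3 * m - 2198070 * a ^ 2 * m ^ 3 + 359055 * a * m ^ 5 + 1665 * m ^ 7) * (y * u ^
    3 * t22) + (-1658880 * a ^ 3 + 1105920 * a ^ 2 * m ^ 2 - 184320 * a * m ^ 4) * (y * t28) +
    (26542080 * a ^ 4 - 17701200 * a ^ 3 * m ^ 2 + 2993400 * a ^ 2 * m ^ 4 - 27360 * a * m ^ 6 +
    4440 * m ^ 8) * (u ^ 7 * t22) + (-6635520 * a ^ 3 * m + 4418010 * a ^ 2 * m ^ 3 - 733365 * a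
    * m ^ 5 - 675 * m ^ 7) * (u ^ 4 * t28)

/-- the main relation -/
def rel58 (a m u y t28 t34 : R) : R :=
  122880 * a * (m ^ 2 - 3 * a) ^ 2 * (u * t28 ^ 2) + cc1 a m * (y ^ 2 * u ^ 7 * t28) +
    20480 * a * m ^ 3 * (m ^ 2 - 3 * a) * (u ^ 12 * t34)

/-- the identity -/
def idn (a m u y t22 t28 t34 t40 : R) : R :=
  rel58 a m u y t28 t34 + r16 a m u y * hh1 a m u y t22 t28 t34 t40 +
    r22 a m u y t22 * hh3 a m u y t22 t28

theorem idn_zero (a m x u z : R) (hx : x ^ 3 = 0) :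
    idn a m u (x + u * z) (Q3 x u z) (g28 a m x u z) (g34 a m x u z) (g40 a m x u z) = 0 := by
  simp only [idn, rel58, r16, r22, hh1, hh3, cc1, Q3, g28, g34, g40, Q4, Q5, Q6, k28]
  linear_combination (311869440 * a ^ 5 * m * u ^ 17 - 308551680 * a ^ 5 * x * u ^ 13 - 254803968 * a ^ 5 * u ^ 14
      * z - 379883520 * a ^ 4 * m ^ 3 * u ^ 17 + 351682560 * a ^ 4 * m ^ 2 * x * u ^ 13 +
      461168640 * a ^ 4 * m ^ 2 * u ^ 14 * z - 49766400 * a ^ 4 * m * x ^ 2 * u ^ 9 + 442920960 *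
      a ^ 4 * m * x * u ^ 10 * z + 237883392 * a ^ 4 * m * u ^ 11 * z ^ 2 - 683790336 * a ^ 4 * x
      ^ 2 * u ^ 6 * z - 755453952 * a ^ 4 * x * u ^ 7 * z ^ 2 - 250822656 * a ^ 4 * u ^ 8 * z ^ 3
      + 148377600 * a ^ 3 * m ^ 5 * u ^ 17 - 152611290 * a ^ 3 * m ^ 4 * x * u ^ 13 - 221736960 *
      a ^ 3 * m ^ 4 * u ^ 14 * z + 44772750 * a ^ 3 * m ^ 3 * x ^ 2 * u ^ 9 - 514916352 * a ^ 3 *
      m ^ 3 * x * u ^ 10 * z - 259117056 * a ^ 3 * m ^ 3 * u ^ 11 * z ^ 2 + 516594672 * a ^ 3 * m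
      ^ 2 * x ^ 2 * u ^ 6 * z + 628071408 * a ^ 3 * m ^ 2 * x * u ^ 7 * z ^ 2 + 211016016 * a ^ 3
      * m ^ 2 * u ^ 8 * z ^ 3 - 65691648 * a ^ 3 * m * x ^ 3 * u ^ 2 * z + 7962624 * a ^ 3 * m *
      x * u ^ 4 * z ^ 3 + 1990656 * a ^ 3 * m * u ^ 5 * z ^ 4 - 149299200 * a ^ 3 * x ^ 2 * z ^ 3
      - 74649600 * a ^ 3 * x * u * z ^ 4 - 14929920 * a ^ 3 * u ^ 2 * z ^ 5 - 18493440 * a ^ 2 *
      m ^ 7 * u ^ 17 + 30224565 * a ^ 2 * m ^ 6 * x * u ^ 13 + 18247680 * a ^ 2 * m ^ 6 * u ^ 14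
      * z - 13253625 * a ^ 2 * m ^ 5 * x ^ 2 * u ^ 9 + 113356800 * a ^ 2 * m ^ 5 * x * u ^ 10 * z
      + 53637120 * a ^ 2 * m ^ 5 * u ^ 11 * z ^ 2 - 147441384 * a ^ 2 * m ^ 4 * x ^ 2 * u ^ 6 * z
      - 212801256 * a ^ 2 * m ^ 4 * x * u ^ 7 * z ^ 2 - 72039672 * a ^ 2 * m ^ 4 * u ^ 8 * z ^ 3
      + 31809186 * a ^ 2 * m ^ 3 * x ^ 3 * u ^ 2 * z - 29840400 * a ^ 2 * m ^ 3 * x ^ 2 * u ^ 3 *
      z ^ 2 - 29183328 * a ^ 2 * m ^ 3 * x * u ^ 4 * z ^ 3 - 7295832 * a ^ 2 * m ^ 3 * u ^ 5 * z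
      ^ 4 + 99532800 * a ^ 2 * m ^ 2 * x ^ 2 * z ^ 3 + 49766400 * a ^ 2 * m ^ 2 * x * u * z ^ 4 +
      9953280 * a ^ 2 * m ^ 2 * u ^ 2 * z ^ 5 - 102400 * a * m ^ 9 * u ^ 17 - 2334045 * a * m ^ 8
      * x * u ^ 13 - 2457600 * a * m ^ 8 * u ^ 14 * z + 1284300 * a * m ^ 7 * x ^ 2 * u ^ 9 +
      368640 * a * m ^ 7 * x * u ^ 10 * z - 552960 * a * m ^ 7 * u ^ 11 * z ^ 2 + 16117920 * a *
      m ^ 6 * x ^ 2 * u ^ 6 * z + 27177120 * a * m ^ 6 * x * u ^ 7 * z ^ 2 + 8874720 * a * m ^ 6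
      * u ^ 8 * z ^ 3 - 3289005 * a * m ^ 5 * x ^ 3 * u ^ 2 * z + 9940320 * a * m ^ 5 * x ^ 2 * u
      ^ 3 * z ^ 2 + 8838720 * a * m ^ 5 * x * u ^ 4 * z ^ 3 + 2209680 * a * m ^ 5 * u ^ 5 * z ^ 4
      - 16588800 * a * m ^ 4 * x ^ 2 * z ^ 3 - 8294400 * a * m ^ 4 * x * u * z ^ 4 - 1658880 * a
      * m ^ 4 * u ^ 2 * z ^ 5 + 675 * m ^ 9 * x ^ 2 * u ^ 9 - 13320 * m ^ 8 * x ^ 2 * u ^ 6 * z -
      13320 * m ^ 8 * x * u ^ 7 * z ^ 2 - 4440 * m ^ 8 * u ^ 8 * z ^ 3 - 4995 * m ^ 7 * x ^ 3 * u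
      ^ 2 * z + 2160 * m ^ 7 * x ^ 2 * u ^ 3 * z ^ 2 + 1440 * m ^ 7 * x * u ^ 4 * z ^ 3 + 360 * m
      ^ 7 * u ^ 5 * z ^ 4) * hx

end Defs

section Map

variable {R S F : Type*} [CommRing R] [CommRing S] [FunLike F R S] [RingHomClass F R S] (φ : F)

theorem map_Q3 (x u z : R) :
    φ (Q3 x u z) = Q3 (φ x) (φ u) (φ z) := by
  simp only [Q3, map_add, map_sub, map_mul, map_pow, map_neg, map_ofNat]

theorem map_Q4 (x u z : R) :
    φ (Q4 x u z) = Q4 (φ x) (φ u) (φ z) := by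
  simp only [Q4, map_add, map_sub, map_mul, map_pow, map_neg, map_ofNat]

theorem map_Q5 (x u z : R) :
    φ (Q5 x u z) = Q5 (φ x) (φ u) (φ z) := by
  simp only [Q5, map_add, map_sub, map_mul, map_pow, map_neg, map_ofNat]

theorem map_g28 (a m x u z : R) :
    φ (g28 a m x u z) = g28 (φ a) (φ m) (φ x) (φ u) (φ z) := by
  simp only [g28, Q4, k28, map_add, map_sub, map_mul, map_pow, map_neg, map_ofNat]

theorem map_g34 (a m x u z : R) :
    φ (g34 a m x u z) = g34 (φ a) (φ m) (φ x) (φ u) (φ z) := by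
  simp only [g34, Q5, k28, map_add, map_sub, map_mul, map_pow, map_neg, map_ofNat]

theorem map_g40 (a m x u z : R) :
    φ (g40 a m x u z) = g40 (φ a) (φ m) (φ x) (φ u) (φ z) := by
  simp only [g40, Q6, k28, map_add, map_sub, map_mul, map_pow, map_neg, map_ofNat]

theorem map_p14 (x u z : R) :
    φ (p14 x u z) = p14 (φ x) (φ u) (φ z) := by
  simp only [p14, map_add, map_sub, map_mul, map_pow, map_neg, map_ofNat]

theorem map_p36 (x u z : R) :
    φ (p36 x u z) = p36 (φ x) (φ u) (φ z) := by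
  simp only [p36, Q5, map_add, map_sub, map_mul, map_pow, map_neg, map_ofNat]

theorem map_r16 (a m u y : R) :
    φ (r16 a m u y) = r16 (φ a) (φ m) (φ u) (φ y) := by
  simp only [r16, map_add, map_sub, map_mul, map_pow, map_neg, map_ofNat]

theorem map_r22 (a m u y t22 : R) :
    φ (r22 a m u y t22) = r22 (φ a) (φ m) (φ u) (φ y) (φ t22) := by
  simp only [r22, map_add, map_sub, map_mul, map_pow, map_neg, map_ofNat]

theorem map_cc1 (a m : R) :
    φ (cc1 a m) = cc1 (φ a) (φ m) := by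
  simp only [cc1, map_add, map_sub, map_mul, map_pow, map_neg, map_ofNat]

theorem map_rel58 (a m u y t28 t34 : R) :
    φ (rel58 a m u y t28 t34) = rel58 (φ a) (φ m) (φ u) (φ y) (φ t28) (φ t34) := by
  simp only [rel58, cc1, map_add, map_sub, map_mul, map_pow, map_neg, map_ofNat]

theorem map_hh1 (a m u y t22 t28 t34 t40 : R) :
    φ (hh1 a m u y t22 t28 t34 t40) = hh1 (φ a) (φ m) (φ u) (φ y) (φ t22) (φ t28) (φ t34) (φ t40) := by
  simp only [hh1, map_add, map_sub, map_mul, map_pow, map_neg, map_ofNat]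

theorem map_hh3 (a m u y t22 t28 : R) :
    φ (hh3 a m u y t22 t28) = hh3 (φ a) (φ m) (φ u) (φ y) (φ t22) (φ t28) := by
  simp only [hh3, map_add, map_sub, map_mul, map_pow, map_neg, map_ofNat]

theorem map_idn (a m u y t22 t28 t34 t40 : R) : φ (idn a m u y t22 t28 t34 t40) =
    idn (φ a) (φ m) (φ u) (φ y) (φ t22) (φ t28) (φ t34) (φ t40) := by
  simp only [idn, map_add, map_mul, map_rel58, map_r16, map_r22, map_hh1, map_hh3]

end Map

/-- a grading of a commutative ring -/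
structure Grd {R : Type*} [CommRing R] (H : ℤ → R → Prop) : Prop where
  add : ∀ {i j : ℤ} {a b : R}, H i a → H j b → i = j → H i (a + b)
  neg : ∀ {i : ℤ} {a : R}, H i a → H i (-a)
  mul : ∀ {i j : ℤ} {a b : R}, H i a → H j b → H (i + j) (a * b)
  nat : ∀ n : ℕ, H 0 (n : R)

namespace Grd

variable {R : Type*} [CommRing R] {H : ℤ → R → Prop} (h : Grd H)
include h

theorem sub {i j : ℤ} {a b : R} (ha : H i a) (hb : H j b) (e : i = j) : H i (a - b) := by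
  rw [sub_eq_add_neg]
  exact h.add ha (h.neg hb) e

theorem num (n : ℕ) [n.AtLeastTwo] : H 0 (OfNat.ofNat n : R) := h.nat n

theorem cast {i j : ℤ} {a : R} (ha : H i a) (e : i = j) : H j a := e ▸ ha

theorem pow {i : ℤ} {a : R} (ha : H i a) (n : ℕ) : H (i * n) (a ^ n) := by
  induction n with
  | zero =>
    have := h.nat 1
    simpa using this
  | succ n ih =>
    rw [pow_succ]
    exact h.cast (h.mul ih ha) (by push_cast; ring)

variable {a m x u z y t22 t28 t34 t40 : R} (ha : H 0 a) (hm : H 0 m)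

theorem Q3_deg (hx : H 8 x) (hu : H 2 u) (hz : H 6 z) :
    H 22 (Q3 x u z) := by
  simp only [Q3]
  apply h.cast
  repeat' first
    | assumption
    | apply h.num
    | apply h.add
    | apply h.sub
    | apply h.mul
    | apply h.pow
    | apply h.neg
  all_goals norm_num

include ha hm in
theorem g28_deg (hx : H 8 x) (hu : H 2 u) (hz : H 6 z) :
    H 28 (g28 a m x u z) := by
  simp only [g28, Q4, k28]
  apply h.cast
  repeat' first
    | assumption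
    | apply h.num
    | apply h.add
    | apply h.sub
    | apply h.mul
    | apply h.pow
    | apply h.neg
  all_goals norm_num

include ha hm in
theorem g34_deg (hx : H 8 x) (hu : H 2 u) (hz : H 6 z) :
    H 34 (g34 a m x u z) := by
  simp only [g34, Q5, k28]
  apply h.cast
  repeat' first
    | assumption
    | apply h.num
    | apply h.add
    | apply h.sub
    | apply h.mul
    | apply h.pow
    | apply h.neg
  all_goals norm_num

include ha hm in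
theorem g40_deg (hx : H 8 x) (hu : H 2 u) (hz : H 6 z) :
    H 40 (g40 a m x u z) := by
  simp only [g40, Q6, k28]
  apply h.cast
  repeat' first
    | assumption
    | apply h.num
    | apply h.add
    | apply h.sub
    | apply h.mul
    | apply h.pow
    | apply h.neg
  all_goals norm_num

include ha hm in
theorem r16_deg (hu : H 2 u) (hy : H 8 y) :
    H 16 (r16 a m u y) := by
  simp only [r16]
  apply h.cast
  repeat' first
    | assumption
    | apply h.num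
    | apply h.add
    | apply h.sub
    | apply h.mul
    | apply h.pow
    | apply h.neg
  all_goals norm_num

include ha hm in
theorem r22_deg (hu : H 2 u) (hy : H 8 y) (h22 : H 22 t22) :
    H 22 (r22 a m u y t22) := by
  simp only [r22]
  apply h.cast
  repeat' first
    | assumption
    | apply h.num
    | apply h.add
    | apply h.sub
    | apply h.mul
    | apply h.pow
    | apply h.neg
  all_goals norm_num

include ha hm in
theorem idn_deg (hu : H 2 u) (hy : H 8 y) (h22 : H 22 t22) (h28 : H 28 t28)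
    (h34 : H 34 t34) (h40 : H 40 t40) :
    H 58 (idn a m u y t22 t28 t34 t40) := by
  simp only [idn, rel58, r16, r22, hh1, hh3, cc1]
  apply h.cast
  repeat' first
    | assumption
    | apply h.num
    | apply h.add
    | apply h.sub
    | apply h.mul
    | apply h.pow
    | apply h.neg
  all_goals norm_num

end Grd

end Vale.Agent.P231Z.Alg
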