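import Vale.Agent.P231Z.Alg.Ev
import Vale.Agent.P231Z.Alg.Inv

/-!
# P231, Cayley case, algebra (9): evaluation of the Cartan model on spaces with a connection
-/

set_option linter.unusedSectionVars false
set_option linter.unusedVariables false

namespace Vale.Agent.P231Z.Alg

open Vale.Agent.P231 Vale.Agent.P231.Fm Vale.Agent.P231.W Vale.Agent.P231.H584
open Vale.Agent.P231.Fm.Form (IsDeg part)
open Polynomial

variable {X Y B M : Type*} {dX : Dif X} {dY : Dif Y} {dB : Dif B} {dM : Dif M} {T : ℝ}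

/-- a flow with a connection form -/
structure Cn (dY : Dif Y) (T : ℝ) where
  Ψ : Y × ℝ → Y
  α : Form dY
  hT : T ≠ 0
  hΨ : IsFlow dY T Ψ
  hα : Form.pull Ψ hΨ.map α = pr α + dt
  αd : IsDeg 1 α

theorem conn_speed {Φ : X × ℝ → X} {Ψ : Y × ℝ → Y} (hΦ : (dX.prod (Dif.lin ℝ)).Map dX Φ)
    (hΨ : (dY.prod (Dif.lin ℝ)).Map dY Ψ) {f : Y → X} (hf : dY.Map dX f) {r : ℝ} (hr : r ≠ 0)
    (hc : ∀ y t, f (Ψ (y, t)) = Φ (f y, r * t)) {α : Form dX}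
    (hα : Form.pull Φ hΦ α = pr α + dt) :
    Form.pull Ψ hΨ (r⁻¹ • Form.pull f hf α) = pr (r⁻¹ • Form.pull f hf α) + dt := by
  have h1 : (dY.prod (Dif.lin ℝ)).Map dX (fun p => Φ (f p.1, p.2)) :=
    fun {E} _ _ _ {u x} hh => hΦ (map_cyl hf hh)
  have h2 : (dY.prod (Dif.lin ℝ)).Map dX (fun p => Φ (f p.1, r * p.2)) :=
    fun {E} _ _ _ {u x} hh => h1 (map_scale r hh)
  rw [pl_smul, pull_pull hΨ hf h2 (fun p => hc _ _), ← pull_pull (map_scale r) h1 h2 (fun p => rfl),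
    ← pull_pull (map_cyl hf) hΦ h1 (fun p => rfl), hα, pl_add, pull_pr hf, pull_dt hf, pl_add,
    scale_pr, WA.scale_dt, smul_add, smul_smul, inv_mul_cancel₀ hr, one_smul, pr_smul]

theorem basic_at {Φ : X × ℝ → X} {hΦ : (dX.prod (Dif.lin ℝ)).Map dX Φ} {w : Form dX}
    (hw : Basic Φ hΦ w) (s : ℝ) : Form.pull (fun x => Φ (x, s)) (map_at hΦ s) w = w := by
  rw [← at_pull_of hΦ s, hw, at_pr]

theorem basic_K {φ : Y × ℝ → Y} {Ψ : (Y × ℝ) × ℝ → Y × ℝ}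
    (hφ : (dY.prod (Dif.lin ℝ)).Map dY φ)
    (hΨ : ((dY.prod (Dif.lin ℝ)).prod (Dif.lin ℝ)).Map (dY.prod (Dif.lin ℝ)) Ψ) (q : ℝ)
    (hc : ∀ y s t, Ψ ((y, s), q * t) = (φ (y, t), s)) {w : Form (dY.prod (Dif.lin ℝ))}
    (hw : Basic Ψ hΨ w) : Basic φ hφ (Form.K w) := by
  have h0 : ((dY.prod (Dif.lin ℝ)).prod (Dif.lin ℝ)).Map ((dY.prod (Dif.lin ℝ)).prod (Dif.lin ℝ))
      (fun p : (Y × ℝ) × ℝ => ((p.1.1, p.2), p.1.2)) :=
    fun {E} _ _ _ {u x} hh => ⟨⟨hh.1.1, hh.2⟩, hh.1.2⟩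
  have h1 : ((dY.prod (Dif.lin ℝ)).prod (Dif.lin ℝ)).Map ((dY.prod (Dif.lin ℝ)).prod (Dif.lin ℝ))
      (fun p : (Y × ℝ) × ℝ => ((p.1.1, p.2), q * p.1.2)) :=
    fun {E} _ _ _ {u x} hh => map_scale q (h0 hh)
  rw [basic_def, ← K_nat hφ, pr, ← K_nat Dif.map_fst,
    ← pull_pull h1 hΨ (map_cyl hφ) (fun p => hc _ _ _), hw, pr,
    pull_pull h1 Dif.map_fst (map_cyl Dif.map_fst) (fun p => rfl)]

namespace Cn

variable (n : Cn dY T)

theorem αo : n.α.sg = -n.α := n.αd.sg_of_odd odd_one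

theorem αα : n.α * n.α = 0 := (fs0 dY).sq_odd n.αo

theorem mul_α (a : Form dY) : a * n.α = n.α * a.sg := by
  have h := Form.mul_of_odd n.αo a.sg
  rw [Form.sg_sg] at h
  exact h.symm

theorem basic_dα : Basic n.Ψ n.hΨ.map n.α.d := by
  rw [basic_def, Form.pull_d, n.hα, Form.d_add, dt_d, add_zero, pr_d]

/-- the algebra of basic forms -/
noncomputable abbrev bs : SD (Bs n.hΨ) := bsd n.hΨ

/-- the Euler form -/
noncomputable def e : Bs n.hΨ := ⟨T⁻¹ • n.α.d, Basic.smul (hΦ := n.hΨ.map) _ n.basic_dα⟩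

theorem eG : n.e ∈ n.bs.G 2 := Dg_of (n.αd.d.smul _) rfl

theorem ed : n.bs.d n.e = 0 := Subtype.ext (by
  change (T⁻¹ • n.α.d).d = 0
  rw [Form.d_smul, Form.d_d, smul_zero])

/-- the Euler class -/
noncomputable def eZ : n.bs.Z := ⟨n.e, n.bs.G_even even_two n.eG, n.ed⟩

theorem hor_basic {w : Form dY} (hw : w ∈ Inv n.hΨ) :
    Basic n.Ψ n.hΨ.map (w - n.α * (T⁻¹ • J n.Ψ n.hΨ.map T w)) := by
  have h1 : Basic n.Ψ n.hΨ.map (T⁻¹ • J n.Ψ n.hΨ.map T w) :=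
    Basic.smul (hΦ := n.hΨ.map) _ (J_basic n.hΨ w)
  rw [basic_def, pl_sub, pl_mul, h1, n.hα, inv_eq n.hΨ n.hT hw, pr_sub, pr_mul, add_mul]
  abel

/-- the horizontal part -/
noncomputable def hor : Inv n.hΨ →ₐ[ℝ] Bs n.hΨ :=
  AlgHom.ofLinearMap
    { toFun := fun w => ⟨w.1 - n.α * (T⁻¹ • J n.Ψ n.hΨ.map T w.1), n.hor_basic w.2⟩
      map_add' := fun a b => Subtype.ext (by
        change a.1 + b.1 - n.α * (T⁻¹ • J n.Ψ n.hΨ.map T (a.1 + b.1)) = (_ - _) + (_ - _)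
        rw [J_add, smul_add, mul_add]
        abel)
      map_smul' := fun c a => Subtype.ext (by
        change c • a.1 - n.α * (T⁻¹ • J n.Ψ n.hΨ.map T (c • a.1)) = c • (_ - _)
        rw [J_smul, smul_comm, mul_smul_comm, smul_sub]) }
    (Subtype.ext (by
      change 1 - n.α * (T⁻¹ • J n.Ψ n.hΨ.map T 1) = 1
      rw [J_of_basic (hΦ := n.hΨ.map) T Basic.one, smul_zero, mul_zero, sub_zero]))
    (fun a b => Subtype.ext (by
      change a.1 * b.1 - n.α * (T⁻¹ • J n.Ψ n.hΨ.map T (a.1 * b.1)) = (_ - _) * (_ - _)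
      rw [J_mul_inv n.hΨ a.2 b.2, smul_add, ← smul_mul_assoc, ← mul_smul_comm, sub_mul, mul_sub,
        mul_sub, ← mul_assoc a.1, n.mul_α a.1, mul_assoc n.α _ (n.α * _),
        ← mul_assoc _ n.α (T⁻¹ • _), n.mul_α (T⁻¹ • _), ← mul_assoc, ← mul_assoc, n.αα, zero_mul,
        zero_mul, sub_zero, mul_add, mul_assoc, mul_assoc]
      abel))

theorem hor_val (w : Inv n.hΨ) : (n.hor w).1 = w.1 - n.α * (T⁻¹ • J n.Ψ n.hΨ.map T w.1) := rfl

end Cn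

variable {Φ : X × ℝ → X}

/-- the data of the Cartan model of a flow with fixed points -/
structure CX (h : IsFlow dX T Φ) (dM : Dif M) where
  cst : M → X
  hcst : dM.Map dX cst
  fix : ∀ m t, Φ (cst m, t) = cst m
  x : Inv h
  xG : IsDeg 8 x.1
  xd : x.1.d = 0
  x3 : Form.pull cst hcst x.1 ^ 3 = 0

variable {h : IsFlow dX T Φ}

/-- the Cartan model -/
noncomputable def CX.car (C : CX h dM) : Car (Inv h) where
  s := isd h C.hcst
  J := JI h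
  hJ := der_JI h C.hcst C.fix
  JJ := JI_JI h
  Jd := JI_d h C.hcst
  JK := fun a => fix_J h C.hcst C.fix a.1
  x := C.x
  xG := Dg_of C.xG rfl
  xd := Subtype.ext C.xd
  x3 := (pl_pow C.x.1 3).trans C.x3

/-- an equivariant map to `X` -/
structure Tg (h : IsFlow dX T Φ) (n : Cn dY T) where
  f : Y → X
  hf : dY.Map dX f
  hc : ∀ y t, f (n.Ψ (y, t)) = Φ (f y, t)

namespace Tg

variable {n : Cn dY T} (g : Tg h n) (C : CX h dM)

/-- pull-back of invariant forms -/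
noncomputable def pI : Inv h →ₐ[ℝ] Inv n.hΨ :=
  ((Form.pullA g.f g.hf).comp (Inv h).val).codRestrict (Inv n.hΨ)
    (fun a => inv_pull h n.hΨ g.hf g.hc a.2)

/-- the horizontal part of the pull-back -/
noncomputable def φ : Inv h →ₐ[ℝ] Bs n.hΨ := n.hor.comp g.pI

theorem pJ (w : Form dX) : J n.Ψ n.hΨ.map T (Form.pull g.f g.hf w) =
    Form.pull g.f g.hf (J Φ h.map T w) := (pull_J n.hΨ.map h.map g.hf g.hc T w).symm

theorem φ_val (a : Inv h) : (g.φ a).1 = Form.pull g.f g.hf a.1 -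
    n.α * (T⁻¹ • Form.pull g.f g.hf (J Φ h.map T a.1)) := by
  rw [← pJ]
  rfl

theorem φ_J (a : Inv h) : (g.φ (JI h a)).1 = Form.pull g.f g.hf (J Φ h.map T a.1) := by
  rw [φ_val, JI_val, J_of_basic (hΦ := h.map) T (J_basic h a.1), pl_zero, smul_zero, mul_zero,
    sub_zero]

/-- the evaluation -/
noncomputable def evd (η : Bs n.hΨ) (ηG : η ∈ n.bs.G 6) (ηd : n.bs.d η = g.φ C.car.A) :
    EvD C.car n.bs where
  φ := g.φ
  e := n.e
  η := η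
  eG := n.eG
  ed := n.ed
  hd := fun a => Subtype.ext (by
    change (g.φ ((isd h C.hcst).d a)).1 - (T⁻¹ • n.α.d) * (g.φ (JI h a)).1 = (g.φ a).1.d
    rw [φ_J, φ_val, φ_val, isd_d, J_d h, Form.d_sub, Form.d_mul, n.αo, Form.d_smul,
      ← Form.pull_d, ← Form.pull_d, pl_neg, smul_neg, mul_neg, neg_mul, smul_mul_assoc,
      mul_smul_comm T⁻¹ n.α.d]
    abel)
  hs := fun a => Subtype.ext (by
    change (g.φ ((isd h C.hcst).sg a)).1 = (g.φ a).1.sg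
    rw [φ_val, φ_val, isd_sg, J_sg h, sub_eq_add_neg, sub_eq_add_neg, Form.sg_add, Form.sg_neg,
      Form.sg_mul, n.αo, Form.sg_smul, ← Form.pull_sg, ← Form.pull_sg, pl_neg, smul_neg, mul_neg,
      neg_mul])
  hG := fun {i a} ha => by
    change (g.φ a).1 ∈ Dg dY i
    rw [φ_val]
    refine Submodule.sub_mem _ (Dg_pull ha _) ?_
    have h1 := Dg_mul (Dg_of n.αd rfl) (Submodule.smul_mem _ T⁻¹ (Dg_pull (Dg_J h ha) g.hf))
    rwa [show ((1 : ℕ) : ℤ) + (i - 1) = i by push_cast; ring] at h1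
  ηG := ηG
  ηd := ηd

end Tg

/-! ### cylinders -/

section Cyl

variable (n : Cn dB T) {r : ℝ} (hr : r ≠ 0) (hp : ∀ b, n.Ψ (b, r * T) = b)

theorem cyl_map : ((dB.prod (Dif.lin ℝ)).prod (Dif.lin ℝ)).Map (dB.prod (Dif.lin ℝ))
    (fun p : (B × ℝ) × ℝ => (n.Ψ (p.1.1, r * p.2), p.1.2)) :=
  fun {E} _ _ _ {u x} hh => ⟨n.hΨ.map (map_scale r (u := fun y => ((u y).1.1, (u y).2))
    ⟨hh.1.1, hh.2⟩), hh.1.2⟩

/-- the flow on the cylinder -/
noncomputable def Cn.cyl : Cn (dB.prod (Dif.lin ℝ)) T where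
  Ψ := fun p => (n.Ψ (p.1.1, r * p.2), p.1.2)
  α := r⁻¹ • pr n.α
  hT := n.hT
  hΨ := ⟨cyl_map n, fun x => by rw [mul_zero, n.hΨ.zero], fun x s t => by
    simp only [n.hΨ.add, mul_add], fun x => by simp only [hp]⟩
  hα := conn_speed n.hΨ.map (cyl_map n) Dif.map_fst hr (fun y t => rfl) n.hα
  αd := (n.αd.pull _ Dif.map_fst).smul _

/-- restriction to a slice -/
noncomputable def slc (s : ℝ) : Bs (n.cyl hr hp).hΨ →ₐ[ℝ] Bs n.hΨ :=
  bmap _ _ (Form.map_slice s) (basic_speed (n.cyl hr hp).hΨ.map n.hΨ.map (Form.map_slice s) r⁻¹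
    (fun y t => by
      change _ = (n.Ψ (y, r * (r⁻¹ * t)), s)
      rw [mul_inv_cancel_left₀ hr]))

theorem slc_val (s : ℝ) (w : Bs (n.cyl hr hp).hΨ) : (slc n hr hp s w).1 = at_ s w.1 := rfl

theorem mor_slc (s : ℝ) : Mor (n.cyl hr hp).bs n.bs (slc n hr hp s) := mor_bmap _ _ _ _

theorem slc_e (s : ℝ) : slc n hr hp s (n.cyl hr hp).e = r⁻¹ • n.e := Subtype.ext (by
  change Form.pull _ (Form.map_slice s) (T⁻¹ • (r⁻¹ • pr n.α).d) = r⁻¹ • T⁻¹ • n.α.d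
  rw [Form.d_smul, ← pr_d, pl_smul, pl_smul, smul_comm]
  exact congrArg (fun w => r⁻¹ • T⁻¹ • w) (at_pr s _))

theorem cyl_K {w : Form (dB.prod (Dif.lin ℝ))}
    (hw : Basic (n.cyl hr hp).Ψ (n.cyl hr hp).hΨ.map w) : Basic n.Ψ n.hΨ.map (Form.K w) :=
  basic_K n.hΨ.map (n.cyl hr hp).hΨ.map r⁻¹ (fun y s t => by
    change (n.Ψ (y, r * (r⁻¹ * t)), s) = _
    rw [mul_inv_cancel_left₀ hr]) hw

theorem cyl_Pm {w : Form (dB.prod (Dif.lin ℝ))}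
    (hw : Basic (n.cyl hr hp).Ψ (n.cyl hr hp).hΨ.map w) :
    Basic (n.cyl hr hp).Ψ (n.cyl hr hp).hΨ.map (Pm w) := by
  have h0 : (((dB.prod (Dif.lin ℝ)).prod (Dif.lin ℝ)).prod (Dif.lin ℝ)).Map
      ((dB.prod (Dif.lin ℝ)).prod (Dif.lin ℝ))
      (fun p : ((B × ℝ) × ℝ) × ℝ => ((n.cyl hr hp).Ψ (p.1.1, p.2), p.1.2)) :=
    fun {E} _ _ _ {u x} hh => ⟨(n.cyl hr hp).hΨ.map (u := fun y => ((u y).1.1, (u y).2))
      ⟨hh.1.1, hh.2⟩, hh.1.2⟩
  exact basic_K (n.cyl hr hp).hΨ.map h0 1 (fun y s t => by rw [one_mul])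
    (basic_equiv (n.cyl hr hp).hΨ.map h0 map_scal (fun y t => rfl) w hw)

theorem cyl_pr {w : Form dB} (hw : Basic n.Ψ n.hΨ.map w) :
    Basic (n.cyl hr hp).Ψ (n.cyl hr hp).hΨ.map (pr w) :=
  basic_speed n.hΨ.map (n.cyl hr hp).hΨ.map Dif.map_fst r (fun y t => rfl) w hw

/-- integration along the cylinder -/
noncomputable def cK : Bs (n.cyl hr hp).hΨ →ₗ[ℝ] Bs n.hΨ where
  toFun := fun w => ⟨Form.K w.1, cyl_K n hr hp w.2⟩
  map_add' := fun a b => Subtype.ext (Form.K_add a.1 b.1)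
  map_smul' := fun c a => Subtype.ext (Form.K_smul c a.1)

variable (C : CX h dM) (g : Tg h (n.cyl hr hp))

/-- the homotopy of evaluations given by a map of the cylinder -/
theorem exists_cyl {g1 : B → M} (hg1 : dB.Map dM g1) (k1 : ∀ b, g.f (b, 1) = C.cst (g1 b))
    (v0 : EvD C.car n.bs) (h1 : ∀ a, v0.φ a = slc n hr hp 0 (g.φ a)) (h2 : v0.e = r⁻¹ • n.e) :
    ∃ v1 : EvD C.car n.bs, Nonempty (Hty v0 v1) ∧ v1.Kil ∧ v1.e = r⁻¹ • n.e ∧
      (v1.φ C.x).1 = Form.pull g1 hg1 (Form.pull C.cst C.hcst C.x.1) ∧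
      v1.η = v0.η + cK n hr hp (g.φ C.car.A) := by
  have aG : (g.φ C.car.A).1 ∈ Dg _ 7 := by
    rw [show C.car.A = JI h C.x from rfl, g.φ_J]
    exact Dg_pull (C.car.AG) _
  have ad : (g.φ C.car.A).1.d = pr 0 := by
    rw [show C.car.A = JI h C.x from rfl, g.φ_J, ← Form.pull_d, pr_zero]
    have h3 : (J Φ h.map T C.x.1).d = 0 := congrArg Subtype.val C.car.Ad
    rw [h3, pl_zero]
  let η : Bs (n.cyl hr hp).hΨ := ⟨pr v0.η.1 + Pm (g.φ C.car.A).1,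
    Basic.add (hΦ := (n.cyl hr hp).hΨ.map) (cyl_pr n hr hp v0.η.2) (cyl_Pm n hr hp (g.φ _).2)⟩
  have ηG : η ∈ (n.cyl hr hp).bs.G 6 :=
    Submodule.add_mem _ (Dg_pull v0.ηG Dif.map_fst) (Dg_K (Dg_pull aG map_scal))
  have ηd : (n.cyl hr hp).bs.d η = g.φ C.car.A := Subtype.ext (by
    have h3 : v0.η.1.d = at_ 0 (g.φ C.car.A).1 := congrArg Subtype.val (v0.ηd.trans (h1 _))
    change (pr v0.η.1 + Pm (g.φ C.car.A).1).d = _
    rw [Form.d_add, Pm_d ad, ← pr_d, h3, add_sub_cancel])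
  have hc : dB.Map dX (fun b => C.cst (g1 b)) := fun {E} _ _ _ {u x} hh => C.hcst (hg1 hh)
  have h3 : ∀ w, at_ 1 (Form.pull g.f g.hf w) = Form.pull g1 hg1 (Form.pull C.cst C.hcst w) :=
    fun w => (pull_pull (Form.map_slice 1) g.hf hc k1 w).trans
      (pull_pull hg1 C.hcst hc (fun b => rfl) w).symm
  have h4 : ∀ a, (slc n hr hp 1 (g.φ a)).1 = Form.pull g1 hg1 (Form.pull C.cst C.hcst a.1) :=
    fun a => by
      rw [slc_val, g.φ_val, ← pl_smul, at_sub, at_mul, h3, h3, pl_smul, fix_J h C.hcst C.fix,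
        smul_zero, pl_zero, mul_zero, sub_zero]
  let vc := g.evd C η ηG ηd
  refine ⟨vc.map (mor_slc n hr hp 1), ⟨⟨(cK n hr hp).comp vc.ev.toLinearMap, fun y => ?_,
    fun y => ?_⟩⟩, fun a ha => Subtype.ext ?_, slc_e n hr hp 1, h4 _, Subtype.ext ?_⟩
  · rw [← vc.map_ev, v0.ev_congr (vc.map (mor_slc n hr hp 0)) h1
      (h2.trans (slc_e n hr hp 0).symm) (Subtype.ext ?_), ← vc.map_ev]
    · refine Subtype.ext ?_
      change at_ 1 (vc.ev y).1 - at_ 0 (vc.ev y).1 =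
        Form.K (vc.ev (C.car.s2.d y)).1 + (Form.K (vc.ev y).1).d
      rw [vc.mor.d]
      exact homotopy' _
    · change _ = at_ 0 (pr v0.η.1 + Pm (g.φ C.car.A).1)
      rw [at_add, at_pr, Pm_zero, add_zero]
  · refine Subtype.ext ?_
    change Form.K (vc.ev (C.car.u.1 * y)).1 = (slc n hr hp 1 (n.cyl hr hp).e).1 * Form.K (vc.ev y).1
    have h5 : vc.e.1 = pr (r⁻¹ • n.e).1 := by
      change T⁻¹ • (r⁻¹ • pr n.α).d = pr (r⁻¹ • T⁻¹ • n.α.d)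
      rw [Form.d_smul, pr_smul, pr_smul, pr_d, smul_comm]
    have h6 : (r⁻¹ • n.e).1.sg = (r⁻¹ • n.e).1 :=
      congrArg Subtype.val (n.bs.G_even even_two (Submodule.smul_mem _ r⁻¹ n.eG))
    rw [map_mul, vc.ev_u, slc_e, ← h6, ← K_pr_mul, ← h5]
    rfl
  · have h5 : Form.pull C.cst C.hcst a.1 = 0 := ha
    exact (h4 a).trans (by rw [h5, pl_zero]; rfl)
  · change at_ 1 (pr v0.η.1 + Pm (g.φ C.car.A).1) = v0.η.1 + Form.K _
    rw [at_add, at_pr, Pm_at, KT_one]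

end Cyl

end Vale.Agent.P231Z.Alg
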