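import Vale.Agent.P231Z.Alg.NE
import Vale.Agent.P231Z.Alg.Poly

/-!
# P231, Cayley case, algebra (7): uniqueness and existence of closed lifts
-/

set_option linter.unusedSectionVars false
set_option linter.unusedVariables false

namespace Vale.Agent.P231Z.Alg

open Polynomial

variable {R : Type*} [Ring R] [Algebra ℝ R]

theorem SD.grdE (s : SD R) : Grd (fun (i : ℤ) (a : s.Ev) => a.1 ∈ s.G i) where
  add := fun ha hb e => Submodule.add_mem _ ha (s.cast hb e.symm)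
  neg := fun ha => Submodule.neg_mem _ ha
  mul := fun ha hb => s.G_mul ha hb
  nat := fun n => by
    have := s.G_alg n
    rwa [map_natCast] at this

theorem SD.grdZ (s : SD R) : Grd (fun (i : ℤ) (a : s.Z) => a.1 ∈ s.G i) where
  add := fun ha hb e => Submodule.add_mem _ ha (s.cast hb e.symm)
  neg := fun ha => Submodule.neg_mem _ ha
  mul := fun ha hb => s.G_mul ha hb
  nat := fun n => by
    have := s.G_alg n
    rwa [map_natCast] at this

namespace Car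

variable {c : Car R}

/-- the tests in degree `n` vanish -/
def T2 (π : c.Pair) (n : ℤ) (y : R[X][X]) : Prop :=
  (∀ k : ℕ, n + 2 * k = 37 → π.Λ k 0 y = 0) ∧ (∀ k : ℕ, n + 2 * k = 29 → π.Λ k 1 y = 0)

theorem iter_d2 (j : ℕ) (p : R[X][X]) :
    derivative^[j] (c.s2.d p) = c.s2.d (derivative^[j] p) := by
  induction j with
  | zero => rfl
  | succ j ih => rw [Function.iterate_succ_apply', Function.iterate_succ_apply', ih, c.d2_der]

theorem iter_K {p : R[X][X]} (h : p ∈ c.s2.K) (j : ℕ) : derivative^[j] p ∈ c.s2.K := by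
  induction j with
  | zero => exact h
  | succ j ih => rw [Function.iterate_succ_apply']; exact c.K2_der ih

theorem d2_coeff (p : R[X][X]) (n : ℕ) : (c.s2.d p).coeff n =
    c.s1.d (p.coeff n) + C c.A * (p.coeff (n + 1) * (n + 1)) := by
  have h : c.s2.d p = cm c.s1.d p + C (C c.A) * derivative p := rfl
  rw [h, coeff_add, coeff_cm, coeff_C_mul, coeff_derivative]

section UE

variable (hc : c.Coh) {π : c.Pair} {z30 z38 : R} (hz : Nz π z30 z38)
include hc hz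

theorem ue_aux {n : ℤ} (m : ℕ) : ∀ y : R[X][X], y ∈ c.s2.G n → y ∈ c.s2.K → c.s2.d y = 0 →
    (∀ j : ℕ, T2 π (n - 6 * j) (derivative^[j] y)) → (∀ i, m ≤ i → y.coeff i = 0) →
    c.s2.Rx n y := by
  induction m with
  | zero =>
    intro y _ _ _ _ h
    refine SD.Rx.zero.congr ?_
    ext1 i
    rw [h i (Nat.zero_le i), coeff_zero]
  | succ m ih =>
    intro y hG hK hd ht h
    have h1 : c.s1.d (y.coeff m) = 0 := by
      have h2 := d2_coeff (c := c) y m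
      rwa [hd, coeff_zero, h (m + 1) le_rfl, zero_mul, mul_zero, add_zero, eq_comm] at h2
    have h2 : derivative^[m] y = (m.factorial : ℝ) • C (y.coeff m) := by
      ext1 i
      rw [coeff_iterate_derivative, coeff_smul, coeff_C]
      split_ifs with hi
      · rw [hi, zero_add, Nat.descFactorial_self, Nat.cast_smul_eq_nsmul]
      · rw [h _ (by omega), smul_zero, smul_zero]
    have h3 : (m.factorial : ℝ) ≠ 0 := Nat.cast_ne_zero.2 m.factorial_ne_zero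
    obtain ⟨t0, t1⟩ := ht m
    rw [h2] at t0 t1
    obtain ⟨θ, θG, θK, hθ⟩ := inj hc hz (n := n - 6 * m) (hG m) (hK m) h1
      (fun k hk => by
        have h4 := t0 k hk
        rw [map_smul, smul_eq_mul] at h4
        exact (mul_eq_zero.1 h4).resolve_left h3)
      (fun k hk => by
        have h4 := t1 k hk
        rw [map_smul, smul_eq_mul] at h4
        exact (mul_eq_zero.1 h4).resolve_left h3)
    have mG : monomial m θ ∈ c.s2.G (n - 1) := by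
      rw [← C_mul_X_pow_eq_monomial]
      exact c.s2.cast (c.s2.G_mul (c.G2_C θG) (c.s2.G_pow c.G2_X m)) (by ring)
    have mK : monomial m θ ∈ c.s2.K := by
      rw [← C_mul_X_pow_eq_monomial]
      exact c.s2.K_r _ (c.K2_C θK)
    have h5 : c.s2.Rx n (c.s2.d (monomial m θ)) := ⟨_, mG, mK, rfl⟩
    have h6 := ih (y - c.s2.d (monomial m θ))
      (Submodule.sub_mem _ hG (c.s2.cast (c.s2.G_d mG) (by ring)))
      (Submodule.sub_mem _ hK (c.s2.K_d mK)) (by rw [map_sub, hd, c.s2.d_d, sub_zero])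
      (fun j => by
        rw [iterate_map_sub, iter_d2]
        exact ⟨fun k hk => by rw [map_sub, (ht j).1 k hk, π.K _ _ _ (iter_K mK j), sub_zero],
          fun k hk => by rw [map_sub, (ht j).2 k hk, π.K _ _ _ (iter_K mK j), sub_zero]⟩)
      (fun i hi => by
        rw [coeff_sub, d2_coeff, coeff_monomial, coeff_monomial, if_neg (by omega : m ≠ i + 1),
          zero_mul, mul_zero, add_zero]
        split_ifs with h7
        · rw [← h7, hθ, sub_self]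
        · rw [h i (by omega), map_zero, sub_zero])
    exact (h6.add h5).congr (sub_add_cancel _ _)

theorem ue {n : ℤ} {y : R[X][X]} (hG : y ∈ c.s2.G n) (hK : y ∈ c.s2.K) (hd : c.s2.d y = 0)
    (ht : ∀ j : ℕ, T2 π (n - 6 * j) (derivative^[j] y)) : c.s2.Rx n y :=
  ue_aux hc hz (y.natDegree + 1) y hG hK hd ht fun i hi => coeff_eq_zero_of_natDegree_lt hi

/-- closed even relative elements are exact -/
theorem uniq {n : ℤ} (hn : n % 2 = 0) (y : c.s2.Z) (hG : y.1 ∈ c.s2.G n) (hK : y.1 ∈ c.s2.K) :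
    c.s2.cl y = 0 := by
  obtain ⟨θ, -, -, h⟩ := ue hc hz hG hK y.2.2 fun j =>
    ⟨fun k hk => by omega, fun k hk => by omega⟩
  rw [← map_zero c.s2.cl]
  exact c.s2.cl_eq (u := θ) (by rw [h]; exact (zero_add _).symm)

end UE

/-- the values of the functionals on polynomials -/
noncomputable def Pair.L (π : c.Pair) (k ε : ℕ) (g : Pol) : ℝ := π.Λ k ε (c.s2.d (c.τ g).1)

/-- the tests of a polynomial of degree `n` vanish -/
def TL (π : c.Pair) (n : ℤ) (g : Pol) : Prop :=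
  (∀ k : ℕ, n + 2 * k = 36 → π.L k 0 g = 0) ∧ (∀ k : ℕ, n + 2 * k = 28 → π.L k 1 g = 0)

/-- the tests of all derivatives vanish -/
def Sg (π : c.Pair) (n : ℤ) (g : Pol) : Prop :=
  ∀ j : ℕ, TL π (n - 6 * j) ((MvPolynomial.pderiv 2)^[j] g)

theorem Pair.L_smul (π : c.Pair) (k ε : ℕ) (r : ℝ) (g : Pol) :
    π.L k ε (r • g) = r * π.L k ε g := by
  rw [Pair.L, map_smul]
  change π.Λ k ε (c.s2.d (r • (c.τ g).1)) = _
  rw [map_smul, map_smul, smul_eq_mul, Pair.L]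

theorem Sg.zero (π : c.Pair) (n : ℤ) : Sg π n 0 := fun j => by
  have h : ∀ k ε, π.L k ε 0 = 0 := fun k ε => by
    have := π.L_smul k ε 0 0
    rwa [zero_smul, zero_mul] at this
  rw [iterate_map_zero]
  exact ⟨fun k _ => h _ _, fun k _ => h _ _⟩

theorem Sg.step {π : c.Pair} {n n' : ℤ} {G g : Pol} {r : ℝ} (h0 : TL π n G)
    (h1 : MvPolynomial.pderiv 2 G = r • g) (h2 : Sg π n' g) (e : n' = n - 6) : Sg π n G := by
  intro j
  rcases j with _ | j
  · simpa using h0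
  · have h3 : ∀ (i : ℕ) (f : Pol), (MvPolynomial.pderiv (R := ℝ) 2)^[i] (r • f) =
        r • (MvPolynomial.pderiv (R := ℝ) 2)^[i] f := fun i => by
      induction i with
      | zero => exact fun f => rfl
      | succ i ih =>
        intro f
        rw [Function.iterate_succ_apply, Function.iterate_succ_apply, Derivation.map_smul, ih]
    rw [Function.iterate_succ_apply, h1, h3]
    exact ⟨fun k hk => by rw [π.L_smul, (h2 j).1 k (by push_cast at hk; omega), mul_zero],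
      fun k hk => by rw [π.L_smul, (h2 j).2 k (by push_cast at hk; omega), mul_zero]⟩

theorem iter_τ (j : ℕ) (g : Pol) :
    derivative^[j] (c.τ g).1 = (c.τ ((MvPolynomial.pderiv 2)^[j] g)).1 := by
  induction j with
  | zero => rfl
  | succ j ih => rw [Function.iterate_succ_apply', Function.iterate_succ_apply', ih, c.der_τ]

/-- existence of closed lifts -/
theorem lift (hc : c.Coh) {π : c.Pair} {z30 z38 : R} (hz : Nz π z30 z38) {n : ℤ} (hn : Even n)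
    {g : Pol} (hG : (c.τ g).1 ∈ c.s2.G n) (hS : Sg π n g) :
    ∃ T : c.s2.Z, T.1 ∈ c.s2.G n ∧ c.s2.ZE T - c.τ g ∈ c.s2.KE := by
  obtain ⟨θ, θG, θK, hθ⟩ := ue hc hz (c.s2.G_d hG) (c.d_τ_K g) (c.s2.d_d _) fun j => by
    rw [iter_d2, iter_τ]
    exact ⟨fun k hk => (hS j).1 k (by omega), fun k hk => (hS j).2 k (by omega)⟩
  have h1 : (c.τ g).1 - θ ∈ c.s2.G n := Submodule.sub_mem _ hG (c.s2.cast θG (by ring))
  refine ⟨⟨(c.τ g).1 - θ, c.s2.G_even hn h1, by rw [map_sub, hθ, sub_self]⟩, h1, ?_⟩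
  change (c.τ g).1 - θ - (c.τ g).1 ∈ c.s2.K
  rw [sub_sub_cancel_left]
  exact Submodule.neg_mem _ θK

/-! ### the classes of degree 30 and 38 -/

theorem J_x3 : c.J (c.x ^ 3) = (3 : ℝ) • (c.x ^ 2 * c.A) := by
  have h1 : c.A * c.x = c.x * c.A := (c.s.even _ _ c.xe).symm
  have h2 : c.J (c.x * c.x) = (2 : ℝ) • (c.x * c.A) := by
    rw [c.hJ.mul, c.xe, two_smul]
    exact congrArg (· + c.x * c.A) h1
  rw [pow_succ', c.hJ.mul, c.xe, pow_two, h2, mul_smul_comm, ← mul_assoc c.x c.x,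
    show (3 : ℝ) = 1 + 2 by norm_num, add_smul, one_smul]
  congr 1
  change c.A * (c.x * c.x) = _
  rw [← mul_assoc, h1, mul_assoc, h1, mul_assoc]

theorem d_mul_aa {p q p' q' : c.s2.Ev} (hp : c.s2.d p.1 = c.aa * p'.1)
    (hq : c.s2.d q.1 = c.aa * q'.1) : c.s2.d (p * q).1 = c.aa * (p' * q + p * q').1 := by
  change c.s2.d (p.1 * q.1) = c.aa * (p'.1 * q.1 + p.1 * q'.1)
  rw [c.s2.d_mul_even p.2, hp, hq, mul_add, mul_assoc, ← mul_assoc p.1, c.s2.even _ c.aa p.2,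
    mul_assoc]

/-- the variable `x` -/
noncomputable abbrev X0 : Pol := MvPolynomial.X 0

/-- the variable `u` -/
noncomputable abbrev X1 : Pol := MvPolynomial.X 1

/-- the variable `ξ` -/
noncomputable abbrev X2 : Pol := MvPolynomial.X 2

theorem pd_num (i : Fin 3) (n : ℕ) [n.AtLeastTwo] :
    MvPolynomial.pderiv i (ofNat(n) : Pol) = 0 := Derivation.map_natCast _ n

theorem δ_X2 : δ X2 = 1 := by simp [δ]

theorem δ_p14 : δ (p14 X0 X1 X2) = 2 * X0 := by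
  simp [δ, p14, Derivation.leibniz_pow, pd_num]
  ring

theorem δ_Q4 : δ (Q4 X0 X1 X2) = 12 * X0 ^ 2 * X2 := by
  simp [δ, Q4, Derivation.leibniz_pow, pd_num]
  ring

theorem δ_p36 : δ (p36 X0 X1 X2) = 15 * X0 ^ 2 * p14 X0 X1 X2 := by
  simp [δ, p36, Q5, p14, Derivation.leibniz_pow, pd_num]
  ring

theorem aa_mul_smul (r : ℝ) (p : c.s2.Ev) : c.aa * (r • p).1 = r • (c.aa * p.1) :=
  mul_smul_comm r c.aa p.1

theorem CC_smul (r : ℝ) (a : R) : (C (C (r • a)) : R[X][X]) = r • C (C a) := by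
  rw [← smul_C, ← smul_C]

theorem nz_of (hc : c.Coh) (π : c.Pair) (n1 : π.L 15 0 X2 ≠ 0)
    (n2 : π.L 15 0 X2 * π.L 7 1 (p14 X0 X1 X2) - π.L 11 1 X2 * π.L 11 0 (p14 X0 X1 X2) ≠ 0)
    (n3 : π.L 0 1 (Q4 X0 X1 X2) ≠ 0) (n4 : π.L 0 0 (p36 X0 X1 X2) ≠ 0) :
    ∃ z30 z38, Nz π z30 z38 := by
  obtain ⟨U, UG, UK, hU⟩ := hc.ex 24 (by norm_num) (by norm_num) (by norm_num) (by norm_num)
    (c.x ^ 3) (c.s.cast (c.s.G_pow c.xG 3) (by norm_num)) c.x3 (c.s.d_pow_closed c.xe c.xd 3)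
  have UG' : U ∈ c.s.G 23 := c.s.cast UG (by norm_num)
  have bG : c.J U ∈ c.s.G 22 := c.s.cast (c.hJ.G UG') (by norm_num)
  have be : c.s.sg (c.J U) = c.J U := c.s.G_even (by decide) bG
  have bd : c.s.d (c.J U) = (-3 : ℝ) • (c.x ^ 2 * c.A) := by
    have h := c.Jd U
    rw [← hU, J_x3] at h
    rw [neg_smul, h, neg_neg]
  have hAx : c.A * c.x = c.x * c.A := (c.s.even _ _ c.xe).symm
  have hAb : c.A * c.J U = c.J U * c.A := (c.s.even _ _ be).symm
  have hxb : c.x * c.J U = c.J U * c.x := c.s.even _ _ c.xe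
  set z : R := c.J U * c.x + (3 : ℝ) • (U * c.A) with hzdef
  have zG : z ∈ c.s.G 30 := Submodule.add_mem _ (c.s.cast (c.s.G_mul bG c.xG) (by norm_num))
    (Submodule.smul_mem _ _ (c.s.cast (c.s.G_mul UG' c.AG) (by norm_num)))
  have zK : z ∈ c.s.K := Submodule.add_mem _ (c.s.K_r _ (c.JK _))
    (Submodule.smul_mem _ _ (c.s.K_l _ c.AK))
  have zd : c.s.d z = 0 := by
    rw [hzdef, map_add, map_smul, c.s.d_mul, c.s.d_mul, c.xd, c.Ad, bd, ← hU, mul_zero, mul_zero,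
      add_zero, add_zero, smul_mul_assoc, mul_assoc, hAx, ← mul_assoc, ← pow_succ, neg_smul,
      neg_add_cancel]
  have zJ : c.J z = (4 : ℝ) • (c.A * c.J U) := by
    rw [hzdef, map_add, map_smul, c.hJ.mul, c.hJ.mul, c.JJ, c.JA, be, zero_mul, mul_zero,
      zero_add, add_zero, hAb, show (4 : ℝ) = 1 + 3 by norm_num, add_smul, one_smul]
    rfl
  have zJ' : c.J (c.x * z) = (5 : ℝ) • (c.A * (c.J U * c.x)) := by
    have h1 : c.A * (U * c.A) = 0 := by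
      rw [← mul_assoc, c.s.odd _ U c.Ao, mul_assoc, c.AA, mul_zero]
    rw [c.hJ.mul, c.xe, zJ, hzdef, mul_add, mul_smul_comm, mul_smul_comm]
    change c.A * _ + (3 : ℝ) • (c.A * _) + _ = _
    rw [h1, smul_zero, add_zero, ← mul_assoc c.x, ← hAx, mul_assoc, hxb,
      show (5 : ℝ) = 1 + 4 by norm_num, add_smul, one_smul]
  let b : c.s2.Ev := ⟨C (C (c.J U)), c.s2.G_even (by decide) (c.G2_C (c.G1_C bG))⟩
  have bK : b.1 ∈ c.s2.K := c.K2_C (c.K1_C (c.JK _))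
  have db : c.s2.d b.1 = c.aa * (-3 * c.xx ^ 2 : c.s2.Ev).1 := by
    have h1 : (-3 * c.xx ^ 2 : c.s2.Ev) = (-3 : ℝ) • c.xx ^ 2 := by
      rw [Algebra.smul_def, map_neg, map_ofNat]
    rw [h1, aa_mul_smul]
    change c.s2.d (C (C (c.J U))) = (-3 : ℝ) • (C (C c.A) * C (C c.x) ^ 2)
    rw [c.d2_C, c.d1_C, c.JJ, map_zero, mul_zero, sub_zero, bd, CC_smul, ← map_pow, ← map_pow,
      ← map_mul, ← map_mul, pow_two, ← mul_assoc c.A, hAx, mul_assoc c.x c.A, hAx, mul_assoc]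
  have dξ : c.s2.d c.ξ.1 = c.aa * (1 : c.s2.Ev).1 := c.d_ξ.trans (mul_one _).symm
  have e1 : ∀ k ε, π.P k ε (C c.A) = π.L k ε X2 := fun k ε => by
    rw [Pair.L, c.τ2, c.d_ξ]
    rfl
  have e2 : ∀ k ε, π.L k ε (p14 X0 X1 X2) = 2 * π.P k ε (C (c.x * c.A)) := fun k ε => by
    have h1 : c.τ (2 * X0) = (2 : ℝ) • c.xx := by
      rw [map_mul, c.τ0, map_ofNat, Algebra.smul_def, map_ofNat]
    rw [Pair.L, c.d_τ, δ_p14, h1, aa_mul_smul, map_smul, smul_eq_mul, Pair.P, ← hAx, C_mul,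
      C_mul]
    rfl
  have e3 : ∀ k ε, π.P k ε (C (c.J z)) = π.L k ε (Q4 X0 X1 X2) := fun k ε => by
    have h1 := π.K k ε _ (c.s2.K_r c.ξ.1 bK)
    have h2 := d_mul_aa db dξ
    have h3 : c.τ (12 * X0 ^ 2 * X2) =
        (4 : ℝ) • b - (4 : ℝ) • (-3 * c.xx ^ 2 * c.ξ + b * 1) := by
      rw [map_mul, map_mul, map_pow, c.τ0, c.τ2, map_ofNat, Algebra.smul_def, Algebra.smul_def,
        map_ofNat]
      ring
    have h4 : c.s2.d (b.1 * c.ξ.1) = _ := h2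
    rw [Pair.L, c.d_τ, δ_Q4, h3]
    change _ = π.Λ k ε (c.aa * (((4 : ℝ) • b).1 - ((4 : ℝ) • _ : c.s2.Ev).1))
    rw [mul_sub, aa_mul_smul, aa_mul_smul, ← h4, map_sub, map_smul, map_smul, h1, smul_zero,
      sub_zero, Pair.P, zJ, CC_smul, map_smul, map_mul, map_mul]
    rfl
  have e4 : ∀ k ε, π.L k ε (p36 X0 X1 X2) = 2 * π.P k ε (C (c.J (c.x * z))) := fun k ε => by
    have h1 := π.K k ε _ (c.s2.K_r (c.τ (p14 X0 X1 X2)).1 bK)
    have h2 := d_mul_aa db (c.d_τ (p14 X0 X1 X2))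
    have h3 : c.τ (15 * X0 ^ 2 * p14 X0 X1 X2) = (10 : ℝ) • (b * c.xx) - (5 : ℝ) •
        (-3 * c.xx ^ 2 * c.τ (p14 X0 X1 X2) + b * c.τ (δ (p14 X0 X1 X2))) := by
      rw [δ_p14, map_mul, map_mul, map_mul, map_pow, c.τ0, map_ofNat, map_ofNat,
        Algebra.smul_def, Algebra.smul_def, map_ofNat, map_ofNat]
      ring
    have h4 : c.s2.d (b.1 * (c.τ (p14 X0 X1 X2)).1) = _ := h2
    rw [Pair.L, c.d_τ, δ_p36, h3]
    change π.Λ k ε (c.aa * (((10 : ℝ) • (b * c.xx)).1 - ((5 : ℝ) • _ : c.s2.Ev).1)) = _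
    rw [mul_sub, aa_mul_smul, aa_mul_smul, ← h4, map_sub, map_smul, map_smul, h1, smul_zero,
      sub_zero, Pair.P, zJ', CC_smul, map_smul, C_mul, C_mul, C_mul, C_mul, smul_eq_mul,
      smul_eq_mul, ← mul_assoc (2 : ℝ), show (2 : ℝ) * 5 = 10 by norm_num]
    rfl
  refine ⟨z, c.x * z, zG, zK, zd, c.s.cast (c.s.G_mul c.xG zG) (by norm_num), c.s.K_l _ zK,
    by rw [c.s.d_mul_closed c.xe c.xd, zd, mul_zero], by rwa [e1], ?_, by rwa [e3], ?_⟩
  · intro h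
    apply n2
    rw [e1, e1] at h
    rw [e2, e2]
    linear_combination 2 * h
  · intro h
    apply n4
    rw [e4, h, mul_zero]

/-- the closed element `u` -/
noncomputable def uZ (c : Car R) : c.s2.Z := ⟨c.u.1, c.u.2, c.d_u⟩

/-- the closed element `x + u ξ` -/
noncomputable def yZ (c : Car R) : c.s2.Z := ⟨(c.xx + c.u * c.ξ).1, (c.xx + c.u * c.ξ).2, by
  change c.s2.d (c.xx.1 + c.u.1 * c.ξ.1) = 0
  rw [map_add, c.d_xx, c.s2.d_mul_closed c.u.2 c.d_u, c.d_ξ, c.s2.even _ c.aa c.u.2,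
    neg_add_cancel]⟩

theorem uZ_G : c.uZ.1 ∈ c.s2.G 2 := c.uG

theorem yZ_G : c.yZ.1 ∈ c.s2.G 8 :=
  Submodule.add_mem _ c.xxG (c.s2.cast (c.s2.G_mul c.uG c.ξG) (by norm_num))

/-- the closed lifts and their relation -/
structure Lifts (c : Car R) (a μ : ℝ) (T22 T28 T34 T40 : c.s2.Z) : Prop where
  G22 : T22.1 ∈ c.s2.G 22
  G28 : T28.1 ∈ c.s2.G 28
  G34 : T34.1 ∈ c.s2.G 34
  K22 : c.s2.ZE T22 - Q3 c.xx c.u c.ξ ∈ c.s2.KE
  K28 : c.s2.ZE T28 - g28 (algebraMap ℝ _ a) (algebraMap ℝ _ μ) c.xx c.u c.ξ ∈ c.s2.KE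
  K34 : c.s2.ZE T34 - g34 (algebraMap ℝ _ a) (algebraMap ℝ _ μ) c.xx c.u c.ξ ∈ c.s2.KE
  rel : idn (algebraMap ℝ _ a) (algebraMap ℝ _ μ) (c.s2.cl c.uZ) (c.s2.cl c.yZ) (c.s2.cl T22)
    (c.s2.cl T28) (c.s2.cl T34) (c.s2.cl T40) = 0

theorem exists_lifts (hc : c.Coh) {π : c.Pair} {z30 z38 : R} (hz : Nz π z30 z38) (a μ : ℝ)
    (t4 : TL π 4 (X1 ^ 2)) (t10 : TL π 10 ((X0 + X1 * X2) * X1))
    (t16 : TL π 16 ((X0 + X1 * X2) ^ 2)) (t22 : TL π 22 (Q3 X0 X1 X2))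
    (t28 : TL π 28 (g28 (algebraMap ℝ _ a) (algebraMap ℝ _ μ) X0 X1 X2))
    (t34 : TL π 34 (g34 (algebraMap ℝ _ a) (algebraMap ℝ _ μ) X0 X1 X2)) :
    ∃ T22 T28 T34 T40, Lifts c a μ T22 T28 T34 T40 := by
  have s4 : Sg π 4 (X1 ^ 2) := Sg.step (r := 0) t4 (by simp) (Sg.zero π _) rfl
  have s10 : Sg π 10 ((X0 + X1 * X2) * X1) := Sg.step (r := 1) t10
    (by simp; ring) s4 (by norm_num)
  have s16 : Sg π 16 ((X0 + X1 * X2) ^ 2) := Sg.step (r := 2) t16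
    (by simp [Algebra.smul_def, map_ofNat]) s10 (by norm_num)
  have s22 : Sg π 22 (Q3 X0 X1 X2) := Sg.step (r := 3) t22
    (by simp [Q3, pd_num, Algebra.smul_def, map_ofNat]; ring) s16 (by norm_num)
  have s28 : Sg π 28 (g28 (algebraMap ℝ _ a) (algebraMap ℝ _ μ) X0 X1 X2) := Sg.step (r := 12) t28
    (by simp [g28, Q4, k28, Q3, pd_num, Algebra.smul_def, map_ofNat]; ring) s22 (by norm_num)
  have s34 : Sg π 34 (g34 (algebraMap ℝ _ a) (algebraMap ℝ _ μ) X0 X1 X2) :=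
    Sg.step (r := 5 * (μ ^ 2 - 3 * a)) t34
    (by simp [g34, g28, Q5, Q4, k28, pd_num, Algebra.smul_def, map_ofNat]; ring) s28 (by norm_num)
  have s40 : Sg π 40 (g40 (algebraMap ℝ _ a) (algebraMap ℝ _ μ) X0 X1 X2) :=
    Sg.step (r := 2) ⟨fun k hk => by omega, fun k hk => by omega⟩
    (by simp [g40, g34, Q6, Q5, k28, pd_num, Algebra.smul_def, map_ofNat]; ring) s34 (by norm_num)
  have e22 : c.τ (Q3 X0 X1 X2) = Q3 c.xx c.u c.ξ := by rw [map_Q3, c.τ0, c.τ1, c.τ2]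
  have e28 : c.τ (g28 (algebraMap ℝ _ a) (algebraMap ℝ _ μ) X0 X1 X2) =
      g28 (algebraMap ℝ _ a) (algebraMap ℝ _ μ) c.xx c.u c.ξ := by
    rw [map_g28, c.τ0, c.τ1, c.τ2, AlgHom.commutes, AlgHom.commutes]
  have e34 : c.τ (g34 (algebraMap ℝ _ a) (algebraMap ℝ _ μ) X0 X1 X2) =
      g34 (algebraMap ℝ _ a) (algebraMap ℝ _ μ) c.xx c.u c.ξ := by
    rw [map_g34, c.τ0, c.τ1, c.τ2, AlgHom.commutes, AlgHom.commutes]
  have e40 : c.τ (g40 (algebraMap ℝ _ a) (algebraMap ℝ _ μ) X0 X1 X2) =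
      g40 (algebraMap ℝ _ a) (algebraMap ℝ _ μ) c.xx c.u c.ξ := by
    rw [map_g40, c.τ0, c.τ1, c.τ2, AlgHom.commutes, AlgHom.commutes]
  obtain ⟨T22, G22, K22⟩ := lift hc hz (by decide)
    (by rw [e22]; exact c.s2.grdE.Q3_deg c.xxG c.uG c.ξG) s22
  obtain ⟨T28, G28, K28⟩ := lift hc hz (by decide)
    (by rw [e28]; exact c.s2.grdE.g28_deg (c.s2.G_alg a) (c.s2.G_alg μ) c.xxG c.uG c.ξG) s28
  obtain ⟨T34, G34, K34⟩ := lift hc hz (by decide)
    (by rw [e34]; exact c.s2.grdE.g34_deg (c.s2.G_alg a) (c.s2.G_alg μ) c.xxG c.uG c.ξG) s34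
  obtain ⟨T40, G40, K40⟩ := lift hc hz (by decide)
    (by rw [e40]; exact c.s2.grdE.g40_deg (c.s2.G_alg a) (c.s2.G_alg μ) c.xxG c.uG c.ξG) s40
  rw [e22] at K22
  rw [e28] at K28
  rw [e34] at K34
  rw [e40] at K40
  refine ⟨T22, T28, T34, T40, G22, G28, G34, K22, K28, K34, ?_⟩
  have h1 := uniq hc hz (n := 58) (by norm_num)
    (idn (algebraMap ℝ _ a) (algebraMap ℝ _ μ) c.uZ c.yZ T22 T28 T34 T40)
    (c.s2.grdZ.idn_deg (c.s2.G_alg a) (c.s2.G_alg μ) uZ_G yZ_G G22 G28 G34 G40) (by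
      let q : c.s2.Ev →ₐ[ℝ] c.s2.Ev ⧸ c.s2.KE := Ideal.Quotient.mkₐ ℝ c.s2.KE
      have hq : ∀ {v w : c.s2.Ev}, v - w ∈ c.s2.KE → q v = q w := fun h => Ideal.Quotient.eq.2 h
      have h2 : q (c.s2.ZE (idn (algebraMap ℝ _ a) (algebraMap ℝ _ μ) c.uZ c.yZ T22 T28 T34 T40))
          = 0 := by
        have h3 : c.s2.ZE c.uZ = c.u := rfl
        have h4 : c.s2.ZE c.yZ = c.xx + c.u * c.ξ := rfl
        have h5 : q c.xx ^ 3 = 0 := by
          rw [← map_pow]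
          exact Ideal.Quotient.eq_zero_iff_mem.2 c.xx3
        rw [map_idn, map_idn, hq K22, hq K28, hq K34, hq K40, h3, h4, map_Q3, map_g28, map_g34,
          map_g40, map_add, map_mul, c.s2.ZE.commutes, c.s2.ZE.commutes]
        exact idn_zero _ _ _ _ _ h5
      exact Ideal.Quotient.eq_zero_iff_mem.1 h2)
  rwa [map_idn, AlgHom.commutes, AlgHom.commutes] at h1

end Car

end Vale.Agent.P231Z.Alg
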